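/-
R302 / MG / Defs   (owner: helper244)

SHARED DEFINITIONS of the colouring side (paper Q, Sections 5-6) in the FINITARY design
(helper234 #3809, helper203 #3951, helper244 #ratified 04:05):

* a system = `D` measurable involutions `σ k` of a measurable space (plain functions, nothing bundled);
  words `w : List (Fin D)` act by `mgAct σ w`;   sites = points of the space (`V := Y` in `PvData`).
* invariant side (Section 5): a context `MgCtx Y D` = (σ, T, W, t, ρ, p): kernel, weights, shift parameter,
  computation radius, test polynomial `p ~ x_+`.   A configuration = (partial colouring `c`, mask `Q : Set Y`).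
  The costs `C.M c Q y`, `C.Df c Q y`, `C.Dfi c Q i y` are EXACTLY LOCAL finite computations.
* nonsingular side (Section 6): base data `MgBase X D` = (σ, δ, T) with Radon-Nikodym factors `δ k`;
  its Maharam lift lives on `X × ℝ`, measure `μ ⊗ e^s ds`, weight `e^{-s}`, mask = strip `|s| ≤ n`.
* randomness: labels are attached to the cells of a finite measurable partition; expectations are finite averages.
-/
import Claimed.Agent.R302.Poly.Defs

set_option autoImplicit false

namespace Claimed.Agent.R302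

open MeasureTheory Finset Polynomial
open scoped BigOperators ComplexConjugate ENNReal

noncomputable section

/-! ### words, balls, graph -/

section Words

variable {Y : Type*} {D : ℕ}

/-- action of a word: `mgAct σ (k :: w) y = σ k (mgAct σ w y)` -/
def mgAct (σ : Fin D → Y → Y) : List (Fin D) → Y → Y
  | [], y => y
  | k :: w, y => σ k (mgAct σ w y)

/-- the words of length at most `R` -/
def mgWords (D : ℕ) : ℕ → Finset (List (Fin D))
  | 0 => {[]}
  | R + 1 => mgWords D R ∪ ((Finset.univ : Finset (Fin D)) ×ˢ mgWords D R).image fun q => q.1 :: q.2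

/-- the ball of radius `R` around `y` -/
def mgBall [DecidableEq Y] (σ : Fin D → Y → Y) (R : ℕ) (y : Y) : Finset Y :=
  (mgWords D R).image fun w => mgAct σ w y

/-- the Schreier graph -/
def mgGraph (σ : Fin D → Y → Y) : SimpleGraph Y := SimpleGraph.fromRel fun u v => ∃ k, σ k u = v

/-- `D` measurable involutions with the three set property (SEP) for every word. -/
structure MgInv [MeasurableSpace Y] (σ : Fin D → Y → Y) : Prop where
  invol : ∀ k y, σ k (σ k y) = y
  meas : ∀ k, Measurable (σ k)
  sep : ∀ w : List (Fin D), ∃ E : Fin 3 → Set Y, (∀ i, MeasurableSet (E i)) ∧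
    (∀ y, mgAct σ w y ≠ y → ∃ i, y ∈ E i) ∧ ∀ i, ∀ y ∈ E i, mgAct σ w y ∉ E i

/-- Hermitian zero diagonal contraction kernel supported on the edges, measurable up to a (non measurable) gauge. -/
structure MgKer [MeasurableSpace Y] (σ : Fin D → Y → Y) (T : Y → Y → ℂ) : Prop where
  herm : ∀ u v, T u v = conj (T v u)
  zdiag : ∀ v, T v v = 0
  contr : ∀ (S : Finset Y) (x : Y → ℂ),
    ‖∑ u ∈ S, ∑ v ∈ S, conj (x u) * T u v * x v‖ ≤ ∑ u ∈ S, ‖x u‖ ^ 2
  supp : ∀ u v, T u v ≠ 0 → ∃ k, σ k u = v
  gauge : ∃ (τ : List (Fin D) → List (Fin D) → Y → ℂ) (θ : List (Fin D) → Y → ℂ),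
    (∀ w w', Measurable (τ w w')) ∧ (∀ w y, ‖θ w y‖ = 1) ∧
      ∀ w w' y, τ w w' y = θ w y * T (mgAct σ w y) (mgAct σ w' y) * conj (θ w' y)

/-- `cell` separates the points of every `R`-ball. -/
def MgSeparates [DecidableEq Y] {ι : Type*} (σ : Fin D → Y → Y) (cell : Y → ι) (R : ℕ) : Prop :=
  ∀ y, ∀ u ∈ mgBall σ R y, ∀ v ∈ mgBall σ R y, cell u = cell v → u = v

end Words

/-! ### exactly local costs on a weighted system (Section 5) -/

/-- shift at a site: `t` if unassigned, `80 t` if assigned -/
def mgTau {r : ℕ} (t : ℝ) (c : Option (Fin r)) : ℝ := if c.isNone then t else 80 * t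

/-- A context: involutions, kernel, weights, shift parameter, radius of the computations, test polynomial. -/
structure MgCtx (Y : Type*) (D : ℕ) where
  σ : Fin D → Y → Y
  T : Y → Y → ℂ
  W : Y → ℝ
  t : ℝ
  ρ : ℕ
  p : ℝ[X]

namespace MgCtx

variable {Y : Type*} [DecidableEq Y] {D r : ℕ} (C : MgCtx Y D)

/-- the test function -/
def f (x : ℝ) : ℝ := C.p.eval x

/-- the site data of a partial colouring -/
def data (c : Y → Option (Fin r)) : PvData Y r := ⟨C.T, C.W, c, fun y => mgTau C.t (c y)⟩

open Classical in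
/-- the finite principal set of the computation at `y`: present sites of the `ρ`-ball -/
def set (Q : Set Y) (y : Y) : Finset Y := (mgBall C.σ C.ρ y).filter (· ∈ Q)

open Classical in
/-- rooted cost `m_y[f]` (zero at absent sites) -/
def M (c : Y → Option (Fin r)) (Q : Set Y) (y : Y) : ℝ :=
  if y ∈ Q then (C.data c).rho (C.set Q y) y C.f else 0

open Classical in
/-- deletion increment `d_y[f]` (zero at absent sites) -/
def Df (c : Y → Option (Fin r)) (Q : Set Y) (y : Y) : ℝ :=
  if y ∈ Q then (C.data c).df (C.set Q y) y C.f else 0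

/-- virtual increment `d^i_y[f]`: the site `y` is assigned the colour `i` (shift `80 t`) -/
def Dfi (c : Y → Option (Fin r)) (Q : Set Y) (i : Fin r) (y : Y) : ℝ :=
  C.Df (Function.update c y (some i)) Q y

end MgCtx

/-- `p` approximates `x_+` on `[-L, L]`, uniformly and in the sense of (5.5) of Q. -/
structure MgApx (p : ℝ[X]) (L ε : ℝ) : Prop where
  sup : ∀ x ∈ Set.Icc (-L) L, |p.eval x - max x 0| ≤ ε
  der : |p.eval (-L)| + ∫ x in (-L)..L, |p.derivative.eval x - (if 0 < x then 1 else 0)| ≤ ε

/-! ### nonsingular base and its lift (Section 6) -/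

/-- base data: involutions, Radon-Nikodym factors `δ k x = Δ(σ_k x, x)`, kernel -/
structure MgBase (X : Type*) (D : ℕ) where
  σ : Fin D → X → X
  δ : Fin D → X → ℝ
  T : X → X → ℂ

namespace MgBase

variable {X : Type*} {D r : ℕ} (B : MgBase X D)

/-- the cocycle along a word: `coc w x = Δ(w x, x)` -/
def coc (B : MgBase X D) : List (Fin D) → X → ℝ
  | [], _ => 1
  | k :: w, x => B.δ k (mgAct B.σ w x) * coc B w x

/-- hypotheses on the base (everything holds EVERYWHERE) -/
structure Good [MeasurableSpace X] (μ : Measure X) (K : ℝ) : Prop where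
  prob : IsProbabilityMeasure μ
  inv : MgInv B.σ
  ker : MgKer B.σ B.T
  one_le : 1 ≤ K
  δ_meas : ∀ k, Measurable (B.δ k)
  δ_lo : ∀ k x, K⁻¹ ≤ B.δ k x
  δ_hi : ∀ k x, B.δ k x ≤ K
  rn : ∀ (k : Fin D) (g : X → ℝ≥0∞), Measurable g →
    ∫⁻ x, g (B.σ k x) * ENNReal.ofReal (B.δ k x) ∂μ = ∫⁻ x, g x ∂μ
  coh : ∀ w w' x, mgAct B.σ w x = mgAct B.σ w' x → B.coc w x = B.coc w' x

/-- lifted involutions on `X × ℝ` -/
def lσ (k : Fin D) (y : X × ℝ) : X × ℝ := (B.σ k y.1, y.2 - Real.log (B.δ k y.1))

open Classical in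
/-- lifted kernel (zero unless the two lifted sites are joined by a lifted generator) -/
def lT (y y' : X × ℝ) : ℂ := if ∃ k, B.lσ k y = y' then B.T y.1 y'.1 else 0

/-- the lifted context: weight `e^{-s}` -/
def ctx (t : ℝ) (ρ : ℕ) (p : ℝ[X]) : MgCtx (X × ℝ) D := ⟨B.lσ, B.lT, fun y => Real.exp (-y.2), t, ρ, p⟩

end MgBase

/-- the invariant measure of the lift: `μ ⊗ e^s ds` -/
def mgLiftμ {X : Type*} [MeasurableSpace X] (μ : Measure X) : Measure (X × ℝ) :=
  μ.prod (volume.withDensity fun s => ENNReal.ofReal (Real.exp s))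

/-- the strip `|s| ≤ n` -/
def mgStrip (X : Type*) (n : ℝ) : Set (X × ℝ) := {y | |y.2| ≤ n}

/-- lifted colouring -/
def mgUp {X : Type*} {r : ℕ} (c : X → Option (Fin r)) : X × ℝ → Option (Fin r) := fun y => c y.1

/-- The parameters of the algorithm: shift `t`, radius `ρ`, polynomial `p`, strip half width `n`. -/
structure MgPar where
  t : ℝ
  ρ : ℕ
  p : ℝ[X]
  n : ℝ

namespace MgBase

variable {X : Type*} [DecidableEq X] {D r : ℕ} (B : MgBase X D) (P : MgPar)

/-- strip cost fields of a partial colouring of the base -/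
def sM (c : X → Option (Fin r)) (y : X × ℝ) : ℝ := (B.ctx P.t P.ρ P.p).M (mgUp c) (mgStrip X P.n) y
def sDf (c : X → Option (Fin r)) (y : X × ℝ) : ℝ := (B.ctx P.t P.ρ P.p).Df (mgUp c) (mgStrip X P.n) y
/-- virtual cost: colour `i` at the BASE site `y.1` -/
def sDfi (c : X → Option (Fin r)) (i : Fin r) (y : X × ℝ) : ℝ := B.sDf P (Function.update c y.1 (some i)) y

/-- strip integrated (height integrated) costs: `∫_{-n}^{n} g(x,s) e^s ds` -/
def mbar (c : X → Option (Fin r)) (x : X) : ℝ := ∫ s in (-P.n)..P.n, B.sM P c (x, s) * Real.exp s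
def dbar (c : X → Option (Fin r)) (x : X) : ℝ := ∫ s in (-P.n)..P.n, B.sDf P c (x, s) * Real.exp s
def dibar (c : X → Option (Fin r)) (i : Fin r) (x : X) : ℝ :=
  ∫ s in (-P.n)..P.n, B.sDfi P c i (x, s) * Real.exp s

/-- total cost `= 2 n S_n(c)` -/
def cost [MeasurableSpace X] (μ : Measure X) (c : X → Option (Fin r)) : ℝ := ∫ x, B.mbar P c x ∂μ

end MgBase

/-! ### the algorithm -/

/-- first minimiser of `a` in the cyclic order starting at `s` -/
def mgChoose {r : ℕ} [NeZero r] (a : Fin r → ℝ) (s : Fin r) : Fin r :=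
  if h : (Finset.univ.filter fun k : Fin r => ∀ j, a (s + k) ≤ a j).Nonempty then
    s + (Finset.univ.filter fun k : Fin r => ∀ j, a (s + k) ≤ a j).min' h
  else s

namespace MgBase

variable {X : Type*} [DecidableEq X] {D r : ℕ} [NeZero r] (B : MgBase X D) (P : MgPar)

open Classical in
/-- one round: the activated unassigned sites receive the colour minimising `dibar`, ties broken by the cyclic shift `tie` -/
def step (c : X → Option (Fin r)) (act : X → Prop) (tie : X → Fin r) : X → Option (Fin r) := fun x =>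
  if c x = none ∧ act x then some (mgChoose (fun i => B.dibar P c i x) (tie x)) else c x

end MgBase

/-- labels of `j` rounds: (activation value in `Fin A`, active iff `0`; tie shift in `Fin r`) -/
def MgLab (A r : ℕ) : ℕ → Type
  | 0 => Unit
  | j + 1 => MgLab A r j × (Fin A × Fin r)

instance mgLabFintype (A r : ℕ) : ∀ j, Fintype (MgLab A r j)
  | 0 => inferInstanceAs (Fintype Unit)
  | j + 1 => by
      haveI := mgLabFintype A r j
      exact inferInstanceAs (Fintype (MgLab A r j × (Fin A × Fin r)))

namespace MgBase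

variable {X : Type*} [DecidableEq X] {D r : ℕ} [NeZero r] (B : MgBase X D) (P : MgPar)

/-- the partial colouring after `j` rounds, as a function of the label field -/
def run (B : MgBase X D) (P : MgPar) (A : ℕ) : (j : ℕ) → (X → MgLab A r j) → X → Option (Fin r)
  | 0, _ => fun _ => none
  | j + 1, ℓ => B.step P (run B P A j fun x => (ℓ x).1) (fun x => ((ℓ x).2.1 : ℕ) = 0) fun x => (ℓ x).2.2

/-- the final colouring: remaining sites receive the last label -/
def fin (A N : ℕ) (ℓ : X → MgLab A r N × Fin r) (x : X) : Fin r :=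
  (B.run P A N (fun x => (ℓ x).1) x).getD (ℓ x).2

/-- the pinched matrix on the `m`-ball at `x` violates the bound `b` (quadratic form version) -/
def BadAt (c : X → Option (Fin r)) (m : ℕ) (b : ℝ) (x : X) : Prop :=
  ∃ ξ : X → ℂ, b * ∑ u ∈ mgBall B.σ m x, ‖ξ u‖ ^ 2 <
    ‖∑ u ∈ mgBall B.σ m x, ∑ v ∈ mgBall B.σ m x,
      (if c u = c v then conj (ξ u) * B.T u v * ξ v else 0)‖

end MgBase

end

end Claimed.Agent.R302
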