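/-
R302 / MG / CostA   (owner helper107)   tools for MG/Cost.lean
* linearity of `rho`, `df` in a polynomial test function;
* the step function, `x_+` and polynomials as integrals of their derivatives;
* existence of the approximating polynomial (`mgc_exists_apx`).
-/
import Claimed.Agent.R302.MG.Defs
import Claimed.Agent.R302.Poly.Local
import Claimed.Agent.R302.Poly.Bounds

set_option autoImplicit false
set_option linter.unusedSectionVars false

namespace Claimed.Agent.R302

open MeasureTheory Finset Polynomial
open scoped BigOperators ComplexConjugate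

noncomputable section

theorem mgc_rootSum_eval (P : ℂ[X]) (p : ℝ[X]) :
    pvRootSum P (fun x => p.eval x) =
      ∑ j ∈ Finset.range (p.natDegree + 1), p.coeff j * pvRootSum P fun x => x ^ j := by
  unfold pvRootSum
  induction P.roots using Multiset.induction_on with
  | empty => simp
  | cons a s ih =>
    simp only [Multiset.map_cons, Multiset.sum_cons, ih, mul_add, Finset.sum_add_distrib]
    rw [Polynomial.eval_eq_sum_range]

namespace PvData

variable {V : Type*} [DecidableEq V] {r : ℕ}

theorem rho_eval (D : PvData V r) (S : Finset V) (v : V) (p : ℝ[X]) :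
    D.rho S v (fun x => p.eval x) =
      ∑ j ∈ Finset.range (p.natDegree + 1), p.coeff j * D.rho S v fun x => x ^ j := by
  unfold rho pvRho
  simp_rw [Polynomial.eval_eq_sum_range, Finset.mul_sum]
  rw [Finset.sum_comm]
  refine Finset.sum_congr rfl fun j _ => Finset.sum_congr rfl fun μ _ => ?_
  ring

theorem df_eval (D : PvData V r) (S : Finset V) (v : V) (p : ℝ[X]) :
    D.df S v (fun x => p.eval x) =
      ∑ j ∈ Finset.range (p.natDegree + 1), p.coeff j * D.df S v fun x => x ^ j := by
  unfold df
  rw [mgc_rootSum_eval, mgc_rootSum_eval, ← Finset.sum_sub_distrib]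
  exact Finset.sum_congr rfl fun j _ => by ring

end PvData

/-! ### step function -/

/-- the step function `1_{x > 0}` -/
def mgcStep (x : ℝ) : ℝ := if 0 < x then 1 else 0

theorem mgcStep_mono : Monotone mgcStep := by
  intro a b hab
  unfold mgcStep
  split_ifs with h1 h2
  · exact le_refl _
  · exact absurd (h1.trans_le hab) h2
  · exact zero_le_one
  · exact le_refl _

theorem mgcStep_integrable (a b : ℝ) : IntervalIntegrable mgcStep volume a b :=
  mgcStep_mono.intervalIntegrable

theorem mgcStep_integral_zero (x : ℝ) : ∫ s in (0 : ℝ)..x, mgcStep s = max x 0 := by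
  rcases le_total x 0 with hx | hx
  · rw [max_eq_right hx]
    have : Set.EqOn mgcStep (fun _ => (0 : ℝ)) (Set.uIcc 0 x) := by
      intro s hs
      rw [Set.uIcc_of_ge hx] at hs
      simp only [mgcStep, if_neg (not_lt.2 hs.2)]
    rw [intervalIntegral.integral_congr this]
    simp
  · rw [max_eq_left hx, intervalIntegral.integral_of_le hx]
    have : Set.EqOn mgcStep (fun _ => (1 : ℝ)) (Set.Ioc 0 x) := by
      intro s hs
      simp only [mgcStep, if_pos hs.1]
    rw [setIntegral_congr_fun measurableSet_Ioc this]
    simp [hx]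

theorem mgcStep_integral (a b : ℝ) : ∫ s in a..b, mgcStep s = max b 0 - max a 0 := by
  rw [← intervalIntegral.integral_interval_sub_left (mgcStep_integrable 0 b) (mgcStep_integrable 0 a),
    mgcStep_integral_zero, mgcStep_integral_zero]

theorem mgc_max_eq_integral {L : ℝ} (hL : 0 ≤ L) (x : ℝ) :
    max x 0 = 0 + ∫ s in (-L)..x, (if 0 < s then (1 : ℝ) else 0) := by
  have := mgcStep_integral (-L) x
  unfold mgcStep at this
  rw [this, max_eq_right (by linarith : -L ≤ 0)]
  ring

theorem mgc_eval_eq_integral (p : ℝ[X]) (a x : ℝ) :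
    p.eval x = p.eval a + ∫ s in a..x, p.derivative.eval s := by
  rw [intervalIntegral.integral_eq_sub_of_hasDerivAt (fun s _ => p.hasDerivAt s)
    (p.derivative.continuous.intervalIntegrable _ _)]
  ring

theorem mgc_exists_antideriv (q : ℝ[X]) : ∃ P : ℝ[X], P.derivative = q := by
  induction q using Polynomial.induction_on' with
  | add p q hp hq =>
    obtain ⟨P, rfl⟩ := hp
    obtain ⟨Q, rfl⟩ := hq
    exact ⟨P + Q, derivative_add⟩
  | monomial n a =>
    refine ⟨monomial (n + 1) (a / (n + 1)), ?_⟩
    rw [derivative_monomial, Nat.add_sub_cancel]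
    congr 1
    push_cast
    field_simp

/-- the ramp -/
def mgcRamp (δ x : ℝ) : ℝ := max 0 (min 1 (x / δ))

theorem mgcRamp_continuous (δ : ℝ) : Continuous (mgcRamp δ) := by
  unfold mgcRamp
  fun_prop

theorem mgcRamp_sub_step {δ : ℝ} (hδ : 0 < δ) (x : ℝ) :
    |mgcRamp δ x - mgcStep x| ≤ mgcStep x - mgcStep (x - δ) := by
  unfold mgcRamp mgcStep
  rcases le_or_gt x 0 with h1 | h1
  · have h2 : x / δ ≤ 0 := div_nonpos_of_nonpos_of_nonneg h1 hδ.le
    rw [if_neg (not_lt.2 h1), if_neg (by linarith), max_eq_left ((min_le_right _ _).trans h2)]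
    simp
  · rcases le_or_gt x δ with h2 | h2
    · have h3 : 0 ≤ x / δ := (div_pos h1 hδ).le
      have h4 : x / δ ≤ 1 := (div_le_one hδ).2 h2
      rw [if_pos h1, if_neg (by linarith), min_eq_right h4, max_eq_right h3, abs_le]
      constructor <;> linarith
    · have h4 : 1 ≤ x / δ := (one_le_div hδ).2 h2.le
      rw [if_pos h1, if_pos (by linarith), min_eq_left h4, max_eq_right zero_le_one]
      simp

/-- existence of the approximating polynomial -/
theorem mgc_exists_apx {L ε : ℝ} (hL : 0 < L) (hε : 0 < ε) : ∃ p : ℝ[X], MgApx p L ε := by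
  set δ := ε / 2 with hδ
  have hδ0 : 0 < δ := by positivity
  set η := ε / (4 * L) with hη
  have hη0 : 0 < η := by positivity
  obtain ⟨q, hq⟩ := exists_polynomial_near_of_continuousOn (-L) L (mgcRamp δ)
    (mgcRamp_continuous δ).continuousOn η hη0
  obtain ⟨P, hP⟩ := mgc_exists_antideriv q
  set p := P - C (P.eval (-L)) with hp
  have hp' : p.derivative = q := by rw [hp, derivative_sub, derivative_C, sub_zero, hP]
  have hp0 : p.eval (-L) = 0 := by rw [hp, eval_sub, eval_C, sub_self]
  have hLL : -L ≤ L := by linarith
  have hqi : ∀ a b, IntervalIntegrable (fun x => q.eval x) volume a b := fun a b =>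
    q.continuous.intervalIntegrable _ _
  have hdi : ∀ a b, IntervalIntegrable (fun x => q.eval x - mgcStep x) volume a b := fun a b =>
    (hqi a b).sub (mgcStep_integrable a b)
  have hsi : IntervalIntegrable (fun x => mgcStep (x - δ)) volume (-L) L :=
    (mgcStep_mono.comp (fun a b h => sub_le_sub_right h δ)).intervalIntegrable
  have hbi : IntervalIntegrable (fun x => η + (mgcStep x - mgcStep (x - δ))) volume (-L) L :=
    (intervalIntegrable_const).add ((mgcStep_integrable _ _).sub hsi)
  have hpt : ∀ x ∈ Set.Icc (-L) L, |q.eval x - mgcStep x| ≤ η + (mgcStep x - mgcStep (x - δ)) := by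
    intro x hx
    calc |q.eval x - mgcStep x| = |(q.eval x - mgcRamp δ x) + (mgcRamp δ x - mgcStep x)| := by ring_nf
      _ ≤ |q.eval x - mgcRamp δ x| + |mgcRamp δ x - mgcStep x| := abs_add_le _ _
      _ ≤ η + (mgcStep x - mgcStep (x - δ)) := add_le_add (hq x hx).le (mgcRamp_sub_step hδ0 x)
  have hI : ∫ x in (-L)..L, |q.eval x - mgcStep x| ≤ ε := by
    calc ∫ x in (-L)..L, |q.eval x - mgcStep x|
        ≤ ∫ x in (-L)..L, (η + (mgcStep x - mgcStep (x - δ))) :=
          intervalIntegral.integral_mono_on hLL (hdi _ _).abs hbi hpt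
      _ = η * (2 * L) + (L - max (L - δ) 0) := by
          rw [intervalIntegral.integral_add intervalIntegrable_const
              ((mgcStep_integrable _ _).sub hsi),
            intervalIntegral.integral_sub (mgcStep_integrable _ _) hsi,
            intervalIntegral.integral_const, mgcStep_integral,
            intervalIntegral.integral_comp_sub_right mgcStep δ, mgcStep_integral,
            max_eq_left hL.le, max_eq_right (by linarith : -L ≤ 0),
            max_eq_right (by linarith : -L - δ ≤ 0), smul_eq_mul]
          ring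
      _ ≤ η * (2 * L) + δ := by
          have := le_max_left (L - δ) 0
          linarith
      _ = ε := by
          rw [hη, hδ]
          field_simp
          ring
  refine ⟨p, ?_, ?_⟩
  · intro x hx
    have e1 := mgc_eval_eq_integral p (-L) x
    rw [hp0, hp', zero_add] at e1
    have e2 := mgcStep_integral (-L) x
    rw [max_eq_right (by linarith : -L ≤ 0), sub_zero] at e2
    rw [e1, ← e2, ← intervalIntegral.integral_sub (hqi _ _) (mgcStep_integrable _ _)]
    calc |∫ s in (-L)..x, (q.eval s - mgcStep s)| ≤ ∫ s in (-L)..x, |q.eval s - mgcStep s| :=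
          intervalIntegral.abs_integral_le_integral_abs hx.1
      _ ≤ ∫ s in (-L)..L, |q.eval s - mgcStep s| :=
          intervalIntegral.integral_mono_interval le_rfl hx.1 hx.2
            (Filter.Eventually.of_forall fun s => abs_nonneg _) (hdi _ _).abs
      _ ≤ ε := hI
  · rw [hp0, hp', abs_zero, zero_add]
    exact hI

end

end Claimed.Agent.R302
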