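/-
R302 / MG / Basic   (skeleton: helper244)   LEAF "MG-Basic"
Elementary facts on words, balls and the Schreier graph.  Everything is by induction on words / radii.
-/
import Claimed.Agent.R302.MG.Defs

set_option autoImplicit false

namespace Claimed.Agent.R302

open MeasureTheory Finset
open scoped BigOperators

noncomputable section

variable {Y : Type*} {D : ℕ}

@[simp] theorem mgAct_nil (σ : Fin D → Y → Y) (y : Y) : mgAct σ [] y = y := rfl

@[simp] theorem mgAct_cons (σ : Fin D → Y → Y) (k : Fin D) (w : List (Fin D)) (y : Y) :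
    mgAct σ (k :: w) y = σ k (mgAct σ w y) := rfl

theorem mgAct_append (σ : Fin D → Y → Y) (w w' : List (Fin D)) (y : Y) :
    mgAct σ (w ++ w') y = mgAct σ w (mgAct σ w' y) := by
  induction w with
  | nil => rfl
  | cons k w ih => simp [ih]

theorem mgAct_reverse {σ : Fin D → Y → Y} (hσ : ∀ k y, σ k (σ k y) = y) (w : List (Fin D)) (y : Y) :
    mgAct σ w.reverse (mgAct σ w y) = y := by
  induction w generalizing y with
  | nil => rfl
  | cons k w ih => simp [mgAct_append, hσ, ih]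

theorem mgAct_reverse' {σ : Fin D → Y → Y} (hσ : ∀ k y, σ k (σ k y) = y) (w : List (Fin D)) (y : Y) :
    mgAct σ w (mgAct σ w.reverse y) = y := by
  simpa using mgAct_reverse hσ w.reverse y

theorem mem_mgWords {R : ℕ} {w : List (Fin D)} : w ∈ mgWords D R ↔ w.length ≤ R := by
  induction R generalizing w with
  | zero => simp [mgWords]
  | succ R ih =>
    simp only [mgWords, Finset.mem_union, Finset.mem_image, Finset.mem_product, Finset.mem_univ,
      true_and, Prod.exists, ih]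
    constructor
    · rintro (h | ⟨k, w', hw', rfl⟩)
      · omega
      · simpa using hw'
    · intro h
      cases w with
      | nil => left; simp
      | cons k w' => right; exact ⟨k, w', by simpa using h, rfl⟩

theorem mgWords_mono {R R' : ℕ} (h : R ≤ R') : mgWords D R ⊆ mgWords D R' := fun _ hw =>
  mem_mgWords.2 ((mem_mgWords.1 hw).trans h)

theorem measurable_mgAct [MeasurableSpace Y] {σ : Fin D → Y → Y} (hσ : ∀ k, Measurable (σ k))
    (w : List (Fin D)) : Measurable (mgAct σ w) := by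
  induction w with
  | nil => exact measurable_id
  | cons k w ih => exact (hσ k).comp ih

theorem mgAct_map {Y' : Type*} {σ : Fin D → Y → Y} {σ' : Fin D → Y' → Y'}
    (π : Y → Y') (hπ : ∀ k y, π (σ k y) = σ' k (π y)) (w : List (Fin D)) (y : Y) :
    π (mgAct σ w y) = mgAct σ' w (π y) := by
  induction w with
  | nil => rfl
  | cons k w ih => simp [hπ, ih]

section Ball

variable [DecidableEq Y]

theorem mem_mgBall {σ : Fin D → Y → Y} {R : ℕ} {y u : Y} :
    u ∈ mgBall σ R y ↔ ∃ w : List (Fin D), w.length ≤ R ∧ mgAct σ w y = u := by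
  simp [mgBall, mem_mgWords]

theorem self_mem_mgBall (σ : Fin D → Y → Y) (R : ℕ) (y : Y) : y ∈ mgBall σ R y :=
  mem_mgBall.2 ⟨[], by simp, rfl⟩

theorem mgBall_mono (σ : Fin D → Y → Y) {R R' : ℕ} (h : R ≤ R') (y : Y) : mgBall σ R y ⊆ mgBall σ R' y :=
  Finset.image_subset_image (mgWords_mono h)

theorem mgBall_symm {σ : Fin D → Y → Y} (hσ : ∀ k y, σ k (σ k y) = y) {R : ℕ} {y u : Y}
    (h : u ∈ mgBall σ R y) : y ∈ mgBall σ R u := by
  obtain ⟨w, hw, rfl⟩ := mem_mgBall.1 h
  exact mem_mgBall.2 ⟨w.reverse, by simpa using hw, mgAct_reverse hσ w y⟩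

theorem mgBall_trans {σ : Fin D → Y → Y} {R R' : ℕ} {y u v : Y} (h : u ∈ mgBall σ R y)
    (h' : v ∈ mgBall σ R' u) : v ∈ mgBall σ (R + R') y := by
  obtain ⟨w, hw, rfl⟩ := mem_mgBall.1 h
  obtain ⟨w', hw', rfl⟩ := mem_mgBall.1 h'
  exact mem_mgBall.2 ⟨w' ++ w, by simp; omega, mgAct_append σ w' w y⟩

theorem card_mgBall_le (σ : Fin D → Y → Y) (R : ℕ) (y : Y) :
    (mgBall σ R y).card ≤ (mgWords D R).card := Finset.card_image_le

theorem mgBall_zero (σ : Fin D → Y → Y) (y : Y) : mgBall σ 0 y = {y} := by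
  simp [mgBall, mgWords]

omit [DecidableEq Y] in
theorem mgGraph_adj {σ : Fin D → Y → Y} (hσ : ∀ k y, σ k (σ k y) = y) {u v : Y} :
    (mgGraph σ).Adj u v ↔ u ≠ v ∧ ∃ k, σ k u = v := by
  rw [mgGraph, SimpleGraph.fromRel_adj]
  constructor
  · rintro ⟨h, ⟨k, hk⟩ | ⟨k, hk⟩⟩
    · exact ⟨h, k, hk⟩
    · exact ⟨h, k, by rw [← hk, hσ]⟩
  · rintro ⟨h, k, hk⟩
    exact ⟨h, Or.inl ⟨k, hk⟩⟩

theorem mgBall_of_walk {σ : Fin D → Y → Y} (hσ : ∀ k y, σ k (σ k y) = y) {y u : Y}
    (p : (mgGraph σ).Walk y u) : u ∈ mgBall σ p.length y := by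
  induction p with
  | nil => exact self_mem_mgBall σ _ _
  | @cons a b c h p ih =>
    obtain ⟨-, k, hk⟩ := (mgGraph_adj hσ).1 h
    have h1 : b ∈ mgBall σ 1 a := mem_mgBall.2 ⟨[k], by simp, by simpa using hk⟩
    have := mgBall_trans h1 ih
    rwa [SimpleGraph.Walk.length_cons, add_comm]

theorem mgGraph_edist_act_le {σ : Fin D → Y → Y} (hσ : ∀ k y, σ k (σ k y) = y) (w : List (Fin D))
    (y : Y) : (mgGraph σ).edist y (mgAct σ w y) ≤ (w.length : ℕ∞) := by
  induction w with
  | nil => simp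
  | cons k w ih =>
    have h1 : (mgGraph σ).edist (mgAct σ w y) (σ k (mgAct σ w y)) ≤ 1 := by
      by_cases h : mgAct σ w y = σ k (mgAct σ w y)
      · rw [← h]; simp
      · exact (SimpleGraph.edist_eq_one_iff_adj.2 ((mgGraph_adj hσ).2 ⟨h, k, rfl⟩)).le
    calc (mgGraph σ).edist y (mgAct σ (k :: w) y)
        ≤ (mgGraph σ).edist y (mgAct σ w y) + (mgGraph σ).edist (mgAct σ w y) (σ k (mgAct σ w y)) :=
          SimpleGraph.edist_triangle
      _ ≤ (w.length : ℕ∞) + 1 := add_le_add ih h1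
      _ = ((k :: w).length : ℕ∞) := by simp

/-- graph distance and balls -/
theorem mgGraph_edist_le {σ : Fin D → Y → Y} (hσ : ∀ k y, σ k (σ k y) = y) {R : ℕ} {y u : Y} :
    (mgGraph σ).edist y u ≤ (R : ℕ∞) ↔ u ∈ mgBall σ R y := by
  constructor
  · intro h
    have hne : (mgGraph σ).edist y u ≠ ⊤ := by
      intro h'
      rw [h'] at h
      exact absurd h (by simp)
    obtain ⟨p, hp⟩ := SimpleGraph.exists_walk_of_edist_ne_top hne
    rw [← hp] at h
    exact mgBall_mono σ (by exact_mod_cast h) y (mgBall_of_walk hσ p)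
  · intro h
    obtain ⟨w, hw, rfl⟩ := mem_mgBall.1 h
    exact (mgGraph_edist_act_le hσ w y).trans (by exact_mod_cast hw)

/-- a map commuting with the involutions maps balls onto balls -/
theorem mgBall_image {Y' : Type*} [DecidableEq Y'] {σ : Fin D → Y → Y} {σ' : Fin D → Y' → Y'}
    (π : Y → Y') (hπ : ∀ k y, π (σ k y) = σ' k (π y)) (R : ℕ) (y : Y) :
    (mgBall σ R y).image π = mgBall σ' R (π y) := by
  unfold mgBall
  rw [Finset.image_image]
  refine Finset.image_congr fun w _ => ?_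
  exact mgAct_map π hπ w y

end Ball

end

end Claimed.Agent.R302
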