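/-
R302 / MG / Sep   (skeleton: helper244)   LEAF "MG-Sep"
Consequences of the three set property (SEP): coincidence sets are measurable, canonical representative words,
sums over balls as sums over words, finite measurable proper colourings of the power graphs, separating partitions.

PLANS.
* `mg_measurableSet_eq`: `{w y = w' y} = {(w'.reverse ++ w) y = y}` = complement of the union of the three sets.
* `mgIsRep σ R y w`: `w` has the least code among the words of length `≤ R` with the same endpoint.
  Measurable in `y` (finite intersections of coincidence sets).  Every point of the ball has exactly one representative.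
* `mg_exists_coloring`: colour of `y` := for every word `w` of length `≤ R` the first index `i` with `y ∈ E_w i` (3 if none).
  If `u = w y ≠ y` then `y ∈ E_w i`, `u ∉ E_w i`... compare the `w`-coordinates: `y` has index `i` minimal with `y ∈ E_w i`;
  CAREFUL: one needs the index of `u` w.r.t. the SAME word to differ: use the pair of coordinates `w` and `w.reverse`, or
  (simpler) colour `y` by the full membership vector `(w, i) ↦ [y ∈ E_w i]` : if `u = w y ≠ y`, pick `i` with `y ∈ E_w i`, then `u ∉ E_w i`.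
  Number of colours `2 ^ (3 * card words)`.
-/
import Claimed.Agent.R302.MG.Basic

set_option autoImplicit false

namespace Claimed.Agent.R302

open MeasureTheory Finset
open scoped BigOperators

noncomputable section

variable {Y : Type*} {D : ℕ}

theorem mg_measurableSet_fix [MeasurableSpace Y] {σ : Fin D → Y → Y} (hσ : MgInv σ) (w : List (Fin D)) :
    MeasurableSet {y | mgAct σ w y = y} := by
  obtain ⟨E, hE, h1, h2⟩ := hσ.sep w
  have : {y | mgAct σ w y = y} = (⋃ i, E i)ᶜ := by
    ext y
    simp only [Set.mem_ofPred_eq, Set.mem_compl_iff, Set.mem_iUnion, not_exists]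
    constructor
    · intro h i hi
      have := h2 i y hi
      rw [h] at this
      exact this hi
    · intro h
      by_contra hne
      obtain ⟨i, hi⟩ := h1 y hne
      exact h i hi
  rw [this]
  exact (MeasurableSet.iUnion hE).compl

theorem mg_measurableSet_eq [MeasurableSpace Y] {σ : Fin D → Y → Y} (hσ : MgInv σ) (w w' : List (Fin D)) :
    MeasurableSet {y | mgAct σ w y = mgAct σ w' y} := by
  have : {y | mgAct σ w y = mgAct σ w' y} = {y | mgAct σ (w'.reverse ++ w) y = y} := by
    ext y
    simp only [Set.mem_ofPred_eq, mgAct_append]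
    constructor
    · intro h
      rw [h, mgAct_reverse hσ.invol]
    · intro h
      have := congrArg (mgAct σ w') h
      rwa [mgAct_reverse' hσ.invol] at this
  rw [this]
  exact mg_measurableSet_fix hσ _

/-- `w` is the canonical representative (least code) of its endpoint among the words of length `≤ R` -/
def mgIsRep (σ : Fin D → Y → Y) (R : ℕ) (y : Y) (w : List (Fin D)) : Prop :=
  w ∈ mgWords D R ∧ ∀ w' ∈ mgWords D R, mgAct σ w' y = mgAct σ w y → Encodable.encode w ≤ Encodable.encode w'

theorem mg_measurableSet_isRep [MeasurableSpace Y] {σ : Fin D → Y → Y} (hσ : MgInv σ) (R : ℕ)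
    (w : List (Fin D)) : MeasurableSet {y | mgIsRep σ R y w} := by
  have : {y | mgIsRep σ R y w} = {_y | w ∈ mgWords D R} ∩ ⋂ w' ∈ mgWords D R,
      {y | mgAct σ w' y = mgAct σ w y → Encodable.encode w ≤ Encodable.encode w'} := by
    ext y
    simp only [mgIsRep, Set.mem_ofPred_eq, Set.mem_inter_iff, Set.mem_iInter]
  rw [this]
  refine (MeasurableSet.const _).inter (Finset.measurableSet_biInter _ fun w' _ => ?_)
  by_cases h : Encodable.encode w ≤ Encodable.encode w'
  · simp [h]
  · have : {y | mgAct σ w' y = mgAct σ w y → Encodable.encode w ≤ Encodable.encode w'} =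
        {y | mgAct σ w' y = mgAct σ w y}ᶜ := by
      ext y
      simp [h]
    rw [this]
    exact (mg_measurableSet_eq hσ w' w).compl

theorem mg_existsUnique_isRep [DecidableEq Y] (σ : Fin D → Y → Y) (R : ℕ) (y : Y) {u : Y}
    (hu : u ∈ mgBall σ R y) : ∃! w, mgIsRep σ R y w ∧ mgAct σ w y = u := by
  obtain ⟨w₀, hw₀, hw₀u⟩ := mem_mgBall.1 hu
  have hne : ((mgWords D R).filter fun w => mgAct σ w y = u).Nonempty :=
    ⟨w₀, Finset.mem_filter.2 ⟨mem_mgWords.2 hw₀, hw₀u⟩⟩
  obtain ⟨w, hw, hmin⟩ := Finset.exists_min_image _ (fun w : List (Fin D) => Encodable.encode w) hne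
  obtain ⟨hw1, hw2⟩ := Finset.mem_filter.1 hw
  refine ⟨w, ⟨⟨hw1, fun w' hw' h => hmin w' (Finset.mem_filter.2 ⟨hw', h.trans hw2⟩)⟩, hw2⟩, ?_⟩
  rintro w' ⟨⟨h1, h2⟩, h3⟩
  apply Encodable.encode_injective
  exact le_antisymm (h2 w hw1 (hw2.trans h3.symm)) (hmin w' (Finset.mem_filter.2 ⟨h1, h3⟩))

open Classical in
/-- sums over a ball = sums over the representative words -/
theorem mg_sum_ball {M : Type*} [AddCommMonoid M] [DecidableEq Y] (σ : Fin D → Y → Y) (R : ℕ) (y : Y)
    (F : Y → M) :
    ∑ u ∈ mgBall σ R y, F u = ∑ w ∈ mgWords D R, if mgIsRep σ R y w then F (mgAct σ w y) else 0 := by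
  rw [← Finset.sum_filter]
  symm
  refine Finset.sum_nbij (fun w => mgAct σ w y) ?_ ?_ ?_ fun _ _ => rfl
  · intro w hw
    exact mem_mgBall.2 ⟨w, mem_mgWords.1 (Finset.mem_filter.1 hw).1, rfl⟩
  · intro w hw w' hw' h
    have hw1 := (Finset.mem_filter.1 (Finset.mem_coe.1 hw)).2
    have hw2 := (Finset.mem_filter.1 (Finset.mem_coe.1 hw')).2
    have hu : mgAct σ w y ∈ mgBall σ R y := mem_mgBall.2 ⟨w, mem_mgWords.1 hw1.1, rfl⟩
    exact (mg_existsUnique_isRep σ R y hu).unique ⟨hw1, rfl⟩ ⟨hw2, h.symm⟩
  · intro u hu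
    obtain ⟨w, ⟨hw1, hw2⟩, -⟩ := mg_existsUnique_isRep σ R y (Finset.mem_coe.1 hu)
    exact ⟨w, Finset.mem_coe.2 (Finset.mem_filter.2 ⟨hw1.1, hw1⟩), hw2⟩

/-- number of colours of the proper colouring of the `R`-th power graph -/
def mgNcol (D R : ℕ) : ℕ := 2 ^ (3 * (mgWords D R).card)

/-- finite measurable proper colouring of the `R`-th power of the graph -/
theorem mg_exists_coloring [MeasurableSpace Y] [DecidableEq Y] {σ : Fin D → Y → Y} (hσ : MgInv σ) (R : ℕ) :
    ∃ col : Y → Fin (mgNcol D R), (∀ q, MeasurableSet (col ⁻¹' {q})) ∧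
      ∀ y, ∀ u ∈ mgBall σ R y, u ≠ y → col u ≠ col y := by
  classical
  choose E hE h1 h2 using hσ.sep
  have hcard : Fintype.card ({w // w ∈ mgWords D R} × Fin 3 → Bool) = mgNcol D R := by
    simp [mgNcol, mul_comm]
  set e := Fintype.equivFinOfCardEq hcard with he
  set vec : Y → ({w // w ∈ mgWords D R} × Fin 3 → Bool) := fun y q => decide (y ∈ E q.1.1 q.2)
    with hvec
  refine ⟨fun y => e (vec y), fun q => ?_, ?_⟩
  · have : (fun y => e (vec y)) ⁻¹' {q} =
        ⋂ a : {w // w ∈ mgWords D R} × Fin 3, {y | decide (y ∈ E a.1.1 a.2) = e.symm q a} := by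
      ext y
      simp only [Set.mem_preimage, Set.mem_singleton_iff, Set.mem_iInter, Set.mem_ofPred_eq]
      rw [← Equiv.eq_symm_apply]
      exact funext_iff
    rw [this]
    refine MeasurableSet.iInter fun a => ?_
    cases hq : e.symm q a with
    | true =>
      have : {y | decide (y ∈ E a.1.1 a.2) = true} = E a.1.1 a.2 := by
        ext y; simp
      rw [this]
      exact hE a.1.1 a.2
    | false =>
      have : {y | decide (y ∈ E a.1.1 a.2) = false} = (E a.1.1 a.2)ᶜ := by
        ext y; simp
      rw [this]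
      exact (hE a.1.1 a.2).compl
  · intro y u hu hne heq
    obtain ⟨w, hw, rfl⟩ := mem_mgBall.1 hu
    obtain ⟨i, hi⟩ := h1 w y hne
    have h3 := h2 w i y hi
    have h4 := congrFun (e.injective heq) (⟨w, mem_mgWords.2 hw⟩, i)
    simp only [hvec, hi, h3, decide_false, decide_true] at h4
    exact absurd h4 (by simp)

/-- a proper colouring of the `2R`-th power separates the `R`-balls -/
theorem mg_separates_of_coloring [DecidableEq Y] {σ : Fin D → Y → Y} (hσ : ∀ k y, σ k (σ k y) = y) {ι : Type*}
    {R : ℕ} {col : Y → ι} (h : ∀ y, ∀ u ∈ mgBall σ (2 * R) y, u ≠ y → col u ≠ col y) :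
    MgSeparates σ col R := by
  intro y u hu v hv huv
  by_contra hne
  have h1 : v ∈ mgBall σ (2 * R) u := by
    have := mgBall_trans (mgBall_symm hσ hu) hv
    rwa [← two_mul] at this
  exact h u v h1 (Ne.symm hne) huv.symm

theorem MgSeparates.mono [DecidableEq Y] {σ : Fin D → Y → Y} {ι : Type*} {cell : Y → ι} {R R' : ℕ}
    (h : MgSeparates σ cell R') (hR : R ≤ R') : MgSeparates σ cell R :=
  fun y u hu v hv => h y u (mgBall_mono σ hR y hu) v (mgBall_mono σ hR y hv)

end

end Claimed.Agent.R302
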