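/-
R302 / MG / MeasA   (helper255)   proof of the KEY LEMMA of `MG/Meas.lean` (leaf "MG-Meas-poly"), in hypothesis-explicit form.

* `mga_meas_det`, `mga_meas_pvMix`: determinants / mixed determinants of measurable entries over a FIXED finite index set are measurable.
* `mga_meas_of_finset`: a function which is given by measurable functions on the pieces `{z | J z = J₀}` of a finite measurable partition.
* `mga_meas_poly`: the evaluation of the expected characteristic polynomial of a rooted finite computation is measurable.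
-/
import Claimed.Agent.R302.MG.Sep
import Claimed.Agent.R302.Poly.Comap

set_option autoImplicit false
set_option linter.unusedSectionVars false

namespace Claimed.Agent.R302

open MeasureTheory Finset Polynomial
open scoped BigOperators ComplexConjugate

noncomputable section

theorem mga_meas_det {Z : Type*} [MeasurableSpace Z] {n : Type*} [Fintype n] [DecidableEq n]
    (M : Z → Matrix n n ℂ) (hM : ∀ i j, Measurable fun z => M z i j) :
    Measurable fun z => (M z).det := by
  simp_rw [Matrix.det_apply]
  exact Finset.measurable_sum _ fun σ _ => (Finset.measurable_prod _ fun i _ => hM _ _).const_smul _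

theorem mga_meas_pvMix {Z : Type*} [MeasurableSpace Z] {V : Type*} [DecidableEq V] {J : Type*}
    [Fintype J] [DecidableEq J] (S : Finset V) (p : Z → V → J → ℝ) (B : Z → J → V → V → ℂ)
    (ζ : Z → V → ℂ) (hp : ∀ v ∈ S, ∀ j, Measurable fun z => p z v j)
    (hB : ∀ j, ∀ u ∈ S, ∀ v ∈ S, Measurable fun z => B z j u v)
    (hζ : ∀ v ∈ S, Measurable fun z => ζ z v) :
    Measurable fun z => pvMix (p z) (B z) S (ζ z) := by
  unfold pvMix pvWt
  refine Finset.measurable_sum _ fun ω _ => Measurable.mul ?_ ?_
  · exact Finset.measurable_prod _ fun v _ => Complex.measurable_ofReal.comp (hp v.1 v.2 _)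
  · refine mga_meas_det _ fun i j => ?_
    simp only [Matrix.sub_apply, Matrix.diagonal_apply, pvOutMat, Matrix.of_apply]
    refine Measurable.sub ?_ ?_
    · by_cases hij : i = j
      · simpa [hij] using hζ j.1 j.2
      · simp [hij]
    · by_cases hij : ω i = ω j
      · simpa [hij] using hB _ i.1 i.2 j.1 j.2
      · simp [hij]

/-- a function of a colour with measurable fibres -/
theorem mga_meas_col {Z : Type*} [MeasurableSpace Z] {α : Type*} [Countable α] {E : Type*}
    [MeasurableSpace E] {c : Z → α} (hc : ∀ o, MeasurableSet {z | c z = o}) (φ : α → E) :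
    Measurable fun z => φ (c z) := by
  let _ : MeasurableSpace α := ⊤
  have h1 : Measurable c := measurable_to_countable' fun o => hc o
  exact (measurable_from_top (f := φ)).comp h1

open Classical in
/-- glueing along the finite measurable partition given by a finset valued map -/
theorem mga_meas_of_finset {Z : Type*} [MeasurableSpace Z] {α : Type*} {E : Type*}
    [MeasurableSpace E] [AddCommMonoid E] [MeasurableAdd₂ E] (U : Finset α) (P : Z → α → Prop)
    (hP : ∀ a ∈ U, MeasurableSet {z | P z a}) (g : Finset α → Z → E)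
    (hg : ∀ J₀ ⊆ U, Measurable (g J₀)) :
    Measurable fun z => g (U.filter (P z)) z := by
  have h1 : (fun z => g (U.filter (P z)) z) =
      fun z => ∑ J₀ ∈ U.powerset, if U.filter (P z) = J₀ then g J₀ z else 0 := by
    funext z
    rw [Finset.sum_ite_eq]
    simp
  rw [h1]
  refine Finset.measurable_sum _ fun J₀ hJ₀ => Measurable.ite ?_ (hg J₀ (Finset.mem_powerset.1 hJ₀))
    measurable_const
  have h2 : {z | U.filter (P z) = J₀} = ⋂ a ∈ U, {z | P z a ↔ a ∈ J₀} := by
    ext z
    simp only [Set.mem_ofPred_eq, Set.mem_iInter]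
    constructor
    · rintro rfl a ha
      simp [ha]
    · intro hz
      ext a
      simp only [Finset.mem_filter]
      constructor
      · rintro ⟨ha, hPa⟩
        exact (hz a ha).1 hPa
      · intro ha
        have haU := Finset.mem_powerset.1 hJ₀ ha
        exact ⟨haU, (hz a haU).2 ha⟩
  rw [h2]
  refine Finset.measurableSet_biInter _ fun a ha => ?_
  by_cases haJ : a ∈ J₀
  · have h3 : {z | P z a ↔ a ∈ J₀} = {z | P z a} := by
      ext z; simp [haJ]
    rw [h3]; exact hP a ha
  · have h3 : {z | P z a ↔ a ∈ J₀} = {z | P z a}ᶜ := by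
      ext z; simp [haJ]
    rw [h3]; exact (hP a ha).compl

section Main

variable {Y : Type*} [DecidableEq Y] {D r : ℕ}

open Classical in
/-- the principal set of the computation is the injective image of the present representative words -/
theorem mga_set_eq_image (C : MgCtx Y D) (Q : Set Y) (y : Y) :
    C.set Q y = ((mgWords D C.ρ).filter fun w => mgIsRep C.σ C.ρ y w ∧ mgAct C.σ w y ∈ Q).image
      fun w => mgAct C.σ w y := by
  ext u
  simp only [MgCtx.set, Finset.mem_filter, Finset.mem_image]
  constructor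
  · rintro ⟨hu, hQ⟩
    obtain ⟨w, ⟨hw, rfl⟩, -⟩ := mg_existsUnique_isRep C.σ C.ρ y hu
    exact ⟨w, ⟨hw.1, hw, hQ⟩, rfl⟩
  · rintro ⟨w, ⟨hw, -, hQ⟩, rfl⟩
    exact ⟨Finset.mem_image_of_mem _ hw, hQ⟩

open Classical in
theorem mga_injOn (C : MgCtx Y D) (Q : Set Y) (y : Y) :
    Set.InjOn (fun w => mgAct C.σ w y)
      ((mgWords D C.ρ).filter fun w => mgIsRep C.σ C.ρ y w ∧ mgAct C.σ w y ∈ Q : Finset _) := by
  intro w hw w' hw' hww'
  simp only [Finset.coe_filter, Set.mem_ofPred_eq] at hw hw'
  have hu : mgAct C.σ w y ∈ mgBall C.σ C.ρ y := Finset.mem_image_of_mem _ hw.1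
  exact (mg_existsUnique_isRep C.σ C.ρ y hu).unique ⟨hw.2.1, rfl⟩ ⟨hw'.2.1, hww'.symm⟩

/-- the word indexed data at the root `y` with the gauged kernel `τ` -/
def mgaData (C : MgCtx Y D) (τ : List (Fin D) → List (Fin D) → Y → ℂ) (c : Y → Option (Fin r)) (y : Y) :
    PvData (List (Fin D)) r :=
  ⟨fun w w' => τ w w' y, fun w => C.W (mgAct C.σ w y), fun w => c (mgAct C.σ w y),
    fun w => mgTau C.t (c (mgAct C.σ w y))⟩

open Classical in
theorem mga_poly_eq (C : MgCtx Y D) {τ : List (Fin D) → List (Fin D) → Y → ℂ}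
    {θ : List (Fin D) → Y → ℂ} (hθ : ∀ w y, ‖θ w y‖ = 1)
    (hτ : ∀ w w' y, τ w w' y = θ w y * C.T (mgAct C.σ w y) (mgAct C.σ w' y) * conj (θ w' y))
    (c : Y → Option (Fin r)) (Q : Set Y) (y : Y) :
    (C.data c).poly (C.set Q y) = (mgaData C τ c y).poly
      ((mgWords D C.ρ).filter fun w => mgIsRep C.σ C.ρ y w ∧ mgAct C.σ w y ∈ Q) := by
  have h1 : mgaData C τ c y = ((C.data c).comap fun w => mgAct C.σ w y).gauge fun w => θ w y := by
    unfold mgaData PvData.gauge PvData.comap MgCtx.data
    simp only [PvData.mk.injEq, and_true]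
    funext w w'
    exact hτ w w' y
  rw [h1, PvData.gauge_poly _ _ (fun w => hθ w y), PvData.poly_comap _ _ _ (mga_injOn C Q y),
    ← mga_set_eq_image]

variable [MeasurableSpace Y]

/-- KEY LEMMA (hypothesis-explicit form of `mg_meas_poly`) -/
theorem mga_meas_poly {C : MgCtx Y D} (hinv : MgInv C.σ) (hker : MgKer C.σ C.T)
    (hW : Measurable C.W) {Z : Type*} [MeasurableSpace Z] {root : Z → Y}
    {cz : Z → Y → Option (Fin r)} {Qz : Z → Set Y} (hroot : Measurable root)
    (hcol : ∀ w o, MeasurableSet {z | cz z (mgAct C.σ w (root z)) = o})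
    (hmask : ∀ w, MeasurableSet {z | mgAct C.σ w (root z) ∈ Qz z}) {ζ : Z → ℂ}
    (hζ : Measurable ζ) :
    Measurable fun z => ((C.data (cz z)).poly (C.set (Qz z) (root z))).eval (ζ z) := by
  classical
  obtain ⟨τ, θ, hτm, hθ, hτ⟩ := hker.gauge
  simp_rw [mga_poly_eq C hθ hτ]
  have key := mga_meas_of_finset (mgWords D C.ρ)
    (fun z w => mgIsRep C.σ C.ρ (root z) w ∧ mgAct C.σ w (root z) ∈ Qz z) (fun w _ => ?_)
    (fun J₀ z => ((mgaData C τ (cz z) (root z)).poly J₀).eval (ζ z)) (fun J₀ _ => ?_)
  · convert key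
  · exact (hroot (mg_measurableSet_isRep hinv C.ρ w)).inter (hmask w)
  · unfold PvData.poly
    simp_rw [pvPoly_eval]
    have hWm : ∀ w, Measurable fun z => C.W (mgAct C.σ w (root z)) := fun w =>
      hW.comp ((measurable_mgAct hinv.meas w).comp hroot)
    refine mga_meas_pvMix J₀ _ _ _ (fun w _ j => ?_) (fun j w _ w' _ => ?_) (fun _ _ => hζ)
    · exact mga_meas_col (hcol w) (fun o : Option (Fin r) => match o with
        | none => 1 / (2 * (r : ℝ))
        | some i => if j.1 = i then 1 / 2 else 0)
    · unfold PvData.ker PvData.a mgaData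
      refine Measurable.sub (measurable_const.mul (((Complex.measurable_ofReal.comp
        (hWm w).sqrt).mul ((hτm w w').comp hroot)).mul (Complex.measurable_ofReal.comp
        (hWm w').sqrt))) ?_
      by_cases hww : w = w'
      · simp only [hww, if_true]
        exact Complex.measurable_ofReal.comp
          ((mga_meas_col (hcol w') (fun o : Option (Fin r) => mgTau C.t o)).mul (hWm w'))
      · simp [hww]

end Main

end

end Claimed.Agent.R302
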