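/-
R302 / MG / Mtp   (skeleton: helper244)   LEAF "MG-Mtp"
Mass transport (5.2) of Q for finite range kernels on a measure preserving system.

PLAN.  `∑_{u ∈ ball R y} h y u = ∑_{w ∈ words R} [w rep at y] h y (w y)`  (`mg_sum_ball`).  For a fixed word change variables `u = w y`
(`y = w.reverse u`, measure preserving):  `∫ [w rep at y] h y (w y) dν(y) = ∫ [w rep at w.reverse u] h (w.reverse u) u dν(u)`.
For fixed `u` the map `w ↦ w.reverse u` is a bijection from `{w ∈ words R : w rep at w.reverse u}` onto `ball R u`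
(for `y` in the ball the words `w` with `w y = u` have exactly one element of least code).
The real version follows from the `ℝ≥0∞` version applied to positive and negative parts, or directly by the same computation
(all functions are bounded and supported on sets of finite measure).
-/
import Claimed.Agent.R302.MG.Sep

set_option autoImplicit false

namespace Claimed.Agent.R302

open MeasureTheory Finset
open scoped BigOperators ENNReal

noncomputable section

variable {Y : Type*} [MeasurableSpace Y] [DecidableEq Y] {D : ℕ}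

omit [DecidableEq Y] in
theorem mg_measurePreserving_act {σ : Fin D → Y → Y} {ν : Measure Y}
    (hν : ∀ k, MeasurePreserving (σ k) ν ν) (w : List (Fin D)) : MeasurePreserving (mgAct σ w) ν ν := by
  induction w with
  | nil => exact MeasurePreserving.id ν
  | cons k w ih => exact (hν k).comp ih

/-- measurability of a sum over a ball -/
theorem mg_measurable_sum_ball {σ : Fin D → Y → Y} (hσ : MgInv σ) (R : ℕ) {Z : Type*} [MeasurableSpace Z]
    {root : Z → Y} (hroot : Measurable root) {E : Type*} [NormedAddCommGroup E] [MeasurableSpace E] [BorelSpace E]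
    [SecondCountableTopology E] (F : Z → Y → E) (hF : ∀ w, Measurable fun z => F z (mgAct σ w (root z))) :
    Measurable fun z => ∑ u ∈ mgBall σ R (root z), F z u := by
  classical
  simp_rw [mg_sum_ball σ R]
  refine Finset.measurable_sum _ fun w _ => ?_
  exact Measurable.ite (hroot (mg_measurableSet_isRep hσ R w)) (hF w) measurable_const

omit [MeasurableSpace Y] in
open Classical in
/-- the reversed words which are representatives at their endpoint parametrise the ball -/
theorem mg_sum_rev {M : Type*} [AddCommMonoid M] {σ : Fin D → Y → Y} (hσ : ∀ k y, σ k (σ k y) = y)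
    (R : ℕ) (u : Y) (F : Y → M) :
    ∑ w ∈ mgWords D R, (if mgIsRep σ R (mgAct σ w.reverse u) w then F (mgAct σ w.reverse u) else 0) =
      ∑ y ∈ mgBall σ R u, F y := by
  rw [← Finset.sum_filter]
  refine Finset.sum_nbij (fun w => mgAct σ w.reverse u) ?_ ?_ ?_ fun _ _ => rfl
  · intro w hw
    exact mem_mgBall.2 ⟨w.reverse, by simpa using mem_mgWords.1 (Finset.mem_filter.1 hw).1, rfl⟩
  · intro w hw w' hw' h
    have hw1 := (Finset.mem_filter.1 (Finset.mem_coe.1 hw)).2
    have hw2 := (Finset.mem_filter.1 (Finset.mem_coe.1 hw')).2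
    simp only at h
    rw [← h] at hw2
    have hu : u ∈ mgBall σ R (mgAct σ w.reverse u) :=
      mem_mgBall.2 ⟨w, mem_mgWords.1 hw1.1, mgAct_reverse' hσ w u⟩
    refine (mg_existsUnique_isRep σ R _ hu).unique ⟨hw1, mgAct_reverse' hσ w u⟩ ⟨hw2, ?_⟩
    rw [h]
    exact mgAct_reverse' hσ w' u
  · intro y hy
    obtain ⟨w, ⟨hw1, hw2⟩, -⟩ := mg_existsUnique_isRep σ R y (mgBall_symm hσ (Finset.mem_coe.1 hy))
    have h3 : mgAct σ w.reverse u = y := by rw [← hw2, mgAct_reverse hσ]
    refine ⟨w, Finset.mem_coe.2 (Finset.mem_filter.2 ⟨hw1.1, ?_⟩), h3⟩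
    rw [h3]
    exact hw1

theorem mg_mtp_lintegral {σ : Fin D → Y → Y} (hσ : MgInv σ) {ν : Measure Y}
    (hν : ∀ k, MeasurePreserving (σ k) ν ν) (R : ℕ) (h : Y → Y → ℝ≥0∞)
    (hm : ∀ w, Measurable fun y => h y (mgAct σ w y)) :
    ∫⁻ y, ∑ u ∈ mgBall σ R y, h y u ∂ν = ∫⁻ u, ∑ y ∈ mgBall σ R u, h y u ∂ν := by
  classical
  have hg : ∀ w, Measurable fun y => if mgIsRep σ R y w then h y (mgAct σ w y) else 0 := fun w =>
    Measurable.ite (mg_measurableSet_isRep hσ R w) (hm w) measurable_const
  have E1 : (fun y => ∑ u ∈ mgBall σ R y, h y u) = fun y => ∑ w ∈ mgWords D R,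
      if mgIsRep σ R y w then h y (mgAct σ w y) else 0 := funext fun y => mg_sum_ball σ R y (h y)
  have E2 : (fun u => ∑ y ∈ mgBall σ R u, h y u) = fun u => ∑ w ∈ mgWords D R,
      if mgIsRep σ R (mgAct σ w.reverse u) w then h (mgAct σ w.reverse u) u else 0 :=
    funext fun u => (mg_sum_rev hσ.invol R u fun y => h y u).symm
  rw [E1, E2, lintegral_finsetSum _ fun w _ => hg w, lintegral_finsetSum]
  · refine Finset.sum_congr rfl fun w _ => ?_
    rw [← (mg_measurePreserving_act hν w.reverse).lintegral_comp (hg w)]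
    simp_rw [mgAct_reverse' hσ.invol]
  · intro w _
    have := (hg w).comp (measurable_mgAct hσ.meas w.reverse)
    simp only [Function.comp_def, mgAct_reverse' hσ.invol] at this
    exact this

/-- real valued, bounded, the first variable confined to a set of finite measure -/
theorem mg_mtp_integral {σ : Fin D → Y → Y} (hσ : MgInv σ) {ν : Measure Y}
    (hν : ∀ k, MeasurePreserving (σ k) ν ν) (R : ℕ) (h : Y → Y → ℝ)
    (hm : ∀ w, Measurable fun y => h y (mgAct σ w y)) {Q : Set Y} (hQ : MeasurableSet Q) (hQν : ν Q ≠ ∞)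
    {c₀ : ℝ} (hb : ∀ y u, |h y u| ≤ c₀) (hs : ∀ y u, y ∉ Q → h y u = 0) :
    Integrable (fun y => ∑ u ∈ mgBall σ R y, h y u) ν ∧ Integrable (fun u => ∑ y ∈ mgBall σ R u, h y u) ν ∧
      ∫ y, ∑ u ∈ mgBall σ R y, h y u ∂ν = ∫ u, ∑ y ∈ mgBall σ R u, h y u ∂ν := by
  classical
  have hg : ∀ w, Measurable fun y => if mgIsRep σ R y w then h y (mgAct σ w y) else 0 := fun w =>
    Measurable.ite (mg_measurableSet_isRep hσ R w) (hm w) measurable_const
  have hgi : ∀ w, Integrable (fun y => if mgIsRep σ R y w then h y (mgAct σ w y) else 0) ν := by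
    intro w
    refine IntegrableOn.integrable_of_forall_notMem_eq_zero (s := Q) ?_ ?_
    · refine Measure.integrableOn_of_bounded (M := c₀) hQν (hg w).aestronglyMeasurable ?_
      refine Filter.Eventually.of_forall fun y => ?_
      have hc : 0 ≤ c₀ := (abs_nonneg _).trans (hb y y)
      split_ifs
      · exact hb _ _
      · simpa using hc
    · intro y hy
      rw [hs y _ hy]
      simp
  have hgi' : ∀ w, Integrable (fun u => if mgIsRep σ R (mgAct σ w.reverse u) w then
      h (mgAct σ w.reverse u) u else 0) ν := by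
    intro w
    have := (mg_measurePreserving_act hν w.reverse).integrable_comp_of_integrable (hgi w)
    simp only [Function.comp_def, mgAct_reverse' hσ.invol] at this
    exact this
  have E1 : (fun y => ∑ u ∈ mgBall σ R y, h y u) = fun y => ∑ w ∈ mgWords D R,
      if mgIsRep σ R y w then h y (mgAct σ w y) else 0 := funext fun y => mg_sum_ball σ R y (h y)
  have E2 : (fun u => ∑ y ∈ mgBall σ R u, h y u) = fun u => ∑ w ∈ mgWords D R,
      if mgIsRep σ R (mgAct σ w.reverse u) w then h (mgAct σ w.reverse u) u else 0 :=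
    funext fun u => (mg_sum_rev hσ.invol R u fun y => h y u).symm
  rw [E1, E2]
  refine ⟨integrable_finsetSum _ fun w _ => hgi w, integrable_finsetSum _ fun w _ => hgi' w, ?_⟩
  rw [integral_finsetSum _ fun w _ => hgi w, integral_finsetSum _ fun w _ => hgi' w]
  refine Finset.sum_congr rfl fun w _ => ?_
  have hmp := mg_measurePreserving_act hν w.reverse
  rw [← hmp.map_eq, integral_map hmp.measurable.aemeasurable (hg w).aestronglyMeasurable]
  simp_rw [mgAct_reverse' hσ.invol]
  rw [hmp.map_eq]

end

end Claimed.Agent.R302
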