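/-
R302 / MG / Meas   (skeleton: helper244)   LEAVES "MG-Meas-poly" (mg_meas_poly) and "MG-Meas-cost" (the rest)
Measurability of rooted finite computations ("finite balls, their matrix data and their conjugacy invariant polynomial
calculations are measurable", end of the proof of Lemma 5.1 of Q).

The statement is about a MEASURABLE ROOTED FAMILY OF CONFIGURATIONS: a parameter space `Z`, a measurable root `root : Z → Y`, and for every
parameter a colouring `cz z` and a mask `Qz z` of `Y` (arbitrary functions!) such that for every word `w` the colour and the presence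
of the site `w (root z)` depend measurably on `z`.  This covers: fixed measurable configurations (`Z = Y`), configurations modified at or near the
root, extra parameters (heights, labels).

PLAN for `mg_meas_poly`.  Let `Wd = mgWords D ρ`.  Partition `Z` into the finitely many measurable pieces on which
`J z := {w ∈ Wd | mgIsRep σ ρ (root z) w ∧ w (root z) ∈ Qz z}` is a fixed finset `J₀` (`mg_measurableSet_isRep`, `MgFam.mask`).
On such a piece `w ↦ w (root z)` is injective on `J₀` with image `C.set (Qz z) (root z)`, so by reindexing (`poly_comap`, POLY; if it is not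
yet there prove it: a bijection of the index sets transports `pvMix`) the polynomial is the polynomial of the word indexed data
`T' w w' = T (w root) (w' root)`, `W' w = W (w root)`, `c' w = cz z (w root)`; by `gauge_poly` one may replace `T'` by the measurable `τ w w' (root z)` of `MgKer.gauge`.
Then `eval = pvMix ...` is a finite sum of products of determinants (`Matrix.det_apply`) of measurable entries; the law only depends on the colours
(finitely many values on measurable sets).

PLAN for the costs.  `G = poly (S.erase v) / poly S` is measurable in `z` for every evaluation point (apply `mg_meas_poly` to the masks `Qz z` and `Qz z \ {v}`).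
Moments: `rho S v (x^k) = lim_n  n^(k+1) (G(n) - ∑_{j<k} rho S v (x^j) / n^(j+1))` by `PvData.G_hasSum` (induction on `k`, `measurable_of_tendsto_metrizable`).
`rho S v p.eval` is a linear combination of moments (`rho` is a finite sum, linear in the test function).
`df S v f` by `PvData.df_eq_sum` and `mg_sum_ball` (sum over representative words, masks `Qz z`, `Qz z \ {root}`).
-/
import Claimed.Agent.R302.MG.Mtp
import Claimed.Agent.R302.MG.MeasA
import Claimed.Agent.R302.MG.CostA
import Claimed.Agent.R302.Poly.Local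

set_option autoImplicit false
set_option linter.unusedSectionVars false

namespace Claimed.Agent.R302

open MeasureTheory Finset Polynomial
open scoped BigOperators ComplexConjugate

noncomputable section

/-- measurable partial colouring -/
def MgMeasC {X : Type*} [MeasurableSpace X] {r : ℕ} (c : X → Option (Fin r)) : Prop :=
  ∀ o, MeasurableSet (c ⁻¹' {o})

variable {Y : Type*} [MeasurableSpace Y] [DecidableEq Y] {D r : ℕ}

/-- the qualitative hypotheses on a context -/
structure MgCtx.Meas (C : MgCtx Y D) : Prop where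
  inv : MgInv C.σ
  ker : MgKer C.σ C.T
  W_meas : Measurable C.W
  W_pos : ∀ y, 0 < C.W y

/-- a measurable rooted family of configurations -/
structure MgFam (σ : Fin D → Y → Y) {Z : Type*} [MeasurableSpace Z] (root : Z → Y)
    (cz : Z → Y → Option (Fin r)) (Qz : Z → Set Y) : Prop where
  root_meas : Measurable root
  col : ∀ w o, MeasurableSet {z | cz z (mgAct σ w (root z)) = o}
  mask : ∀ w, MeasurableSet {z | mgAct σ w (root z) ∈ Qz z}

omit [DecidableEq Y] in
theorem MgCtx.data_good {C : MgCtx Y D} (hC : C.Meas) (c : Y → Option (Fin r)) : (C.data c).Good :=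
  ⟨hC.ker.herm, hC.ker.zdiag, hC.ker.contr, hC.W_pos⟩

theorem MgCtx.data_supp {C : MgCtx Y D} (hC : C.Meas) (c : Y → Option (Fin r)) :
    (C.data c).Supp (mgGraph C.σ) := by
  intro u v huv
  refine (mgGraph_adj hC.inv.invol).2 ⟨?_, hC.ker.supp u v huv⟩
  rintro rfl
  exact huv (hC.ker.zdiag u)

/-- a fixed measurable configuration is a measurable family -/
theorem MgFam.const {σ : Fin D → Y → Y} (hσ : MgInv σ) {c : Y → Option (Fin r)} (hc : MgMeasC c) {Q : Set Y}
    (hQ : MeasurableSet Q) : MgFam σ (fun y : Y => y) (fun _ => c) fun _ => Q :=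
  ⟨measurable_id, fun w o => measurable_mgAct hσ.meas w (hc o), fun w => measurable_mgAct hσ.meas w hQ⟩

/-- change of root inside a family -/
theorem MgFam.act {σ : Fin D → Y → Y} (hσ : MgInv σ) {Z : Type*} [MeasurableSpace Z] {root : Z → Y}
    {cz : Z → Y → Option (Fin r)} {Qz : Z → Set Y} (h : MgFam σ root cz Qz) (w₀ : List (Fin D)) :
    MgFam σ (fun z => mgAct σ w₀ (root z)) cz Qz := by
  refine ⟨(measurable_mgAct hσ.meas w₀).comp h.root_meas, fun w o => ?_, fun w => ?_⟩
  · simpa only [mgAct_append] using h.col (w ++ w₀) o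
  · simpa only [mgAct_append] using h.mask (w ++ w₀)

/-- recolouring the site `w₀ (root z)` -/
theorem MgFam.update {σ : Fin D → Y → Y} (hσ : MgInv σ) {Z : Type*} [MeasurableSpace Z] {root : Z → Y}
    {cz : Z → Y → Option (Fin r)} {Qz : Z → Set Y} (h : MgFam σ root cz Qz) (w₀ : List (Fin D))
    (oz : Z → Option (Fin r)) (ho : ∀ o, MeasurableSet (oz ⁻¹' {o})) :
    MgFam σ root (fun z => Function.update (cz z) (mgAct σ w₀ (root z)) (oz z)) Qz := by
  refine ⟨h.root_meas, fun w o => ?_, h.mask⟩
  have h1 : MeasurableSet {z | mgAct σ w (root z) = mgAct σ w₀ (root z)} :=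
    h.root_meas (mg_measurableSet_eq hσ w w₀)
  have h2 : {z | Function.update (cz z) (mgAct σ w₀ (root z)) (oz z) (mgAct σ w (root z)) = o} =
      ({z | mgAct σ w (root z) = mgAct σ w₀ (root z)} ∩ oz ⁻¹' {o}) ∪
        ({z | mgAct σ w (root z) = mgAct σ w₀ (root z)}ᶜ ∩ {z | cz z (mgAct σ w (root z)) = o}) := by
    ext z
    by_cases hz : mgAct σ w (root z) = mgAct σ w₀ (root z)
    · simp [hz]
    · simp [hz]
  rw [h2]
  exact (h1.inter (ho o)).union (h1.compl.inter (h.col w o))

/-- deleting the site `w₀ (root z)` -/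
theorem MgFam.erase {σ : Fin D → Y → Y} (hσ : MgInv σ) {Z : Type*} [MeasurableSpace Z] {root : Z → Y}
    {cz : Z → Y → Option (Fin r)} {Qz : Z → Set Y} (h : MgFam σ root cz Qz) (w₀ : List (Fin D)) :
    MgFam σ root cz (fun z => Qz z \ {mgAct σ w₀ (root z)}) := by
  refine ⟨h.root_meas, h.col, fun w => ?_⟩
  have h1 : MeasurableSet {z | mgAct σ w (root z) = mgAct σ w₀ (root z)} :=
    h.root_meas (mg_measurableSet_eq hσ w w₀)
  exact (h.mask w).diff h1

/-- composition with a measurable map of parameter spaces -/
theorem MgFam.comp {σ : Fin D → Y → Y} {Z Z' : Type*} [MeasurableSpace Z] [MeasurableSpace Z'] {root : Z → Y}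
    {cz : Z → Y → Option (Fin r)} {Qz : Z → Set Y} (h : MgFam σ root cz Qz) {φ : Z' → Z} (hφ : Measurable φ) :
    MgFam σ (fun z => root (φ z)) (fun z => cz (φ z)) fun z => Qz (φ z) :=
  ⟨h.root_meas.comp hφ, fun w o => hφ (h.col w o), fun w => hφ (h.mask w)⟩

/-- KEY LEMMA: evaluations of the expected characteristic polynomial of the rooted finite computation are measurable. -/
theorem mg_meas_poly {C : MgCtx Y D} (hC : C.Meas) {Z : Type*} [MeasurableSpace Z] {root : Z → Y}
    {cz : Z → Y → Option (Fin r)} {Qz : Z → Set Y} (h : MgFam C.σ root cz Qz) {ζ : Z → ℂ} (hζ : Measurable ζ) :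
    Measurable fun z => ((C.data (cz z)).poly (C.set (Qz z) (root z))).eval (ζ z) :=
  mga_meas_poly hC.inv hC.ker hC.W_meas h.root_meas h.col h.mask hζ

/-- deleting a site from the principal set = deleting it from the mask -/
theorem MgCtx.set_erase (C : MgCtx Y D) (Q : Set Y) (y v : Y) :
    (C.set Q y).erase v = C.set (Q \ {v}) y := by
  ext u
  simp only [MgCtx.set, Finset.mem_erase, Finset.mem_filter, Set.mem_sdiff, Set.mem_singleton_iff]
  tauto

theorem mg_measurableSet_mem_set {C : MgCtx Y D} (hC : C.Meas) {Z : Type*} [MeasurableSpace Z] {root : Z → Y}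
    {cz : Z → Y → Option (Fin r)} {Qz : Z → Set Y} (h : MgFam C.σ root cz Qz) (w₀ : List (Fin D)) :
    MeasurableSet {z | mgAct C.σ w₀ (root z) ∈ C.set (Qz z) (root z)} := by
  have h1 : {z | mgAct C.σ w₀ (root z) ∈ C.set (Qz z) (root z)} =
      (⋃ w ∈ mgWords D C.ρ, {z | mgAct C.σ w (root z) = mgAct C.σ w₀ (root z)}) ∩
        {z | mgAct C.σ w₀ (root z) ∈ Qz z} := by
    ext z
    simp [MgCtx.set, mgBall]
  rw [h1]
  exact (Finset.measurableSet_biUnion _ fun w _ => h.root_meas (mg_measurableSet_eq hC.inv w w₀)).inter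
    (h.mask w₀)

theorem mg_meas_G {C : MgCtx Y D} (hC : C.Meas) {Z : Type*} [MeasurableSpace Z] {root : Z → Y}
    {cz : Z → Y → Option (Fin r)} {Qz : Z → Set Y} (h : MgFam C.σ root cz Qz) (w₀ : List (Fin D)) {ζ : Z → ℂ}
    (hζ : Measurable ζ) :
    Measurable fun z => (C.data (cz z)).G (C.set (Qz z) (root z)) (mgAct C.σ w₀ (root z)) (ζ z) := by
  unfold PvData.G
  simp_rw [MgCtx.set_erase]
  exact (mg_meas_poly hC (h.erase hC.inv w₀) hζ).div (mg_meas_poly hC h hζ)

open Classical in
/-- moments of the rooted measure at the site `w₀ (root z)` of the computation rooted at `root z` -/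
theorem mg_meas_rho_pow {C : MgCtx Y D} (hC : C.Meas) (hr : 0 < r) {Z : Type*} [MeasurableSpace Z] {root : Z → Y}
    {cz : Z → Y → Option (Fin r)} {Qz : Z → Set Y} (h : MgFam C.σ root cz Qz) (w₀ : List (Fin D)) (k : ℕ) :
    Measurable fun z => if mgAct C.σ w₀ (root z) ∈ C.set (Qz z) (root z) then
      (C.data (cz z)).rho (C.set (Qz z) (root z)) (mgAct C.σ w₀ (root z)) (fun x => x ^ k) else 0 := by
  have hAm := mg_measurableSet_mem_set hC h w₀
  induction k using Nat.strong_induction_on with
  | _ k ih =>
    have hmeas : ∀ n : ℕ, Measurable fun z => if mgAct C.σ w₀ (root z) ∈ C.set (Qz z) (root z) then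
        (n : ℂ) ^ (k + 1) * ((C.data (cz z)).G (C.set (Qz z) (root z)) (mgAct C.σ w₀ (root z)) n -
          ∑ j ∈ Finset.range k, (((if mgAct C.σ w₀ (root z) ∈ C.set (Qz z) (root z) then
            (C.data (cz z)).rho (C.set (Qz z) (root z)) (mgAct C.σ w₀ (root z)) (fun x => x ^ j)
              else 0 : ℝ) : ℝ) : ℂ) / (n : ℂ) ^ (j + 1)) else 0 := by
      intro n
      refine Measurable.ite hAm (measurable_const.mul ((mg_meas_G hC h w₀ measurable_const).sub
        (Finset.measurable_sum _ fun j hj => ?_))) measurable_const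
      exact (Complex.measurable_ofReal.comp (ih j (Finset.mem_range.1 hj))).div_const _
    have hlim : Filter.Tendsto (fun (n : ℕ) (z : Z) =>
        if mgAct C.σ w₀ (root z) ∈ C.set (Qz z) (root z) then
        (n : ℂ) ^ (k + 1) * ((C.data (cz z)).G (C.set (Qz z) (root z)) (mgAct C.σ w₀ (root z)) n -
          ∑ j ∈ Finset.range k, (((if mgAct C.σ w₀ (root z) ∈ C.set (Qz z) (root z) then
            (C.data (cz z)).rho (C.set (Qz z) (root z)) (mgAct C.σ w₀ (root z)) (fun x => x ^ j)
              else 0 : ℝ) : ℝ) : ℂ) / (n : ℂ) ^ (j + 1)) else 0) Filter.atTop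
        (nhds fun z => (((if mgAct C.σ w₀ (root z) ∈ C.set (Qz z) (root z) then
          (C.data (cz z)).rho (C.set (Qz z) (root z)) (mgAct C.σ w₀ (root z)) (fun x => x ^ k)
            else 0 : ℝ) : ℝ) : ℂ)) := by
      refine tendsto_pi_nhds.2 fun z => ?_
      by_cases hz : mgAct C.σ w₀ (root z) ∈ C.set (Qz z) (root z)
      · simp only [if_pos hz]
        exact PvData.rho_pow_tendsto (C.data_good hC (cz z)) hr hz k
      · simp only [if_neg hz]
        simp
    have h3 := Complex.measurable_re.comp (measurable_of_tendsto_metrizable hmeas hlim)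
    simpa [Function.comp_def] using h3

open Classical in
/-- the rooted measure at the site `w₀ (root z)` integrated against the test polynomial -/
theorem mg_meas_rho_f {C : MgCtx Y D} (hC : C.Meas) (hr : 0 < r) {Z : Type*} [MeasurableSpace Z] {root : Z → Y}
    {cz : Z → Y → Option (Fin r)} {Qz : Z → Set Y} (h : MgFam C.σ root cz Qz) (w₀ : List (Fin D)) :
    Measurable fun z => if mgAct C.σ w₀ (root z) ∈ C.set (Qz z) (root z) then
      (C.data (cz z)).rho (C.set (Qz z) (root z)) (mgAct C.σ w₀ (root z)) C.f else 0 := by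
  have h1 : (fun z => if mgAct C.σ w₀ (root z) ∈ C.set (Qz z) (root z) then
      (C.data (cz z)).rho (C.set (Qz z) (root z)) (mgAct C.σ w₀ (root z)) C.f else 0) =
      fun z => ∑ j ∈ Finset.range (C.p.natDegree + 1), C.p.coeff j *
        (if mgAct C.σ w₀ (root z) ∈ C.set (Qz z) (root z) then
          (C.data (cz z)).rho (C.set (Qz z) (root z)) (mgAct C.σ w₀ (root z)) (fun x => x ^ j) else 0) := by
    funext z
    by_cases hz : mgAct C.σ w₀ (root z) ∈ C.set (Qz z) (root z)
    · simp only [if_pos hz]
      exact PvData.rho_eval _ _ _ C.p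
    · simp [if_neg hz]
  rw [h1]
  exact Finset.measurable_sum _ fun j _ => (mg_meas_rho_pow hC hr h w₀ j).const_mul _

theorem MgCtx.mem_set_self (C : MgCtx Y D) (Q : Set Y) (y : Y) : y ∈ C.set Q y ↔ y ∈ Q := by
  simp [MgCtx.set, self_mem_mgBall]

theorem mg_meas_M {C : MgCtx Y D} (hC : C.Meas) (hr : 0 < r) {Z : Type*} [MeasurableSpace Z] {root : Z → Y}
    {cz : Z → Y → Option (Fin r)} {Qz : Z → Set Y} (h : MgFam C.σ root cz Qz) :
    Measurable fun z => C.M (cz z) (Qz z) (root z) := by
  classical
  have h1 := mg_meas_rho_f hC hr h []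
  simp only [mgAct_nil] at h1
  have h2 : (fun z => C.M (cz z) (Qz z) (root z)) = fun z => if root z ∈ C.set (Qz z) (root z) then
      (C.data (cz z)).rho (C.set (Qz z) (root z)) (root z) C.f else 0 := by
    funext z
    by_cases hz : root z ∈ Qz z
    · simp only [MgCtx.M, if_pos hz, if_pos ((C.mem_set_self _ _).2 hz)]
    · simp only [MgCtx.M, if_neg hz, if_neg (fun h => hz ((C.mem_set_self _ _).1 h))]
  rw [h2]
  exact h1

theorem mg_meas_Df {C : MgCtx Y D} (hC : C.Meas) (hr : 0 < r) {Z : Type*} [MeasurableSpace Z] {root : Z → Y}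
    {cz : Z → Y → Option (Fin r)} {Qz : Z → Set Y} (h : MgFam C.σ root cz Qz) :
    Measurable fun z => C.Df (cz z) (Qz z) (root z) := by
  classical
  -- the summand at the site `u`
  let F : Z → Y → ℝ := fun z u =>
    (if u ∈ C.set (Qz z \ {root z}) (root z) then
      (if u ∈ C.set (Qz z) (root z) then (C.data (cz z)).rho (C.set (Qz z) (root z)) u C.f else 0) -
      (C.data (cz z)).rho (C.set (Qz z \ {root z}) (root z)) u C.f else 0)
  have he := h.erase hC.inv []
  simp only [mgAct_nil] at he
  have hF : ∀ w, Measurable fun z => F z (mgAct C.σ w (root z)) := by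
    intro w
    have h1 := mg_meas_rho_f hC hr h w
    have h2 := mg_meas_rho_f hC hr he w
    have h3 : (fun z => F z (mgAct C.σ w (root z))) = fun z =>
        (if mgAct C.σ w (root z) ∈ C.set (Qz z \ {root z}) (root z) then
          (if mgAct C.σ w (root z) ∈ C.set (Qz z) (root z) then
            (C.data (cz z)).rho (C.set (Qz z) (root z)) (mgAct C.σ w (root z)) C.f else 0) else 0) -
        (if mgAct C.σ w (root z) ∈ C.set (Qz z \ {root z}) (root z) then
          (C.data (cz z)).rho (C.set (Qz z \ {root z}) (root z)) (mgAct C.σ w (root z)) C.f else 0) := by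
      funext z
      simp only [F]
      split_ifs <;> simp
    rw [h3]
    exact (Measurable.ite (mg_measurableSet_mem_set hC he w) h1 measurable_const).sub h2
  have hsum := mg_measurable_sum_ball hC.inv C.ρ h.root_meas F hF
  have hM := mg_meas_M hC hr h
  have hQ : MeasurableSet {z | root z ∈ Qz z} := by simpa using h.mask []
  have h4 : (fun z => C.Df (cz z) (Qz z) (root z)) = fun z =>
      if root z ∈ Qz z then C.M (cz z) (Qz z) (root z) + ∑ u ∈ mgBall C.σ C.ρ (root z), F z u else 0 := by
    funext z
    by_cases hz : root z ∈ Qz z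
    · simp only [MgCtx.Df, MgCtx.M, if_pos hz]
      rw [PvData.df_eq_sum (C.data_good hC (cz z)) hr ((C.mem_set_self _ _).2 hz), MgCtx.set_erase]
      congr 1
      have hsub : C.set (Qz z \ {root z}) (root z) ⊆ mgBall C.σ C.ρ (root z) := by
        intro u hu
        simp only [MgCtx.set, Finset.mem_filter] at hu
        exact hu.1
      rw [← Finset.sum_subset hsub]
      · refine Finset.sum_congr rfl fun u hu => ?_
        have hu' : u ∈ C.set (Qz z) (root z) := by
          rw [← MgCtx.set_erase] at hu
          exact Finset.mem_of_mem_erase hu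
        simp only [F, if_pos hu, if_pos hu']
      · intro u _ hu
        simp only [F, if_neg hu]
    · simp only [MgCtx.Df, if_neg hz]
  rw [h4]
  exact Measurable.ite hQ (hM.add hsum) measurable_const

theorem mg_meas_Dfi {C : MgCtx Y D} (hC : C.Meas) (hr : 0 < r) {Z : Type*} [MeasurableSpace Z] {root : Z → Y}
    {cz : Z → Y → Option (Fin r)} {Qz : Z → Set Y} (h : MgFam C.σ root cz Qz) (i : Fin r) :
    Measurable fun z => C.Dfi (cz z) (Qz z) i (root z) := by
  have := mg_meas_Df hC hr (h.update hC.inv [] (fun _ => some i) (fun o => by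
    by_cases ho : some i = o <;> simp [ho]))
  simpa [MgCtx.Dfi] using this

end

end Claimed.Agent.R302
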