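/-
R302 / MG / Cost   (skeleton: helper244)   LEAVES "MG-Cost-local" (section Local), "MG-Cost-sum" (section Sum), "MG-Cost-est" (section Est)
Pointwise properties of the exactly local costs `C.M`, `C.Df`, `C.Dfi` of a context.  No measure theory: everything is a statement about ONE orbit,
deduced from the POLY package (`Poly/Costs`, `Poly/Local`, `Poly/Bounds`) for `V := Y`, `Γ := mgGraph C.σ`.

Notation: `k = C.p.natDegree`, `L = (1 + 80 t) H₀`, `ε₁` = quality of the approximation `p ~ x_+` on `[-L, L]`.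
All masks `Q` satisfy `W ≤ H₀` on `Q`.

PLANS.
* Local: write `C.f = ∑_j a_j x^j` (`Polynomial.eval_eq_sum_range`); `rho`, `df` are finite sums, hence linear in the test function; apply `rho_pow_local`
  (radius `j ≤ k`), `df_pow_local` (radius `2 j ≤ 2 k`) with `mgGraph_edist_le`.
* Sum (formula (5.3) of Q): take `S = C.set`-like finite set `S := (mgBall σ (2k+1) y).filter (· ∈ Q)` (or radius `ρ`); for `v ∈ ball k y` one has `ball k v ⊆ ball 2k y`, so
  `C.M c Q v = rho S v f` (`M_eq_rho`); `df_eq_sum` on `S`; the terms with `v ∉ ball k y` vanish by locality; the terms `rho (S.erase y) v f` do not depend on the colour of `y`.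
* Est: `rho_abs_sub_le`, `df_sub_le` with `φ = p'`, `ψ = 1_{x>0}`, `roots_bdd`, `m_nonneg`, `d_nonneg`, `d_le`, `assignment`, `initial_cost`+`sum_m`, `recolor_poly`, `rho_union`, `sum_rho`.
-/
import Claimed.Agent.R302.MG.Meas
import Claimed.Agent.R302.Poly.Bounds
import Claimed.Agent.R302.MG.CostA

set_option autoImplicit false
set_option linter.unusedSectionVars false
set_option linter.unusedVariables false

namespace Claimed.Agent.R302

open MeasureTheory Finset Polynomial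
open scoped BigOperators ComplexConjugate

noncomputable section

variable {Y : Type*} [MeasurableSpace Y] [DecidableEq Y] {D r : ℕ}

/-- quantitative hypotheses on a context -/
structure MgCtx.Good (C : MgCtx Y D) (r : ℕ) (H₀ ε₁ : ℝ) : Prop where
  meas : C.Meas
  r_pos : 0 < r
  t_pos : 0 < C.t
  H_pos : 0 < H₀
  apx : MgApx C.p ((1 + 80 * C.t) * H₀) ε₁
  rad : 2 * C.p.natDegree + 1 ≤ C.ρ

namespace MgCtx

variable {C : MgCtx Y D} {H₀ ε₁ : ℝ}

theorem Good.L_pos (hC : C.Good r H₀ ε₁) : 0 < (1 + 80 * C.t) * H₀ :=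
  mul_pos (by have := hC.t_pos; positivity) hC.H_pos

theorem Good.eps_nonneg (hC : C.Good r H₀ ε₁) : 0 ≤ ε₁ :=
  (abs_nonneg _).trans (hC.apx.sup 0 ⟨by have := hC.L_pos; linarith, hC.L_pos.le⟩)

theorem mem_set {Q : Set Y} {y u : Y} : u ∈ C.set Q y ↔ u ∈ mgBall C.σ C.ρ y ∧ u ∈ Q := by
  classical
  simp only [MgCtx.set, Finset.mem_filter]

theorem self_mem_set {Q : Set Y} {y : Y} (hy : y ∈ Q) : y ∈ C.set Q y :=
  mem_set.2 ⟨self_mem_mgBall _ _ _, hy⟩

theorem M_of_mem (c : Y → Option (Fin r)) {Q : Set Y} {y : Y} (hy : y ∈ Q) :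
    C.M c Q y = (C.data c).rho (C.set Q y) y C.f := by
  classical
  simp only [MgCtx.M, if_pos hy]

theorem M_of_notMem (c : Y → Option (Fin r)) {Q : Set Y} {y : Y} (hy : y ∉ Q) : C.M c Q y = 0 := by
  classical
  simp only [MgCtx.M, if_neg hy]

theorem Df_of_mem (c : Y → Option (Fin r)) {Q : Set Y} {y : Y} (hy : y ∈ Q) :
    C.Df c Q y = (C.data c).df (C.set Q y) y C.f := by
  classical
  simp only [MgCtx.Df, if_pos hy]

theorem Df_of_notMem (c : Y → Option (Fin r)) {Q : Set Y} {y : Y} (hy : y ∉ Q) : C.Df c Q y = 0 := by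
  classical
  simp only [MgCtx.Df, if_neg hy]

/-- locality of the rooted polynomial cost on finite sets -/
theorem rho_f_local (hC : C.Good r H₀ ε₁) {c c' : Y → Option (Fin r)} {S S' : Finset Y} {y : Y}
    (hy : y ∈ S) (hS : ∀ u ∈ mgBall C.σ C.p.natDegree y, (u ∈ S ↔ u ∈ S'))
    (hc : ∀ u ∈ mgBall C.σ C.p.natDegree y, u ∈ S → c u = c' u) :
    (C.data c).rho S y C.f = (C.data c').rho S' y C.f := by
  have hf : C.f = fun x => C.p.eval x := rfl
  rw [hf, PvData.rho_eval, PvData.rho_eval]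
  refine Finset.sum_congr rfl fun j hj => ?_
  congr 1
  have hj' : j ≤ C.p.natDegree := Nat.lt_succ_iff.1 (Finset.mem_range.1 hj)
  have hb : ∀ u, (mgGraph C.σ).edist y u ≤ j → u ∈ mgBall C.σ C.p.natDegree y := fun u hu =>
    mgBall_mono _ hj' _ ((mgGraph_edist_le hC.meas.inv.invol).1 hu)
  exact PvData.rho_pow_local (MgCtx.data_good hC.meas c) (MgCtx.data_good hC.meas c') hC.r_pos
    (MgCtx.data_supp hC.meas c) (MgCtx.data_supp hC.meas c') j hy (fun u hu => hS u (hb u hu))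
    (fun u _ _ => rfl) (fun u hu h => hc u (hb u h) hu)
    (fun u hu h => by
      show mgTau C.t (c u) = mgTau C.t (c' u)
      rw [hc u (hb u h) hu])
    (fun _ _ _ _ _ _ => rfl)

/-- locality of the polynomial increment on finite sets -/
theorem df_f_local (hC : C.Good r H₀ ε₁) {c c' : Y → Option (Fin r)} {S S' : Finset Y} {y : Y}
    (hy : y ∈ S) (hS : ∀ u ∈ mgBall C.σ (2 * C.p.natDegree) y, (u ∈ S ↔ u ∈ S'))
    (hc : ∀ u ∈ mgBall C.σ (2 * C.p.natDegree) y, u ∈ S → c u = c' u) :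
    (C.data c).df S y C.f = (C.data c').df S' y C.f := by
  have hf : C.f = fun x => C.p.eval x := rfl
  rw [hf, PvData.df_eval, PvData.df_eval]
  refine Finset.sum_congr rfl fun j hj => ?_
  congr 1
  have hj' : j ≤ C.p.natDegree := Nat.lt_succ_iff.1 (Finset.mem_range.1 hj)
  have hb : ∀ u, (mgGraph C.σ).edist y u ≤ ((2 * j : ℕ) : ℕ∞) →
      u ∈ mgBall C.σ (2 * C.p.natDegree) y := fun u hu =>
    mgBall_mono _ (by omega) _ ((mgGraph_edist_le hC.meas.inv.invol).1 hu)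
  exact PvData.df_pow_local (MgCtx.data_good hC.meas c) (MgCtx.data_good hC.meas c') hC.r_pos
    (MgCtx.data_supp hC.meas c) (MgCtx.data_supp hC.meas c') j hy (fun u hu => hS u (hb u hu))
    (fun u _ _ => rfl) (fun u hu h => hc u (hb u h) hu)
    (fun u hu h => by
      show mgTau C.t (c u) = mgTau C.t (c' u)
      rw [hc u (hb u h) hu])
    (fun _ _ _ _ _ _ => rfl)

theorem Good.ball_k_sub (hC : C.Good r H₀ ε₁) (y : Y) :
    mgBall C.σ C.p.natDegree y ⊆ mgBall C.σ C.ρ y := mgBall_mono _ (by have := hC.rad; omega) _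

theorem Good.ball_2k_sub (hC : C.Good r H₀ ε₁) (y : Y) :
    mgBall C.σ (2 * C.p.natDegree) y ⊆ mgBall C.σ C.ρ y := mgBall_mono _ (by have := hC.rad; omega) _

section Local

/-- the rooted cost is computed by any finite set which agrees with the mask on the `k`-ball -/
theorem M_eq_rho (hC : C.Good r H₀ ε₁) (c : Y → Option (Fin r)) {Q : Set Y} {y : Y} (hy : y ∈ Q) (S : Finset Y)
    (hS : ∀ u ∈ mgBall C.σ C.p.natDegree y, (u ∈ S ↔ u ∈ Q)) : C.M c Q y = (C.data c).rho S y C.f := by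
  rw [M_of_mem c hy]
  refine rho_f_local hC (self_mem_set hy) (fun u hu => ?_) fun _ _ _ => rfl
  rw [hS u hu, mem_set]
  exact ⟨fun h => h.2, fun h => ⟨hC.ball_k_sub y hu, h⟩⟩

theorem Df_eq_df (hC : C.Good r H₀ ε₁) (c : Y → Option (Fin r)) {Q : Set Y} {y : Y} (hy : y ∈ Q) (S : Finset Y)
    (hS : ∀ u ∈ mgBall C.σ (2 * C.p.natDegree) y, (u ∈ S ↔ u ∈ Q)) : C.Df c Q y = (C.data c).df S y C.f := by
  rw [Df_of_mem c hy]
  refine df_f_local hC (self_mem_set hy) (fun u hu => ?_) fun _ _ _ => rfl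
  rw [hS u hu, mem_set]
  exact ⟨fun h => h.2, fun h => ⟨hC.ball_2k_sub y hu, h⟩⟩

/-- locality in the configuration -/
theorem M_congr (hC : C.Good r H₀ ε₁) {c c' : Y → Option (Fin r)} {Q Q' : Set Y} {y : Y}
    (h : ∀ u ∈ mgBall C.σ C.p.natDegree y, c u = c' u ∧ (u ∈ Q ↔ u ∈ Q')) : C.M c Q y = C.M c' Q' y := by
  have hyy := (h y (self_mem_mgBall _ _ _)).2
  by_cases hy : y ∈ Q
  · rw [M_of_mem c hy, M_of_mem c' (hyy.1 hy)]
    refine rho_f_local hC (self_mem_set hy) (fun u hu => ?_) fun u hu _ => (h u hu).1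
    rw [mem_set, mem_set, (h u hu).2]
  · rw [M_of_notMem c hy, M_of_notMem c' fun h' => hy (hyy.2 h')]

theorem Df_congr (hC : C.Good r H₀ ε₁) {c c' : Y → Option (Fin r)} {Q Q' : Set Y} {y : Y}
    (h : ∀ u ∈ mgBall C.σ (2 * C.p.natDegree) y, c u = c' u ∧ (u ∈ Q ↔ u ∈ Q')) : C.Df c Q y = C.Df c' Q' y := by
  have hyy := (h y (self_mem_mgBall _ _ _)).2
  by_cases hy : y ∈ Q
  · rw [Df_of_mem c hy, Df_of_mem c' (hyy.1 hy)]
    refine df_f_local hC (self_mem_set hy) (fun u hu => ?_) fun u hu _ => (h u hu).1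
    rw [mem_set, mem_set, (h u hu).2]
  · rw [Df_of_notMem c hy, Df_of_notMem c' fun h' => hy (hyy.2 h')]

/-- colours of absent sites are irrelevant -/
theorem M_congr_mask (hC : C.Good r H₀ ε₁) {c c' : Y → Option (Fin r)} {Q : Set Y} (y : Y)
    (h : ∀ u ∈ mgBall C.σ C.p.natDegree y, u ∈ Q → c u = c' u) : C.M c Q y = C.M c' Q y := by
  by_cases hy : y ∈ Q
  · rw [M_of_mem c hy, M_of_mem c' hy]
    exact rho_f_local hC (self_mem_set hy) (fun _ _ => Iff.rfl) fun u hu hu' => h u hu (mem_set.1 hu').2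
  · rw [M_of_notMem c hy, M_of_notMem c' hy]

theorem Df_congr_mask (hC : C.Good r H₀ ε₁) {c c' : Y → Option (Fin r)} {Q : Set Y} (y : Y)
    (h : ∀ u ∈ mgBall C.σ (2 * C.p.natDegree) y, u ∈ Q → c u = c' u) : C.Df c Q y = C.Df c' Q y := by
  by_cases hy : y ∈ Q
  · rw [Df_of_mem c hy, Df_of_mem c' hy]
    exact df_f_local hC (self_mem_set hy) (fun _ _ => Iff.rfl) fun u hu hu' => h u hu (mem_set.1 hu').2
  · rw [Df_of_notMem c hy, Df_of_notMem c' hy]

end Local

section Sum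

/-- the rooted cost only depends on the colours on the finite set -/
theorem rho_congr_col (C : MgCtx Y D) {c c' : Y → Option (Fin r)} {S : Finset Y} (h : ∀ u ∈ S, c u = c' u)
    (v : Y) (f : ℝ → ℝ) : (C.data c).rho S v f = (C.data c').rho S v f := by
  have p1 : (C.data c).poly S = (C.data c').poly S :=
    PvData.poly_congr (fun _ _ _ _ => rfl) (fun _ _ => rfl) h (fun u hu => by
      show mgTau C.t (c u) = mgTau C.t (c' u)
      rw [h u hu])
  have p2 : (C.data c).poly (S.erase v) = (C.data c').poly (S.erase v) :=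
    PvData.poly_congr (fun _ _ _ _ => rfl) (fun _ _ => rfl)
      (fun u hu => h u (Finset.mem_of_mem_erase hu)) (fun u hu => by
      show mgTau C.t (c u) = mgTau C.t (c' u)
      rw [h u (Finset.mem_of_mem_erase hu)])
  unfold PvData.rho
  rw [p1, p2]

/-- the cost at a site of the `k`-ball of `y` is computed by the finite set of `y` -/
theorem M_eq_rho_set (hC : C.Good r H₀ ε₁) (c : Y → Option (Fin r)) {Q : Set Y} {y v : Y}
    (hv : v ∈ mgBall C.σ C.p.natDegree y) (hvQ : v ∈ Q) :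
    C.M c Q v = (C.data c).rho (C.set Q y) v C.f := by
  refine M_eq_rho hC c hvQ _ fun u hu => ?_
  rw [mem_set]
  refine ⟨fun h => h.2, fun h => ⟨?_, h⟩⟩
  exact mgBall_mono _ (by have := hC.rad; omega) _ (mgBall_trans hv hu)

/-- (5.3), recolouring one present site -/
theorem sum_M_update (hC : C.Good r H₀ ε₁) (c : Y → Option (Fin r)) {Q : Set Y} {y : Y} (hy : y ∈ Q)
    (o : Option (Fin r)) :
    ∑ v ∈ mgBall C.σ C.p.natDegree y, (C.M (Function.update c y o) Q v - C.M c Q v) =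
      C.Df (Function.update c y o) Q y - C.Df c Q y := by
  classical
  set c' := Function.update c y o with hc'
  set S := C.set Q y with hS
  set B := mgBall C.σ C.p.natDegree y with hB
  have hyS : y ∈ S := self_mem_set hy
  set g : Y → ℝ := fun u => (C.data c').rho S u C.f - (C.data c).rho S u C.f with hg
  have hoff : ∀ u ∈ S.erase y, c' u = c u := fun u hu => by
    rw [hc', Function.update_of_ne (Finset.ne_of_mem_erase hu)]
  have e1 : C.Df c' Q y - C.Df c Q y = ∑ u ∈ S, g u := by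
    rw [Df_of_mem c' hy, Df_of_mem c hy,
      PvData.df_eq_sum (MgCtx.data_good hC.meas c') hC.r_pos hyS,
      PvData.df_eq_sum (MgCtx.data_good hC.meas c) hC.r_pos hyS, ← Finset.add_sum_erase S g hyS]
    have : ∑ u ∈ S.erase y, ((C.data c').rho S u C.f - (C.data c').rho (S.erase y) u C.f) =
        ∑ u ∈ S.erase y, ((C.data c').rho S u C.f - (C.data c).rho (S.erase y) u C.f) :=
      Finset.sum_congr rfl fun u _ => by rw [rho_congr_col C hoff u C.f]
    rw [this]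
    simp only [hg, Finset.sum_sub_distrib]
    ring
  set A := B.filter (· ∈ Q) with hA
  have hAS : A ⊆ S := fun u hu => by
    obtain ⟨h1, h2⟩ := Finset.mem_filter.1 hu
    exact mem_set.2 ⟨hC.ball_k_sub y h1, h2⟩
  have e2 : ∑ u ∈ A, g u = ∑ u ∈ S, g u := by
    refine Finset.sum_subset hAS fun u hu hnA => ?_
    have huB : u ∉ B := fun h => hnA (Finset.mem_filter.2 ⟨h, (mem_set.1 hu).2⟩)
    simp only [hg]
    rw [sub_eq_zero]
    refine rho_f_local hC hu (fun _ _ => Iff.rfl) fun w hw _ => ?_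
    have : w ≠ y := by
      rintro rfl
      exact huB (mgBall_symm hC.meas.inv.invol hw)
    rw [hc', Function.update_of_ne this]
  have e3 : ∑ v ∈ A, (C.M c' Q v - C.M c Q v) = ∑ v ∈ B, (C.M c' Q v - C.M c Q v) := by
    refine Finset.sum_subset (Finset.filter_subset _ _) fun v hv hnA => ?_
    have hvQ : v ∉ Q := fun h => hnA (Finset.mem_filter.2 ⟨hv, h⟩)
    rw [M_of_notMem c' hvQ, M_of_notMem c hvQ, sub_self]
  rw [e1, ← e2, ← e3]
  refine Finset.sum_congr rfl fun v hv => ?_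
  obtain ⟨h1, h2⟩ := Finset.mem_filter.1 hv
  rw [M_eq_rho_set hC c' h1 h2, M_eq_rho_set hC c h1 h2]

/-- (5.3), deleting one present site -/
theorem sum_M_erase (hC : C.Good r H₀ ε₁) (c : Y → Option (Fin r)) {Q : Set Y} {y : Y} (hy : y ∈ Q) :
    ∑ v ∈ mgBall C.σ C.p.natDegree y, (C.M c Q v - C.M c (Q \ {y}) v) = C.Df c Q y := by
  classical
  set S := C.set Q y with hS
  set B := mgBall C.σ C.p.natDegree y with hB
  have hyS : y ∈ S := self_mem_set hy
  have hyB : y ∈ B := self_mem_mgBall _ _ _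
  set g : Y → ℝ := fun u => (C.data c).rho S u C.f - (C.data c).rho (S.erase y) u C.f with hg
  rw [Df_of_mem c hy, PvData.df_eq_sum (MgCtx.data_good hC.meas c) hC.r_pos hyS,
    ← Finset.add_sum_erase B _ hyB, M_of_mem c hy, M_of_notMem c (Q := Q \ {y}) (by simp), sub_zero]
  congr 1
  set A := (B.erase y).filter (· ∈ Q) with hA
  have hAS : A ⊆ S.erase y := fun u hu => by
    obtain ⟨h1, h2⟩ := Finset.mem_filter.1 hu
    obtain ⟨h3, h4⟩ := Finset.mem_erase.1 h1
    exact Finset.mem_erase.2 ⟨h3, mem_set.2 ⟨hC.ball_k_sub y h4, h2⟩⟩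
  have e2 : ∑ u ∈ A, g u = ∑ u ∈ S.erase y, g u := by
    refine Finset.sum_subset hAS fun u hu hnA => ?_
    obtain ⟨h3, h4⟩ := Finset.mem_erase.1 hu
    have huB : u ∉ B := fun h =>
      hnA (Finset.mem_filter.2 ⟨Finset.mem_erase.2 ⟨h3, h⟩, (mem_set.1 h4).2⟩)
    simp only [hg]
    rw [sub_eq_zero]
    refine rho_f_local hC h4 (fun w hw => ?_) fun _ _ _ => rfl
    have : w ≠ y := by
      rintro rfl
      exact huB (mgBall_symm hC.meas.inv.invol hw)
    simp [Finset.mem_erase, this]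
  have e3 : ∑ v ∈ A, (C.M c Q v - C.M c (Q \ {y}) v) =
      ∑ v ∈ B.erase y, (C.M c Q v - C.M c (Q \ {y}) v) := by
    refine Finset.sum_subset (Finset.filter_subset _ _) fun v hv hnA => ?_
    have hvQ : v ∉ Q := fun h => hnA (Finset.mem_filter.2 ⟨hv, h⟩)
    rw [M_of_notMem c hvQ, M_of_notMem c (Q := Q \ {y}) (fun h => hvQ h.1), sub_self]
  rw [← e2, ← e3]
  refine Finset.sum_congr rfl fun v hv => ?_
  obtain ⟨h1, h2⟩ := Finset.mem_filter.1 hv
  obtain ⟨h3, h4⟩ := Finset.mem_erase.1 h1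
  rw [M_eq_rho_set hC c h4 h2]
  congr 1
  refine M_eq_rho hC c (Q := Q \ {y}) ⟨h2, by simpa using h3⟩ _ fun u hu => ?_
  rw [Finset.mem_erase, mem_set, Set.mem_sdiff, Set.mem_singleton_iff]
  refine ⟨fun h => ⟨h.2.2, h.1⟩, fun h => ⟨h.2, ?_, h.1⟩⟩
  exact mgBall_mono _ (by have := hC.rad; omega) _ (mgBall_trans h4 hu)

/-- a finite union of components of the mask, of diameter `≤ ρ` -/
theorem sum_M_component (hC : C.Good r H₀ ε₁) (c : Y → Option (Fin r)) {Q : Set Y} (S : Finset Y)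
    (hSQ : ∀ u ∈ S, u ∈ Q) (hcl : ∀ u ∈ S, ∀ v ∈ Q, C.T u v ≠ 0 → v ∈ S)
    (hdiam : ∀ u ∈ S, ∀ v ∈ S, u ∈ mgBall C.σ C.ρ v) :
    ∑ v ∈ S, C.M c Q v = pvRootSum ((C.data c).poly S) C.f := by
  classical
  rw [← PvData.sum_rho (MgCtx.data_good hC.meas c) hC.r_pos S C.f]
  refine Finset.sum_congr rfl fun v hv => ?_
  rw [M_of_mem c (hSQ v hv)]
  have hsub : S ⊆ C.set Q v := fun u hu => mem_set.2 ⟨hdiam u hu v hv, hSQ u hu⟩
  have hun : C.set Q v = S ∪ (C.set Q v \ S) := (Finset.union_sdiff_of_subset hsub).symm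
  rw [hun]
  refine PvData.rho_union (MgCtx.data_good hC.meas c) hC.r_pos Finset.disjoint_sdiff
    (fun u hu w hw => ?_) hv C.f
  by_contra hne
  obtain ⟨h1, h2⟩ := Finset.mem_sdiff.1 hw
  exact h2 (hcl u hu w (mem_set.1 h1).2 hne)

end Sum

section Est

theorem mgTau_abs_le {t : ℝ} (ht : 0 < t) (o : Option (Fin r)) : |mgTau t o| ≤ 80 * t := by
  unfold mgTau
  split_ifs
  · rw [abs_of_pos ht]; linarith
  · rw [abs_of_pos (by linarith)]

theorem mgTau_pos {t : ℝ} (ht : 0 < t) (o : Option (Fin r)) : 0 < mgTau t o := by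
  unfold mgTau
  split_ifs
  · exact ht
  · linarith

/-- all roots lie in `[-L, L]` -/
theorem roots_le (hC : C.Good r H₀ ε₁) (c : Y → Option (Fin r)) {S : Finset Y} (hS : ∀ u ∈ S, C.W u ≤ H₀) :
    ∀ x ∈ ((C.data c).poly S).roots, |x.re| ≤ (1 + 80 * C.t) * H₀ :=
  PvData.roots_bdd (MgCtx.data_good hC.meas c) hC.r_pos hS fun v _ => mgTau_abs_le hC.t_pos (c v)

theorem abs_rho_sub_m_le (hC : C.Good r H₀ ε₁) (c : Y → Option (Fin r)) {S : Finset Y}
    (hS : ∀ u ∈ S, C.W u ≤ H₀) {y : Y} (hy : y ∈ S) :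
    |(C.data c).rho S y C.f - (C.data c).m S y| ≤ ε₁ := by
  refine PvData.rho_abs_sub_le (MgCtx.data_good hC.meas c) hC.r_pos hy fun x hx => ?_
  exact hC.apx.sup _ (abs_le.1 (roots_le hC c hS x hx))

theorem abs_df_sub_d_le (hC : C.Good r H₀ ε₁) (c : Y → Option (Fin r)) {S : Finset Y}
    (hS : ∀ u ∈ S, C.W u ≤ H₀) {y : Y} (hy : y ∈ S) :
    |(C.data c).df S y C.f - (C.data c).d S y| ≤ ε₁ := by
  have h := PvData.df_sub_le (MgCtx.data_good hC.meas c) hC.r_pos hy (roots_le hC c hS)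
    (C.p.eval (-((1 + 80 * C.t) * H₀))) 0 (fun s => C.p.derivative.eval s)
    (fun s => if 0 < s then (1 : ℝ) else 0) (C.p.derivative.continuous.intervalIntegrable _ _)
    (mgcStep_integrable _ _)
  have e1 : (fun x => C.p.eval (-((1 + 80 * C.t) * H₀)) +
      ∫ s in (-((1 + 80 * C.t) * H₀))..x, C.p.derivative.eval s) = C.f :=
    funext fun x => (mgc_eval_eq_integral C.p _ x).symm
  have e2 : (fun x => (0 : ℝ) + ∫ s in (-((1 + 80 * C.t) * H₀))..x, (if 0 < s then (1 : ℝ) else 0)) =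
      fun x => max x 0 := funext fun x => (mgc_max_eq_integral hC.L_pos.le x).symm
  rw [e1, e2, sub_zero] at h
  exact h.trans hC.apx.der

/-- comparison with the true rooted cost of ANY admissible finite set -/
theorem abs_M_sub_m_le (hC : C.Good r H₀ ε₁) (c : Y → Option (Fin r)) {Q : Set Y} (hQ : ∀ y ∈ Q, C.W y ≤ H₀)
    {y : Y} (hy : y ∈ Q) (S : Finset Y) (hSQ : ∀ u ∈ S, u ∈ Q)
    (hS : ∀ u ∈ mgBall C.σ C.p.natDegree y, u ∈ Q → u ∈ S) : |C.M c Q y - (C.data c).m S y| ≤ ε₁ := by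
  rw [M_eq_rho hC c hy S fun u hu => ⟨hSQ u, hS u hu⟩]
  exact abs_rho_sub_m_le hC c (fun u hu => hQ u (hSQ u hu)) (hS y (self_mem_mgBall _ _ _) hy)

theorem abs_Df_sub_d_le (hC : C.Good r H₀ ε₁) (c : Y → Option (Fin r)) {Q : Set Y} (hQ : ∀ y ∈ Q, C.W y ≤ H₀)
    {y : Y} (hy : y ∈ Q) (S : Finset Y) (hSQ : ∀ u ∈ S, u ∈ Q)
    (hS : ∀ u ∈ mgBall C.σ (2 * C.p.natDegree) y, u ∈ Q → u ∈ S) : |C.Df c Q y - (C.data c).d S y| ≤ ε₁ := by
  rw [Df_eq_df hC c hy S fun u hu => ⟨hSQ u, hS u hu⟩]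
  exact abs_df_sub_d_le hC c (fun u hu => hQ u (hSQ u hu)) (hS y (self_mem_mgBall _ _ _) hy)

theorem set_W_le {Q : Set Y} (hQ : ∀ y ∈ Q, C.W y ≤ H₀) (y : Y) : ∀ u ∈ C.set Q y, C.W u ≤ H₀ :=
  fun u hu => hQ u (mem_set.1 hu).2

theorem m_le_L (hC : C.Good r H₀ ε₁) (c : Y → Option (Fin r)) {S : Finset Y}
    (hS : ∀ u ∈ S, C.W u ≤ H₀) {y : Y} (hy : y ∈ S) : (C.data c).m S y ≤ (1 + 80 * C.t) * H₀ := by
  have hD := MgCtx.data_good hC.meas c
  have h1 := PvData.rho_mono hD hC.r_pos hy (f := fun x => max x 0)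
    (g := fun _ => (1 + 80 * C.t) * H₀ * 1) fun x hx =>
      max_le (by rw [mul_one]; exact (abs_le.1 (roots_le hC c hS x hx)).2)
        (by rw [mul_one]; exact hC.L_pos.le)
  rw [PvData.rho_smul, PvData.rho_one hD hC.r_pos hy, mul_one] at h1
  exact h1

theorem d_le_L (hC : C.Good r H₀ ε₁) (c : Y → Option (Fin r)) {S : Finset Y}
    (hS : ∀ u ∈ S, C.W u ≤ H₀) {y : Y} (hy : y ∈ S) : (C.data c).d S y ≤ 3 * ((1 + 80 * C.t) * H₀) := by
  have hD := MgCtx.data_good hC.meas c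
  have hW := hC.meas.W_pos y
  have hτ := mgTau_pos hC.t_pos (c y)
  have ha0 : 0 ≤ (C.data c).a y := (mul_pos hτ hW).le
  have ha : (C.data c).a y ≤ (1 + 80 * C.t) * H₀ := by
    have h1 : mgTau C.t (c y) ≤ 80 * C.t := (le_abs_self _).trans (mgTau_abs_le hC.t_pos _)
    calc (C.data c).a y = mgTau C.t (c y) * C.W y := rfl
      _ ≤ (80 * C.t) * H₀ := mul_le_mul h1 (hS y hy) hW.le (by have := hC.t_pos; positivity)
      _ ≤ (1 + 80 * C.t) * H₀ := by have := hC.H_pos; nlinarith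
  have := PvData.d_le hD hC.r_pos hy ha0
  have := m_le_L hC c hS hy
  linarith

theorem neg_le_M (hC : C.Good r H₀ ε₁) (c : Y → Option (Fin r)) {Q : Set Y} (hQ : ∀ y ∈ Q, C.W y ≤ H₀) (y : Y) :
    -ε₁ ≤ C.M c Q y := by
  by_cases hy : y ∈ Q
  · rw [M_of_mem c hy]
    have h1 := abs_le.1 (abs_rho_sub_m_le hC c (set_W_le hQ y) (self_mem_set hy))
    have h2 := PvData.m_nonneg (MgCtx.data_good hC.meas c) hC.r_pos (self_mem_set (C := C) hy)
    linarith [h1.1]
  · rw [M_of_notMem c hy]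
    linarith [hC.eps_nonneg]

theorem M_le (hC : C.Good r H₀ ε₁) (c : Y → Option (Fin r)) {Q : Set Y} (hQ : ∀ y ∈ Q, C.W y ≤ H₀) (y : Y) :
    C.M c Q y ≤ (1 + 80 * C.t) * H₀ + ε₁ := by
  by_cases hy : y ∈ Q
  · rw [M_of_mem c hy]
    have h1 := abs_le.1 (abs_rho_sub_m_le hC c (set_W_le hQ y) (self_mem_set hy))
    have h2 := m_le_L hC c (set_W_le hQ y) (self_mem_set hy)
    linarith [h1.2]
  · rw [M_of_notMem c hy]
    linarith [hC.eps_nonneg, hC.L_pos]

theorem neg_le_Df (hC : C.Good r H₀ ε₁) (c : Y → Option (Fin r)) {Q : Set Y} (hQ : ∀ y ∈ Q, C.W y ≤ H₀) (y : Y) :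
    -ε₁ ≤ C.Df c Q y := by
  by_cases hy : y ∈ Q
  · rw [Df_of_mem c hy]
    have h1 := abs_le.1 (abs_df_sub_d_le hC c (set_W_le hQ y) (self_mem_set hy))
    have h2 := PvData.d_nonneg (MgCtx.data_good hC.meas c) hC.r_pos (self_mem_set (C := C) hy)
    linarith [h1.1]
  · rw [Df_of_notMem c hy]
    linarith [hC.eps_nonneg]

theorem Df_le (hC : C.Good r H₀ ε₁) (c : Y → Option (Fin r)) {Q : Set Y} (hQ : ∀ y ∈ Q, C.W y ≤ H₀) (y : Y) :
    C.Df c Q y ≤ 3 * ((1 + 80 * C.t) * H₀) + ε₁ := by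
  by_cases hy : y ∈ Q
  · rw [Df_of_mem c hy]
    have h1 := abs_le.1 (abs_df_sub_d_le hC c (set_W_le hQ y) (self_mem_set hy))
    have h2 := d_le_L hC c (set_W_le hQ y) (self_mem_set hy)
    linarith [h1.2]
  · rw [Df_of_notMem c hy]
    linarith [hC.eps_nonneg, hC.L_pos]

theorem data_update_some (C : MgCtx Y D) (c : Y → Option (Fin r)) {y : Y} (hc : c y = none) (i : Fin r) :
    C.data (Function.update c y (some i)) = (C.data c).assign y i (80 * (C.data c).τ y) := by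
  unfold MgCtx.data PvData.assign
  congr 1
  funext u
  by_cases h : u = y
  · subst h
    simp [mgTau, hc]
  · simp [Function.update_of_ne h]

/-- Lemma 4.7 for the local costs -/
theorem exists_Dfi_le (hC : C.Good r H₀ ε₁) (c : Y → Option (Fin r)) {Q : Set Y} (hQ : ∀ y ∈ Q, C.W y ≤ H₀)
    {y : Y} (hy : y ∈ Q) (hc : c y = none) : ∃ i, C.Dfi c Q i y - C.Df c Q y ≤ 24 * C.M c Q y + 26 * ε₁ := by
  have hyS := self_mem_set (C := C) hy
  obtain ⟨i, hi⟩ := PvData.assignment (MgCtx.data_good hC.meas c) hC.r_pos hyS hc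
    (mgTau_pos hC.t_pos (c y))
  refine ⟨i, ?_⟩
  rw [← data_update_some C c hc i] at hi
  unfold MgCtx.Dfi
  rw [Df_of_mem _ hy, Df_of_mem c hy, M_of_mem c hy]
  have h1 := abs_le.1 (abs_df_sub_d_le hC (Function.update c y (some i)) (set_W_le hQ y) hyS)
  have h2 := abs_le.1 (abs_df_sub_d_le hC c (set_W_le hQ y) hyS)
  have h3 := abs_le.1 (abs_rho_sub_m_le hC c (set_W_le hQ y) hyS)
  linarith [h1.2, h2.1, h3.1]

/-- Lemma 4.3 (1) for the local costs -/
theorem abs_M_le_of_unassigned (hC : C.Good r H₀ ε₁) (ht : 3 / Real.sqrt r < C.t) (c : Y → Option (Fin r)) {Q : Set Y}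
    (hQ : ∀ y ∈ Q, C.W y ≤ H₀) (y : Y) (hc : ∀ u ∈ mgBall C.σ C.ρ y, c u = none) : |C.M c Q y| ≤ ε₁ := by
  by_cases hy : y ∈ Q
  · have hyS := self_mem_set (C := C) hy
    have hD := MgCtx.data_good hC.meas c
    have hcS : ∀ v ∈ C.set Q y, c v = none := fun v hv => hc v (mem_set.1 hv).1
    have h0 := PvData.initial_cost hD hC.r_pos ht hcS (fun v hv => by
      show mgTau C.t (c v) = C.t
      rw [hcS v hv]
      simp [mgTau])
    rw [← PvData.sum_m hD hC.r_pos] at h0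
    have h1 := (Finset.sum_eq_zero_iff_of_nonneg fun v hv => PvData.m_nonneg hD hC.r_pos hv).1 h0 y hyS
    have h2 := abs_rho_sub_m_le hC c (set_W_le hQ y) hyS
    rw [h1, sub_zero] at h2
    rw [M_of_mem c hy]
    exact h2
  · rw [M_of_notMem c hy, abs_zero]
    exact hC.eps_nonneg

/-- root sums versus positive root sums -/
theorem abs_rootSum_sub_le (hC : C.Good r H₀ ε₁) (c : Y → Option (Fin r)) (S : Finset Y) (hS : ∀ u ∈ S, C.W u ≤ H₀) :
    |pvRootSum ((C.data c).poly S) C.f - pvSPos ((C.data c).poly S)| ≤ S.card * ε₁ := by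
  have hD := MgCtx.data_good hC.meas c
  rw [← PvData.sum_rho hD hC.r_pos, ← PvData.sum_m hD hC.r_pos, ← Finset.sum_sub_distrib]
  refine (Finset.abs_sum_le_sum_abs _ _).trans ?_
  rw [← nsmul_eq_mul]
  exact Finset.sum_le_card_nsmul _ _ _ fun v hv => abs_rho_sub_m_le hC c hS hv

theorem data_map (C : MgCtx Y D) (π : Equiv.Perm (Fin r)) (c : Y → Option (Fin r)) :
    C.data (fun u => (c u).map π) = (C.data c).recolor π := by
  unfold MgCtx.data PvData.recolor
  congr 1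
  funext u
  cases c u <;> simp [mgTau]

/-- renaming the colours -/
theorem M_map (hC : C.Good r H₀ ε₁) (π : Equiv.Perm (Fin r)) (c : Y → Option (Fin r)) (Q : Set Y) (y : Y) :
    C.M (fun u => (c u).map π) Q y = C.M c Q y := by
  by_cases hy : y ∈ Q
  · rw [M_of_mem _ hy, M_of_mem c hy, data_map]
    unfold PvData.rho
    rw [PvData.recolor_poly, PvData.recolor_poly]
  · rw [M_of_notMem _ hy, M_of_notMem c hy]

theorem Df_map (hC : C.Good r H₀ ε₁) (π : Equiv.Perm (Fin r)) (c : Y → Option (Fin r)) (Q : Set Y) (y : Y) :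
    C.Df (fun u => (c u).map π) Q y = C.Df c Q y := by
  by_cases hy : y ∈ Q
  · rw [Df_of_mem _ hy, Df_of_mem c hy, data_map]
    unfold PvData.df
    rw [PvData.recolor_poly, PvData.recolor_poly]
  · rw [Df_of_notMem _ hy, Df_of_notMem c hy]

theorem Dfi_map (hC : C.Good r H₀ ε₁) (π : Equiv.Perm (Fin r)) (c : Y → Option (Fin r)) (Q : Set Y) (i : Fin r) (y : Y) :
    C.Dfi (fun u => (c u).map π) Q (π i) y = C.Dfi c Q i y := by
  unfold MgCtx.Dfi
  rw [← Df_map hC π (Function.update c y (some i)) Q y]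
  congr 1
  funext u
  by_cases h : u = y
  · subst h; simp
  · simp [Function.update_of_ne h]

end Est

end MgCtx

/-- existence of the approximating polynomial (Weierstrass for a continuous ramp approximating `1_{x>0}` in `L¹`, then integrate) -/
theorem mg_exists_apx {L ε : ℝ} (hL : 0 < L) (hε : 0 < ε) : ∃ p : ℝ[X], MgApx p L ε :=
  mgc_exists_apx hL hε

end

end Claimed.Agent.R302
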