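/-
R302 / MG / Del   (skeleton: helper244)   LEAF "MG-Del"
Integrated change formulas on a measure preserving context (replacement of Lemma 5.2 of Q: no orders, no infinite volume).

* `mg_change_update`: transport of single site recolourings (used by the one step inequality).
* `mg_del_round`: deleting a `2k`-separated measurable set `E`:  `∫ M(Q) - ∫ M(Q \ E) = ∫_E Df(Q)`.
* `mg_del`: deleting an arbitrary measurable set costs at most `ε₁ ν(deleted)`  ("deletion cannot increase the integral of m").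

PLANS.
`mg_del_round`: for every root `v` the ball `ball k v` contains at most one point of `E` (two of them would be at distance `≤ 2k`), so by `M_congr`
  `M c Q v - M c (Q \ E) v = ∑_{u ∈ ball k v} [u ∈ E] (M c Q v - M c (Q \ {u}) v)`; apply `mg_mtp_integral` with `h v u = [u ∈ E] (M c Q v - M c (Q \ {u}) v)` and `sum_M_erase`.
  Measurability of `v ↦ h v (w v)`: `mg_meas_M` for the family `root = id`, masks `Q \ {w v}` (`MgFam.erase`).
`mg_del`: take the proper colouring `col` of the `2k`-th power graph (`mg_exists_coloring`), `E_l = (Q \ Q') ∩ col⁻¹ l`, delete the classes one after the other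
  (induction on `l`); each round changes the integral by `-∫_{E_l} Df ≤ ε₁ ν(E_l)` (`neg_le_Df`); the `E_l` are disjoint.
-/
import Claimed.Agent.R302.MG.Cost

set_option autoImplicit false
set_option linter.unusedSectionVars false

namespace Claimed.Agent.R302

open MeasureTheory Finset Polynomial
open scoped BigOperators ComplexConjugate ENNReal

noncomputable section

variable {Y : Type*} [MeasurableSpace Y] [DecidableEq Y] {D r : ℕ} {C : MgCtx Y D} {H₀ ε₁ : ℝ} {ν : Measure Y}

theorem mgd_abs_M_le (hC : C.Good r H₀ ε₁) (c : Y → Option (Fin r)) {Q : Set Y} (hQ : ∀ y ∈ Q, C.W y ≤ H₀)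
    (y : Y) : |C.M c Q y| ≤ (1 + 80 * C.t) * H₀ + ε₁ := by
  have hpos : 0 ≤ (1 + 80 * C.t) * H₀ := by
    have := hC.t_pos; have := hC.H_pos; positivity
  rw [abs_le]
  exact ⟨by linarith [MgCtx.neg_le_M hC c hQ y], MgCtx.M_le hC c hQ y⟩

theorem mgd_abs_Df_le (hC : C.Good r H₀ ε₁) (c : Y → Option (Fin r)) {Q : Set Y} (hQ : ∀ y ∈ Q, C.W y ≤ H₀)
    (y : Y) : |C.Df c Q y| ≤ 3 * ((1 + 80 * C.t) * H₀) + ε₁ := by
  have hpos : 0 ≤ (1 + 80 * C.t) * H₀ := by
    have := hC.t_pos; have := hC.H_pos; positivity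
  rw [abs_le]
  exact ⟨by linarith [MgCtx.neg_le_Df hC c hQ y], MgCtx.Df_le hC c hQ y⟩

theorem mgd_M_of_notMem (c : Y → Option (Fin r)) {Q : Set Y} {y : Y} (hy : y ∉ Q) : C.M c Q y = 0 := by
  unfold MgCtx.M; rw [if_neg hy]

theorem mgd_Df_of_notMem (c : Y → Option (Fin r)) {Q : Set Y} {y : Y} (hy : y ∉ Q) : C.Df c Q y = 0 := by
  unfold MgCtx.Df; rw [if_neg hy]

theorem mg_integrable_M (hC : C.Good r H₀ ε₁) {c : Y → Option (Fin r)} (hc : MgMeasC c) {Q : Set Y}
    (hQm : MeasurableSet Q) (hQν : ν Q ≠ ∞) (hQ : ∀ y ∈ Q, C.W y ≤ H₀) : Integrable (C.M c Q) ν := by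
  have hm : Measurable (C.M c Q) := mg_meas_M hC.meas hC.r_pos (MgFam.const hC.meas.inv hc hQm)
  refine IntegrableOn.integrable_of_forall_notMem_eq_zero (s := Q) ?_ fun y hy => mgd_M_of_notMem c hy
  exact Measure.integrableOn_of_bounded (M := (1 + 80 * C.t) * H₀ + ε₁) hQν hm.aestronglyMeasurable
    (ae_of_all _ fun y => by rw [Real.norm_eq_abs]; exact mgd_abs_M_le hC c hQ y)

theorem mg_integrable_Df (hC : C.Good r H₀ ε₁) {c : Y → Option (Fin r)} (hc : MgMeasC c) {Q : Set Y}
    (hQm : MeasurableSet Q) (hQν : ν Q ≠ ∞) (hQ : ∀ y ∈ Q, C.W y ≤ H₀) : Integrable (C.Df c Q) ν := by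
  have hm : Measurable (C.Df c Q) := mg_meas_Df hC.meas hC.r_pos (MgFam.const hC.meas.inv hc hQm)
  refine IntegrableOn.integrable_of_forall_notMem_eq_zero (s := Q) ?_ fun y hy => mgd_Df_of_notMem c hy
  exact Measure.integrableOn_of_bounded (M := 3 * ((1 + 80 * C.t) * H₀) + ε₁) hQν hm.aestronglyMeasurable
    (ae_of_all _ fun y => by rw [Real.norm_eq_abs]; exact mgd_abs_Df_le hC c hQ y)

open Classical in
/-- transport of single site recolourings: `c'` prescribes the new colour, `A` the set of sites which are recoloured (one at a time!) -/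
theorem mg_change_update (hC : C.Good r H₀ ε₁) (hν : ∀ k, MeasurePreserving (C.σ k) ν ν)
    {c c' : Y → Option (Fin r)} (hc : MgMeasC c) (hc' : MgMeasC c') {Q : Set Y}
    (hQm : MeasurableSet Q) (hQν : ν Q ≠ ∞) (hQ : ∀ y ∈ Q, C.W y ≤ H₀) {A : Set Y} (hA : MeasurableSet A) :
    ∫ v, ∑ u ∈ mgBall C.σ C.p.natDegree v, (if u ∈ A then C.M (Function.update c u (c' u)) Q v - C.M c Q v else 0) ∂ν =
      ∫ u in A, (C.Df (Function.update c u (c' u)) Q u - C.Df c Q u) ∂ν := by
  have hσ := hC.meas.inv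
  have hfam := MgFam.const hσ hc hQm
  obtain ⟨-, -, E⟩ := mg_mtp_integral hσ hν C.p.natDegree
    (fun v u => if u ∈ A then C.M (Function.update c u (c' u)) Q v - C.M c Q v else 0)
    (fun w => by
      refine Measurable.ite (measurable_mgAct hσ.meas w hA) ?_ measurable_const
      refine Measurable.sub ?_ (mg_meas_M hC.meas hC.r_pos hfam)
      exact mg_meas_M hC.meas hC.r_pos (hfam.update hσ w (fun v => c' (mgAct C.σ w v))
        (fun o => measurable_mgAct hσ.meas w (hc' o))))
    hQm hQν (c₀ := 2 * ((1 + 80 * C.t) * H₀ + ε₁))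
    (by
      intro v u
      have h1 := mgd_abs_M_le hC (Function.update c u (c' u)) hQ v
      have h2 := mgd_abs_M_le hC c hQ v
      split_ifs
      · have := abs_sub (C.M (Function.update c u (c' u)) Q v) (C.M c Q v)
        linarith
      · rw [abs_zero]
        have := abs_nonneg (C.M c Q v)
        linarith)
    (by
      intro v u hv
      rw [mgd_M_of_notMem _ hv, mgd_M_of_notMem _ hv]
      simp)
  rw [E, ← integral_indicator hA]
  refine integral_congr_ae (ae_of_all _ fun u => ?_)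
  by_cases hu : u ∈ A
  · simp only [hu, if_true, Set.indicator_of_mem]
    by_cases huQ : u ∈ Q
    · exact MgCtx.sum_M_update hC c huQ (c' u)
    · rw [mgd_Df_of_notMem _ huQ, mgd_Df_of_notMem _ huQ, sub_zero]
      refine Finset.sum_eq_zero fun v _ => ?_
      rw [sub_eq_zero]
      refine MgCtx.M_congr_mask hC v fun x _ hxQ => ?_
      rw [Function.update_of_ne]
      rintro rfl
      exact huQ hxQ
  · simp [hu]

theorem mg_del_round (hC : C.Good r H₀ ε₁) (hν : ∀ k, MeasurePreserving (C.σ k) ν ν)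
    {c : Y → Option (Fin r)} (hc : MgMeasC c) {Q : Set Y}
    (hQm : MeasurableSet Q) (hQν : ν Q ≠ ∞) (hQ : ∀ y ∈ Q, C.W y ≤ H₀) {E : Set Y} (hE : MeasurableSet E) (hEQ : E ⊆ Q)
    (hsep : ∀ y ∈ E, ∀ u ∈ mgBall C.σ (2 * C.p.natDegree) y, u ∈ E → u = y) :
    ∫ y, C.M c Q y ∂ν - ∫ y, C.M c (Q \ E) y ∂ν = ∫ y in E, C.Df c Q y ∂ν := by
  classical
  have hσ := hC.meas.inv
  have hinv := hσ.invol
  have hfam := MgFam.const hσ hc hQm
  have hQE : ∀ y ∈ Q \ E, C.W y ≤ H₀ := fun y hy => hQ y hy.1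
  have hQEν : ν (Q \ E) ≠ ∞ := ne_top_of_le_ne_top hQν (measure_mono Set.sdiff_subset)
  have hpt : ∀ v, C.M c Q v - C.M c (Q \ E) v =
      ∑ u ∈ mgBall C.σ C.p.natDegree v, (if u ∈ E then C.M c Q v - C.M c (Q \ {u}) v else 0) := by
    intro v
    by_cases hex : ∃ u₀ ∈ mgBall C.σ C.p.natDegree v, u₀ ∈ E
    · obtain ⟨u₀, hu₀, hu₀E⟩ := hex
      have huniq : ∀ u ∈ mgBall C.σ C.p.natDegree v, u ∈ E → u = u₀ := by
        intro u hu huE
        have h2 : u ∈ mgBall C.σ (C.p.natDegree + C.p.natDegree) u₀ :=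
          mgBall_trans (mgBall_symm hinv hu₀) hu
        exact hsep u₀ hu₀E u (by rwa [two_mul]) huE
      rw [Finset.sum_eq_single_of_mem u₀ hu₀, if_pos hu₀E]
      · congr 1
        refine MgCtx.M_congr hC fun u hu => ⟨rfl, ?_⟩
        simp only [Set.mem_sdiff, Set.mem_singleton_iff]
        constructor
        · rintro ⟨h1, h2⟩; exact ⟨h1, fun h => h2 (h ▸ hu₀E)⟩
        · rintro ⟨h1, h2⟩; exact ⟨h1, fun h => h2 (huniq u hu h)⟩
      · intro u hu hne
        rw [if_neg fun h => hne (huniq u hu h)]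
    · rw [Finset.sum_eq_zero, sub_eq_zero]
      · refine MgCtx.M_congr hC fun u hu => ⟨rfl, ?_⟩
        simp only [Set.mem_sdiff]
        constructor
        · intro h1; exact ⟨h1, fun h => hex ⟨u, hu, h⟩⟩
        · intro h1; exact h1.1
      · intro u hu
        rw [if_neg fun h => hex ⟨u, hu, h⟩]
  obtain ⟨-, -, Eq⟩ := mg_mtp_integral hσ hν C.p.natDegree
    (fun v u => if u ∈ E then C.M c Q v - C.M c (Q \ {u}) v else 0)
    (fun w => by
      refine Measurable.ite (measurable_mgAct hσ.meas w hE) ?_ measurable_const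
      refine Measurable.sub (mg_meas_M hC.meas hC.r_pos hfam) ?_
      exact mg_meas_M hC.meas hC.r_pos (hfam.erase hσ w))
    hQm hQν (c₀ := 2 * ((1 + 80 * C.t) * H₀ + ε₁))
    (by
      intro v u
      have h1 := mgd_abs_M_le hC c (Q := Q \ {u}) (fun y hy => hQ y hy.1) v
      have h2 := mgd_abs_M_le hC c hQ v
      split_ifs
      · have := abs_sub (C.M c Q v) (C.M c (Q \ {u}) v)
        linarith
      · rw [abs_zero]
        have := abs_nonneg (C.M c Q v)
        linarith)
    (by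
      intro v u hv
      rw [mgd_M_of_notMem _ hv, mgd_M_of_notMem _ (fun h => hv h.1)]
      simp)
  rw [← integral_sub (mg_integrable_M hC hc hQm hQν hQ)
    (mg_integrable_M hC hc (hQm.diff hE) hQEν hQE)]
  simp_rw [hpt]
  rw [Eq, ← integral_indicator hE]
  refine integral_congr_ae (ae_of_all _ fun u => ?_)
  by_cases hu : u ∈ E
  · simp only [hu, if_true, Set.indicator_of_mem]
    exact MgCtx.sum_M_erase hC c (hEQ hu)
  · simp [hu]

theorem mg_del (hC : C.Good r H₀ ε₁) (hν : ∀ k, MeasurePreserving (C.σ k) ν ν)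
    {c : Y → Option (Fin r)} (hc : MgMeasC c) {Q Q' : Set Y}
    (hQm : MeasurableSet Q) (hQν : ν Q ≠ ∞) (hQ : ∀ y ∈ Q, C.W y ≤ H₀) (hQ'm : MeasurableSet Q') (hQ' : Q' ⊆ Q) :
    ∫ y, C.M c Q' y ∂ν ≤ ∫ y, C.M c Q y ∂ν + ε₁ * (ν (Q \ Q')).toReal := by
  classical
  have hσ := hC.meas.inv
  have hε := hC.eps_nonneg
  obtain ⟨col, hcolm, hcol⟩ := mg_exists_coloring hσ (2 * C.p.natDegree)
  set A := Q \ Q' with hA
  have hAm : MeasurableSet A := hQm.diff hQ'm
  -- classes
  set Ej : ℕ → Set Y := fun j => {y | y ∈ A ∧ ((col y : ℕ) = j)} with hEj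
  set Aj : ℕ → Set Y := fun j => {y | y ∈ A ∧ ((col y : ℕ) < j)} with hAj
  have hcolN : ∀ j : ℕ, MeasurableSet {y | ((col y : ℕ) = j)} := by
    intro j
    by_cases hj : j < mgNcol D (2 * C.p.natDegree)
    · have : {y | ((col y : ℕ) = j)} = col ⁻¹' {⟨j, hj⟩} := by
        ext y; simp [Fin.ext_iff]
      rw [this]; exact hcolm _
    · have : {y | ((col y : ℕ) = j)} = ∅ := by
        ext y
        simp only [Set.mem_ofPred_eq, Set.mem_empty_iff_false, iff_false]
        intro h
        exact hj (h ▸ (col y).2)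
      rw [this]; exact MeasurableSet.empty
  have hEjm : ∀ j, MeasurableSet (Ej j) := fun j => hAm.inter (hcolN j)
  have hAjm : ∀ j, MeasurableSet (Aj j) := by
    intro j
    induction j with
    | zero =>
      have : Aj 0 = ∅ := by ext y; simp [hAj]
      rw [this]; exact MeasurableSet.empty
    | succ j ih =>
      have : Aj (j + 1) = Aj j ∪ Ej j := by
        ext y
        simp only [hAj, hEj, Set.mem_ofPred_eq, Set.mem_union]
        constructor
        · rintro ⟨h1, h2⟩
          rcases Nat.lt_succ_iff_lt_or_eq.1 h2 with h | h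
          · exact Or.inl ⟨h1, h⟩
          · exact Or.inr ⟨h1, h⟩
        · rintro (⟨h1, h2⟩ | ⟨h1, h2⟩)
          · exact ⟨h1, by omega⟩
          · exact ⟨h1, by omega⟩
      rw [this]; exact ih.union (hEjm j)
  have key : ∀ j : ℕ, ∫ y, C.M c (Q \ Aj j) y ∂ν ≤
      ∫ y, C.M c Q y ∂ν + ε₁ * (ν (Aj j)).toReal := by
    intro j
    induction j with
    | zero =>
      have : Aj 0 = ∅ := by ext y; simp [hAj]
      rw [this]; simp
    | succ j ih =>
      have hAjsub : ∀ i, Aj i ⊆ Q := fun i y hy => hy.1.1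
      have hdisj : Disjoint (Aj j) (Ej j) := by
        rw [Set.disjoint_left]
        rintro y ⟨_, h1⟩ ⟨_, h2⟩
        omega
      have hun : Aj (j + 1) = Aj j ∪ Ej j := by
        ext y
        simp only [hAj, hEj, Set.mem_ofPred_eq, Set.mem_union]
        constructor
        · rintro ⟨h1, h2⟩
          rcases Nat.lt_succ_iff_lt_or_eq.1 h2 with h | h
          · exact Or.inl ⟨h1, h⟩
          · exact Or.inr ⟨h1, h⟩
        · rintro (⟨h1, h2⟩ | ⟨h1, h2⟩)
          · exact ⟨h1, by omega⟩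
          · exact ⟨h1, by omega⟩
      have hQj : Q \ Aj (j + 1) = (Q \ Aj j) \ Ej j := by
        rw [hun, Set.sdiff_sdiff]
      have hQjν : ν (Q \ Aj j) ≠ ∞ := ne_top_of_le_ne_top hQν (measure_mono Set.sdiff_subset)
      have hQjW : ∀ y ∈ Q \ Aj j, C.W y ≤ H₀ := fun y hy => hQ y hy.1
      have hEν : ν (Ej j) ≠ ∞ := ne_top_of_le_ne_top hQν (measure_mono fun y hy => hy.1.1)
      have hAν : ν (Aj j) ≠ ∞ := ne_top_of_le_ne_top hQν (measure_mono (hAjsub j))
      have hr := mg_del_round hC hν hc (hQm.diff (hAjm j)) hQjν hQjW (hEjm j)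
        (fun y hy => ⟨hy.1.1, fun h => by have := h.2; have := hy.2; omega⟩)
        (by
          intro y hy u hu huE
          by_contra hne
          have h1 := hcol y u hu hne
          apply h1
          apply Fin.ext
          rw [huE.2, hy.2])
      have hlow : -(ε₁ * (ν (Ej j)).toReal) ≤ ∫ y in Ej j, C.Df c (Q \ Aj j) y ∂ν := by
        have h1 : ∫ _y in Ej j, (-ε₁) ∂ν ≤ ∫ y in Ej j, C.Df c (Q \ Aj j) y ∂ν :=
          setIntegral_mono_on (integrableOn_const hEν)
            (mg_integrable_Df hC hc (hQm.diff (hAjm j)) hQjν hQjW).integrableOn (hEjm j)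
            (fun y _ => MgCtx.neg_le_Df hC c hQjW y)
        rw [setIntegral_const, smul_eq_mul] at h1
        have h2 : ν.real (Ej j) = (ν (Ej j)).toReal := rfl
        rw [h2] at h1
        linarith
      rw [hQj, hun, measure_union hdisj (hEjm j), ENNReal.toReal_add hAν hEν]
      linarith
  have hfin : Aj (mgNcol D (2 * C.p.natDegree)) = A := by
    ext y
    simp only [hAj, Set.mem_ofPred_eq]
    exact ⟨fun h => h.1, fun h => ⟨h, (col y).2⟩⟩
  have h := key (mgNcol D (2 * C.p.natDegree))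
  rw [hfin] at h
  have hQQ : Q \ A = Q' := by
    rw [hA, Set.sdiff_sdiff_cancel_left hQ']
  rwa [hQQ] at h

end

end Claimed.Agent.R302
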