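/-
R302 / MG / Lift   (skeleton: helper244)   LEAVES "MG-Lift-alg" (first section), "MG-Lift-meas" (second section)
The Maharam lift of a nonsingular base (Q, (6.5)-(6.7)): `X × ℝ`, `σ̂_k (x,s) = (σ_k x, s - log δ_k x)`, `ν = μ ⊗ e^s ds`, `W = e^{-s}`.

PLANS.
* `act_lσ` by induction on the word (`Real.log_mul`, positivity of `δ` from `K⁻¹ ≤ δ`).
* `act_lσ_eq_iff`: `coh`.     `lσ_invol`: `coh` for the words `[k,k]` and `[]`.
* `lift_inv` (SEP): pull back the three sets of the base along `Prod.fst`.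
* `lift_ker`: `herm`: the condition `∃ k, σ̂_k y = y'` is symmetric (involutions).  `contr`: split the finite set `S` into the classes of the lifted orbit relation;
  `lT` vanishes between different classes; on one class `Prod.fst` is injective and `lT y y' = T y.1 y'.1`
  (if `T y.1 y'.1 ≠ 0` then `σ_k y.1 = y'.1` for some `k`, and `σ̂_k y = y'` by `coh`, because `y' = ŵ y`); apply `contr` of the base to the image of the class.
  `gauge`: `τ̂ w w' (x,s) = [∃ k, σ_k (w x) = w' x] τ w w' x`, `θ̂ w (x,s) = θ w x`.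
* `lift_mp`: for measurable `g ≥ 0`:  `∫∫ g(σ_k x, s - log δ_k x) e^s ds dμ = ∫∫ g(σ_k x, s') e^{s'} δ_k x ds' dμ = ∫∫ g(x,s') e^{s'} ds' dμ` (translation invariance of Lebesgue measure, Tonelli, `rn`).
-/
import Claimed.Agent.R302.MG.Meas

set_option autoImplicit false
set_option linter.unusedSectionVars false

namespace Claimed.Agent.R302

open MeasureTheory Finset Polynomial
open scoped BigOperators ComplexConjugate ENNReal

noncomputable section

namespace MgBase

variable {X : Type*} [MeasurableSpace X] {D : ℕ} {B : MgBase X D} {μ : Measure X} {K : ℝ}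

/-! ### algebra of the lift -/

theorem δ_pos (hB : B.Good μ K) (k : Fin D) (x : X) : 0 < B.δ k x := by
  have hK : 0 < K := lt_of_lt_of_le one_pos hB.one_le
  exact lt_of_lt_of_le (inv_pos.2 hK) (hB.δ_lo k x)

theorem coc_pos (hB : B.Good μ K) (w : List (Fin D)) (x : X) : 0 < B.coc w x := by
  induction w with
  | nil => exact one_pos
  | cons k w ih => exact mul_pos (δ_pos hB k _) ih

theorem coc_le (hB : B.Good μ K) (w : List (Fin D)) (x : X) : B.coc w x ≤ K ^ w.length := by
  have hK : 0 < K := lt_of_lt_of_le one_pos hB.one_le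
  induction w with
  | nil => simp [coc]
  | cons k w ih =>
    rw [List.length_cons, pow_succ, mul_comm]
    exact mul_le_mul (hB.δ_hi k _) ih (coc_pos hB w x).le hK.le

theorem coc_ge (hB : B.Good μ K) (w : List (Fin D)) (x : X) : (K ^ w.length)⁻¹ ≤ B.coc w x := by
  have hK : 0 < K := lt_of_lt_of_le one_pos hB.one_le
  induction w with
  | nil => simp [coc]
  | cons k w ih =>
    rw [List.length_cons, pow_succ, mul_inv, mul_comm]
    exact mul_le_mul (hB.δ_lo k _) ih (by positivity) (δ_pos hB k _).le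

theorem coc_append (B : MgBase X D) (w w' : List (Fin D)) (x : X) :
    B.coc (w ++ w') x = B.coc w (mgAct B.σ w' x) * B.coc w' x := by
  induction w with
  | nil => simp [coc]
  | cons k w ih =>
    simp only [List.cons_append, coc, ih, mgAct_append]
    ring

theorem coc_meas (hB : B.Good μ K) (w : List (Fin D)) : Measurable (B.coc w) := by
  induction w with
  | nil => exact measurable_const
  | cons k w ih =>
    exact ((hB.δ_meas k).comp (measurable_mgAct hB.inv.meas w)).mul ih

theorem act_lσ (hB : B.Good μ K) (w : List (Fin D)) (y : X × ℝ) :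
    mgAct B.lσ w y = (mgAct B.σ w y.1, y.2 - Real.log (B.coc w y.1)) := by
  induction w with
  | nil => simp [coc]
  | cons k w ih =>
    rw [mgAct_cons, ih]
    simp only [lσ, mgAct_cons, coc]
    rw [Real.log_mul (δ_pos hB k _).ne' (coc_pos hB w _).ne']
    congr 1
    ring

theorem act_lσ_fst (B : MgBase X D) (w : List (Fin D)) (y : X × ℝ) :
    (mgAct B.lσ w y).1 = mgAct B.σ w y.1 := by
  induction w with
  | nil => rfl
  | cons k w ih => simp [lσ, ih]

theorem act_lσ_eq_iff (hB : B.Good μ K) (w w' : List (Fin D)) (y : X × ℝ) :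
    mgAct B.lσ w y = mgAct B.lσ w' y ↔ mgAct B.σ w y.1 = mgAct B.σ w' y.1 := by
  rw [act_lσ hB, act_lσ hB]
  constructor
  · intro h; exact congrArg Prod.fst h
  · intro h
    rw [hB.coh w w' y.1 h, h]

theorem lσ_invol (hB : B.Good μ K) (k : Fin D) (y : X × ℝ) : B.lσ k (B.lσ k y) = y := by
  have h := (act_lσ_eq_iff hB [k, k] [] y).2 (by simp [hB.inv.invol])
  simpa using h

/-- height translations commute with the lifted involutions -/
theorem lσ_translate (B : MgBase X D) (k : Fin D) (y : X × ℝ) (b : ℝ) :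
    B.lσ k (y.1, y.2 + b) = ((B.lσ k y).1, (B.lσ k y).2 + b) := by
  simp only [lσ]
  congr 1
  ring

section Ball

variable [DecidableEq X]

theorem ball_fst (B : MgBase X D) (R : ℕ) (y : X × ℝ) :
    (mgBall B.lσ R y).image Prod.fst = mgBall B.σ R y.1 := by
  exact mgBall_image Prod.fst (fun _ _ => rfl) R y

theorem ball_fst_injOn (hB : B.Good μ K) (R : ℕ) (y : X × ℝ) :
    Set.InjOn Prod.fst (mgBall B.lσ R y : Set (X × ℝ)) := by
  intro u hu v hv huv
  obtain ⟨w, _, rfl⟩ := mem_mgBall.1 (Finset.mem_coe.1 hu)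
  obtain ⟨w', _, rfl⟩ := mem_mgBall.1 (Finset.mem_coe.1 hv)
  rw [act_lσ_fst, act_lσ_fst] at huv
  exact (act_lσ_eq_iff hB w w' y).2 huv

theorem sum_ball_fst {M : Type*} [AddCommMonoid M] (hB : B.Good μ K) (R : ℕ) (y : X × ℝ) (F : X → M) :
    ∑ u ∈ mgBall B.lσ R y, F u.1 = ∑ x ∈ mgBall B.σ R y.1, F x := by
  rw [← ball_fst B R y, Finset.sum_image (ball_fst_injOn hB R y)]

/-- heights in a ball -/
theorem abs_snd_sub_le (hB : B.Good μ K) {R : ℕ} {y u : X × ℝ} (hu : u ∈ mgBall B.lσ R y) :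
    |u.2 - y.2| ≤ R * Real.log K := by
  have hK : 0 < K := lt_of_lt_of_le one_pos hB.one_le
  have hlogK : 0 ≤ Real.log K := Real.log_nonneg hB.one_le
  obtain ⟨w, hw, rfl⟩ := mem_mgBall.1 hu
  rw [act_lσ hB]
  simp only [sub_sub_cancel_left, abs_neg]
  have h1 : Real.log (B.coc w y.1) ≤ w.length * Real.log K := by
    rw [← Real.log_pow]
    exact Real.log_le_log (coc_pos hB w _) (coc_le hB w _)
  have h2 : -(w.length * Real.log K) ≤ Real.log (B.coc w y.1) := by
    rw [← Real.log_pow, ← Real.log_inv]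
    exact Real.log_le_log (by positivity) (coc_ge hB w _)
  have h3 : (w.length : ℝ) * Real.log K ≤ R * Real.log K :=
    mul_le_mul_of_nonneg_right (by exact_mod_cast hw) hlogK
  rw [abs_le]
  constructor <;> linarith

/-- the only site of the lifted orbit of `y` above `y.1` is `y` -/
theorem eq_of_mem_ball_of_fst_eq (hB : B.Good μ K) {R : ℕ} {y u : X × ℝ} (hu : u ∈ mgBall B.lσ R y)
    (h : u.1 = y.1) : u = y := by
  exact ball_fst_injOn hB R y (Finset.mem_coe.2 hu) (Finset.mem_coe.2 (self_mem_mgBall _ _ _)) h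

end Ball

/-! ### measure theory of the lift (helper7) -/

end MgBase

/-- the measure `e^s ds` -/
def mglExp : Measure ℝ := volume.withDensity fun s => ENNReal.ofReal (Real.exp s)

theorem mgl_measurable_dens : Measurable fun s : ℝ => ENNReal.ofReal (Real.exp s) :=
  ENNReal.measurable_ofReal.comp Real.measurable_exp

instance : SFinite mglExp := by unfold mglExp; infer_instance

namespace MgBase

variable {X : Type*} [MeasurableSpace X] {D : ℕ} {B : MgBase X D} {μ : Measure X} {K : ℝ}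

theorem lσ_meas (hB : B.Good μ K) (k : Fin D) : Measurable (B.lσ k) := by
  unfold MgBase.lσ
  exact ((hB.inv.meas k).comp measurable_fst).prodMk
    (measurable_snd.sub (Real.measurable_log.comp ((hB.δ_meas k).comp measurable_fst)))

theorem lift_inv (hB : B.Good μ K) : MgInv B.lσ := by
  refine ⟨lσ_invol hB, lσ_meas hB, fun w => ?_⟩
  obtain ⟨E, hE, h1, h2⟩ := hB.inv.sep w
  refine ⟨fun i => Prod.fst ⁻¹' E i, fun i => measurable_fst (hE i), fun y hy => ?_, fun i y hy => ?_⟩
  · refine h1 y.1 fun h => hy ?_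
    exact (act_lσ_eq_iff hB w [] y).2 h
  · have := h2 i y.1 hy
    simpa [act_lσ_fst] using this

/-- translation of `e^s ds`. -/
theorem lintegral_exp_translate (G : ℝ → ℝ≥0∞) (hG : Measurable G) (a : ℝ) :
    ∫⁻ s, G (s - a) ∂mglExp = ENNReal.ofReal (Real.exp a) * ∫⁻ s, G s ∂mglExp := by
  unfold mglExp
  have hG' : Measurable fun s => G (s - a) := hG.comp (measurable_id.sub_const a)
  rw [lintegral_withDensity_eq_lintegral_mul _ mgl_measurable_dens hG',
    lintegral_withDensity_eq_lintegral_mul _ mgl_measurable_dens hG,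
    ← lintegral_const_mul _ (mgl_measurable_dens.mul hG)]
  rw [← lintegral_sub_right_eq_self (μ := volume)
    (fun s => ENNReal.ofReal (Real.exp a) * ((fun s => ENNReal.ofReal (Real.exp s)) * G) s) a]
  refine lintegral_congr fun s => ?_
  simp only [Pi.mul_apply]
  rw [← mul_assoc, ← ENNReal.ofReal_mul (Real.exp_pos a).le, ← Real.exp_add]
  congr 3
  ring

theorem lift_mp (hB : B.Good μ K) (k : Fin D) : MeasurePreserving (B.lσ k) (mgLiftμ μ) (mgLiftμ μ) := by
  have := hB.prob
  refine ⟨lσ_meas hB k, ?_⟩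
  refine Measure.ext_of_lintegral _ fun g hg => ?_
  rw [lintegral_map hg (lσ_meas hB k)]
  change ∫⁻ y, g (B.lσ k y) ∂(μ.prod mglExp) = ∫⁻ y, g y ∂(μ.prod mglExp)
  have hg' : Measurable fun y => g (B.lσ k y) := hg.comp (lσ_meas hB k)
  rw [lintegral_prod _ hg'.aemeasurable, lintegral_prod _ hg.aemeasurable]
  set Φ : X → ℝ≥0∞ := fun x => ∫⁻ s, g (x, s) ∂mglExp with hΦ
  have hΦm : Measurable Φ := hg.lintegral_prod_right'
  have h1 : ∀ x, ∫⁻ s, g (B.lσ k (x, s)) ∂mglExp = Φ (B.σ k x) * ENNReal.ofReal (B.δ k x) := by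
    intro x
    have := lintegral_exp_translate (fun s => g (B.σ k x, s)) (hg.comp measurable_prodMk_left)
      (Real.log (B.δ k x))
    rw [Real.exp_log (δ_pos hB k x)] at this
    rw [mul_comm]
    exact this
  simp only [h1]
  exact hB.rn k Φ hΦm

theorem measure_preimage_act_le (hB : B.Good μ K) (w : List (Fin D)) {A : Set X} (hA : MeasurableSet A) :
    μ (mgAct B.σ w ⁻¹' A) ≤ ENNReal.ofReal (K ^ w.length) * μ A := by
  have hK0 : 0 < K := lt_of_lt_of_le one_pos hB.one_le
  have hone : ∀ (k : Fin D) {A : Set X}, MeasurableSet A → μ (B.σ k ⁻¹' A) ≤ ENNReal.ofReal K * μ A := by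
    intro k A hA
    have h1 := hB.rn k (A.indicator 1) (measurable_one.indicator hA)
    rw [lintegral_indicator_one hA] at h1
    rw [← h1, ← lintegral_const_mul' _ _ ENNReal.ofReal_ne_top,
      ← lintegral_indicator_one ((hB.inv.meas k) hA)]
    refine lintegral_mono fun x => ?_
    by_cases hx : B.σ k x ∈ A
    · have hx' : x ∈ B.σ k ⁻¹' A := hx
      simp only [Set.indicator_of_mem hx, Set.indicator_of_mem hx', Pi.one_apply, one_mul]
      rw [← ENNReal.ofReal_mul hK0.le, ← ENNReal.ofReal_one]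
      refine ENNReal.ofReal_le_ofReal ?_
      have := hB.δ_lo k x
      calc (1 : ℝ) = K * K⁻¹ := (mul_inv_cancel₀ hK0.ne').symm
        _ ≤ K * B.δ k x := by gcongr
    · have hx' : x ∉ B.σ k ⁻¹' A := hx
      simp [Set.indicator_of_notMem hx']
  induction w generalizing A with
  | nil => simp [mgAct]
  | cons k w ih =>
    have h2 : mgAct B.σ (k :: w) ⁻¹' A = mgAct B.σ w ⁻¹' (B.σ k ⁻¹' A) := rfl
    rw [h2]
    refine (ih ((hB.inv.meas k) hA)).trans ?_
    rw [List.length_cons, pow_succ, ENNReal.ofReal_mul (by positivity), mul_assoc]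
    gcongr
    exact hone k hA


/-- the lifted orbit relation -/
def lOrb (B : MgBase X D) (u v : X × ℝ) : Prop := ∃ w, mgAct B.lσ w u = v

theorem lOrb_equiv (hB : B.Good μ K) : Equivalence (lOrb B) := by
  refine ⟨fun u => ⟨[], rfl⟩, ?_, ?_⟩
  · rintro u v ⟨w, rfl⟩
    exact ⟨w.reverse, mgAct_reverse (lσ_invol hB) w u⟩
  · rintro u v z ⟨w, rfl⟩ ⟨w', rfl⟩
    exact ⟨w' ++ w, mgAct_append _ _ _ _⟩

theorem lOrb_eq_of_fst (hB : B.Good μ K) {u v : X × ℝ} (h : lOrb B u v) (h1 : u.1 = v.1) : u = v := by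
  obtain ⟨w, rfl⟩ := h
  refine ((act_lσ_eq_iff hB w [] u).2 ?_).symm
  rw [act_lσ_fst] at h1
  exact h1.symm

theorem lT_of_lOrb (hB : B.Good μ K) {u v : X × ℝ} (h : lOrb B u v) : B.lT u v = B.T u.1 v.1 := by
  unfold MgBase.lT
  by_cases hc : ∃ k, B.lσ k u = v
  · rw [if_pos hc]
  · rw [if_neg hc]
    by_contra hne
    obtain ⟨k, hk⟩ := hB.ker.supp u.1 v.1 (Ne.symm hne)
    obtain ⟨w, rfl⟩ := h
    refine hc ⟨k, ?_⟩
    refine ((act_lσ_eq_iff hB w [k] u).2 ?_).symm
    rw [act_lσ_fst] at hk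
    exact hk.symm

theorem lT_of_not_lOrb {u v : X × ℝ} (h : ¬ lOrb B u v) : B.lT u v = 0 := by
  unfold MgBase.lT
  rw [if_neg]
  rintro ⟨k, hk⟩
  exact h ⟨[k], hk⟩

theorem lT_cond_symm (hB : B.Good μ K) (u v : X × ℝ) : (∃ k, B.lσ k u = v) ↔ ∃ k, B.lσ k v = u := by
  constructor <;> rintro ⟨k, rfl⟩ <;> exact ⟨k, lσ_invol hB k _⟩

/-- the contraction estimate on a subset of one lifted orbit -/
theorem lT_contr_class (hB : B.Good μ K) (S : Finset (X × ℝ)) (hS : ∀ u ∈ S, ∀ v ∈ S, lOrb B u v)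
    (x : X × ℝ → ℂ) :
    ‖∑ u ∈ S, ∑ v ∈ S, conj (x u) * B.lT u v * x v‖ ≤ ∑ u ∈ S, ‖x u‖ ^ 2 := by
  classical
  rcases S.eq_empty_or_nonempty with rfl | ⟨u₀, hu₀⟩
  · simp
  have : Nonempty (X × ℝ) := ⟨u₀⟩
  have hinj : Set.InjOn Prod.fst (S : Set (X × ℝ)) := fun u hu v hv h =>
    lOrb_eq_of_fst hB (hS u hu v hv) h
  set x' : X → ℂ := fun a => x (Function.invFunOn Prod.fst (S : Set (X × ℝ)) a) with hx'
  have hxx : ∀ u ∈ S, x' u.1 = x u := fun u hu => by
    rw [hx']
    exact congrArg x (hinj.leftInvOn_invFunOn hu)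
  have h1 := hB.ker.contr (S.image Prod.fst) x'
  rw [Finset.sum_image hinj, Finset.sum_image hinj] at h1
  have h2 : ∑ u ∈ S, ∑ v ∈ S, conj (x u) * B.lT u v * x v
      = ∑ u ∈ S, ∑ b ∈ S.image Prod.fst, conj (x' u.1) * B.T u.1 b * x' b := by
    refine Finset.sum_congr rfl fun u hu => ?_
    rw [Finset.sum_image hinj]
    refine Finset.sum_congr rfl fun v hv => ?_
    rw [hxx u hu, hxx v hv, lT_of_lOrb hB (hS u hu v hv)]
  rw [h2]
  refine h1.trans (le_of_eq ?_)
  exact Finset.sum_congr rfl fun u hu => by rw [hxx u hu]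

theorem lift_ker (hB : B.Good μ K) : MgKer B.lσ B.lT := by
  classical
  refine ⟨?_, ?_, ?_, ?_, ?_⟩
  · intro u v
    unfold MgBase.lT
    by_cases h : ∃ k, B.lσ k u = v
    · rw [if_pos h, if_pos ((lT_cond_symm hB u v).1 h)]
      exact hB.ker.herm _ _
    · rw [if_neg h, if_neg (mt (lT_cond_symm hB u v).2 h)]
      simp
  · intro v
    unfold MgBase.lT
    rw [hB.ker.zdiag]
    simp
  · intro S x
    let s : Setoid (X × ℝ) := ⟨lOrb B, lOrb_equiv hB⟩
    let q : X × ℝ → Quotient s := Quotient.mk s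
    have hq : ∀ u v, q u = q v → lOrb B u v := fun u v h => Quotient.exact h
    have hq' : ∀ u v, lOrb B u v → q u = q v := fun u v h => Quotient.sound h
    have hmaps : ∀ u ∈ S, q u ∈ S.image q := fun u hu => Finset.mem_image_of_mem q hu
    have hA : ∑ u ∈ S, ∑ v ∈ S, conj (x u) * B.lT u v * x v
        = ∑ c ∈ S.image q, ∑ u ∈ S.filter (fun u => q u = c), ∑ v ∈ S.filter (fun v => q v = c),
            conj (x u) * B.lT u v * x v := by
      rw [← Finset.sum_fiberwise_of_maps_to hmaps]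
      refine Finset.sum_congr rfl fun c _ => Finset.sum_congr rfl fun u hu => ?_
      rw [Finset.sum_filter_of_ne]
      intro v _ hne
      by_contra hvc
      refine hne ?_
      rw [lT_of_not_lOrb (fun h => hvc ?_)]
      · simp
      · rw [← hq' u v h]; exact (Finset.mem_filter.1 hu).2
    rw [hA]
    calc ‖∑ c ∈ S.image q, ∑ u ∈ S.filter (fun u => q u = c), ∑ v ∈ S.filter (fun v => q v = c),
            conj (x u) * B.lT u v * x v‖
        ≤ ∑ c ∈ S.image q, ‖∑ u ∈ S.filter (fun u => q u = c), ∑ v ∈ S.filter (fun v => q v = c),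
            conj (x u) * B.lT u v * x v‖ := norm_sum_le _ _
      _ ≤ ∑ c ∈ S.image q, ∑ u ∈ S.filter (fun u => q u = c), ‖x u‖ ^ 2 := by
          refine Finset.sum_le_sum fun c _ => lT_contr_class hB _ ?_ x
          intro u hu v hv
          exact hq u v ((Finset.mem_filter.1 hu).2.trans (Finset.mem_filter.1 hv).2.symm)
      _ = ∑ u ∈ S, ‖x u‖ ^ 2 := Finset.sum_fiberwise_of_maps_to hmaps _
  · intro u v h
    unfold MgBase.lT at h
    by_contra hc
    rw [if_neg hc] at h
    exact h rfl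
  · obtain ⟨τ, θ, hτ, hθ, hτθ⟩ := hB.ker.gauge
    refine ⟨fun w w' y => if ∃ k, mgAct B.σ (k :: w) y.1 = mgAct B.σ w' y.1 then τ w w' y.1 else 0,
      fun w y => θ w y.1, fun w w' => ?_, fun w y => hθ w y.1, fun w w' y => ?_⟩
    · refine Measurable.ite ?_ ((hτ w w').comp measurable_fst) measurable_const
      have : {y : X × ℝ | ∃ k, mgAct B.σ (k :: w) y.1 = mgAct B.σ w' y.1}
          = ⋃ k, Prod.fst ⁻¹' {x | mgAct B.σ (k :: w) x = mgAct B.σ w' x} := by
        ext y; simp
      rw [this]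
      exact MeasurableSet.iUnion fun k => measurable_fst (mg_measurableSet_eq hB.inv (k :: w) w')
    · have hiff : (∃ k, B.lσ k (mgAct B.lσ w y) = mgAct B.lσ w' y)
          ↔ ∃ k, mgAct B.σ (k :: w) y.1 = mgAct B.σ w' y.1 :=
        exists_congr fun k => act_lσ_eq_iff hB (k :: w) w' y
      unfold MgBase.lT
      beta_reduce
      by_cases h : ∃ k, mgAct B.σ (k :: w) y.1 = mgAct B.σ w' y.1
      · rw [if_pos h, if_pos (hiff.2 h), act_lσ_fst, act_lσ_fst]
        exact hτθ w w' y.1
      · rw [if_neg h, if_neg (mt hiff.1 h)]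
        simp

theorem ctx_meas [DecidableEq X] (hB : B.Good μ K) (t : ℝ) (ρ : ℕ) (p : ℝ[X]) : (B.ctx t ρ p).Meas :=
  ⟨lift_inv hB, lift_ker hB, Real.measurable_exp.comp measurable_snd.neg, fun _ => Real.exp_pos _⟩

end MgBase

theorem mg_measurableSet_strip (X : Type*) [MeasurableSpace X] (n : ℝ) : MeasurableSet (mgStrip X n) := by
  unfold mgStrip
  exact measurableSet_le (measurable_snd.abs) measurable_const

theorem mgl_strip_eq (X : Type*) (n : ℝ) : mgStrip X n = Set.univ ×ˢ Set.Icc (-n) n := by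
  ext y
  simp [mgStrip, abs_le]

theorem mglExp_Icc {n : ℝ} (hn : 0 ≤ n) :
    mglExp (Set.Icc (-n) n) = ENNReal.ofReal (Real.exp n - Real.exp (-n)) := by
  unfold mglExp
  rw [withDensity_apply _ measurableSet_Icc]
  rw [← ofReal_integral_eq_lintegral_ofReal]
  · rw [integral_Icc_eq_integral_Ioc, ← intervalIntegral.integral_of_le (by linarith), integral_exp]
  · exact (Real.continuous_exp.continuousOn).integrableOn_Icc
  · exact Filter.Eventually.of_forall fun s => (Real.exp_pos s).le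

theorem mgLiftμ_strip {X : Type*} [MeasurableSpace X] (μ : Measure X) [IsProbabilityMeasure μ] {n : ℝ} (hn : 0 ≤ n) :
    mgLiftμ μ (mgStrip X n) = ENNReal.ofReal (Real.exp n - Real.exp (-n)) := by
  rw [mgl_strip_eq]
  change (μ.prod mglExp) _ = _
  rw [Measure.prod_prod, measure_univ, one_mul, mglExp_Icc hn]

theorem mg_abs_height_integral_le {n : ℝ} (hn : 0 ≤ n) {g : ℝ → ℝ} {c₀ : ℝ} (hb : ∀ s, |g s| ≤ c₀) :
    |∫ s in (-n)..n, g s * Real.exp s| ≤ c₀ * (Real.exp n - Real.exp (-n)) := by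
  have h1 : ‖∫ s in (-n)..n, g s * Real.exp s‖ ≤ ∫ s in (-n)..n, c₀ * Real.exp s := by
    refine intervalIntegral.norm_integral_le_of_norm_le (by linarith) ?_ ?_
    · refine Filter.Eventually.of_forall fun s _ => ?_
      rw [norm_mul, Real.norm_eq_abs, Real.norm_eq_abs, abs_of_pos (Real.exp_pos s)]
      exact mul_le_mul_of_nonneg_right (hb s) (Real.exp_pos s).le
    · exact (continuous_const.mul Real.continuous_exp).intervalIntegrable _ _
  rw [intervalIntegral.integral_const_mul, integral_exp] at h1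
  exact h1

theorem mg_measurable_height_integral {Z : Type*} [MeasurableSpace Z] {n : ℝ}
    {g : Z × ℝ → ℝ} (hg : Measurable g) : Measurable fun z => ∫ s in (-n)..n, g (z, s) * Real.exp s := by
  have h1 : StronglyMeasurable fun y : Z × ℝ => g y * Real.exp y.2 :=
    (hg.mul (Real.measurable_exp.comp measurable_snd)).stronglyMeasurable
  simp only [intervalIntegral]
  exact (h1.integral_prod_right (ν := volume.restrict (Set.Ioc (-n) n))).measurable.sub
    (h1.integral_prod_right (ν := volume.restrict (Set.Ioc n (-n)))).measurable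


theorem mgl_integral_exp_restrict {n : ℝ} (hn : 0 ≤ n) (f : ℝ → ℝ) :
    ∫ s, f s ∂(mglExp.restrict (Set.Icc (-n) n)) = ∫ s in (-n)..n, f s * Real.exp s := by
  unfold mglExp
  rw [restrict_withDensity measurableSet_Icc]
  have h1 : (fun s : ℝ => ENNReal.ofReal (Real.exp s)) = fun s => ((Real.toNNReal (Real.exp s) : NNReal) : ℝ≥0∞) := rfl
  rw [h1, integral_withDensity_eq_integral_smul (Real.measurable_exp.real_toNNReal),
    integral_Icc_eq_integral_Ioc, ← intervalIntegral.integral_of_le (by linarith)]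
  refine intervalIntegral.integral_congr fun s _ => ?_
  simp only [NNReal.smul_def, Real.coe_toNNReal _ (Real.exp_pos s).le, smul_eq_mul]
  ring

theorem mg_integral_strip {X : Type*} [MeasurableSpace X] (μ : Measure X) [IsProbabilityMeasure μ] {n : ℝ} (hn : 0 ≤ n)
    {g : X × ℝ → ℝ} (hg : Measurable g) {c₀ : ℝ} (hb : ∀ y, |g y| ≤ c₀) :
    ∫ y in mgStrip X n, g y ∂(mgLiftμ μ) = ∫ x, (∫ s in (-n)..n, g (x, s) * Real.exp s) ∂μ := by
  have h1 : (mgLiftμ μ).restrict (mgStrip X n) = μ.prod (mglExp.restrict (Set.Icc (-n) n)) := by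
    rw [mgl_strip_eq]
    change (μ.prod mglExp).restrict _ = _
    rw [← Measure.prod_restrict, Measure.restrict_univ]
  have : IsFiniteMeasure (mglExp.restrict (Set.Icc (-n) n)) :=
    ⟨by rw [Measure.restrict_apply_univ, mglExp_Icc hn]; exact ENNReal.ofReal_lt_top⟩
  rw [h1, integral_prod]
  · refine integral_congr_ae (Filter.Eventually.of_forall fun x => ?_)
    exact mgl_integral_exp_restrict hn fun s => g (x, s)
  · exact Integrable.of_bound hg.aestronglyMeasurable c₀ (Filter.Eventually.of_forall hb)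

end

end Claimed.Agent.R302
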