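/-
R302 / MG / Bad   (skeleton: helper165)
LEAVES "MG-Bad-inv" (mg_bad_inv), "MG-Bad-point" (section Point), "MG-Bad-meas" (section Meas), "MG-Bad-main" (section Main, helper165)
Bad balls at a FIXED strip (replacement of Lemma 6.4 of Q, (6.20)-(6.23)): a fully assigned `m`-ball on which the pinched matrix
has norm `> 160 t + α` forces positive cost.

PLAN of `mg_bad_inv` (invariant side, abstract).  `Q' := {y | ∃ w, w.length ≤ m ∧ mgAct σ w y ∈ Z}` = union of the `m`-balls around the centres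
  (measurable: finite union of preimages; `⊆ Q` by `hZQ` and `mgBall_symm`).
  (1) `mg_del`:  `∫ M c Q' ≤ ∫ M c Q + ε₁ ν(Q \ Q')`.
  (2) `mg_mtp_integral` with `R = m`, `h z u = [z ∈ Z] M c Q' u`:  `∫_Z ∑_{u ∈ ball m z} M c Q' u dν(z) = ∫ #(Z ∩ ball m u) M c Q' u dν(u) = ∫ M c Q'`
      (`u ∈ Q'`: exactly one centre in `ball m u`, two centres would be at distance `≤ 2m`; `u ∉ Q'`: `M = 0`).
  (3) for `z ∈ Z`, `S = ball m z`: `sum_M_component` (`hcl`: `u ∈ S`, `v ∈ Q'`, `T u v ≠ 0` ⇒ `v = σ_k u`, the centre `z'` of `v` lies in `ball (2m+1) z` ⇒ `z' = z`;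
      `hdiam`: `2m ≤ ρ`), then `abs_rootSum_sub_le`:  `∑_{u ∈ S} M c Q' u ≥ pvSPos - card S * ε₁ ≥ g z - card (words m) * ε₁`.
  (4) `ν Z ≤ ν Q`, `ε₁ ≥ 0`.
PLAN of `spos_ball_ge`: `PvData.bad_cost` for `D = data (mgUp c)`, `S =` lifted ball, `τ₁ = 80 t`, `w₀ = K^{-m} e^{-z.2}`, `x v = ξ v.1`;
  sums over the lifted ball = sums over the base ball (`sum_ball_fst`), `lT_eq_of_mem_ball`, heights by `abs_snd_sub_le`.
PLAN of `measurableSet_badSet`: the first condition is `⋂_{w ∈ words m} {x | c (w x) ≠ none}`.  For `η : mgWords D m → ℂ` put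
  `Φ η x = ‖∑_{w,w'} [w rep][w' rep][c (w x) = c (w' x)] conj (η w) τ w w' x η w'‖ - b ∑_w [w rep] ‖η w‖²` (`τ, θ` from `MgKer.gauge`, `mgIsRep σ m x w`).
  `BadAt ⟺ ∃ η, 0 < Φ η x` (`mg_sum_ball`; `ξ (w x) = conj (θ w x) η w` resp. `η w = θ w x * ξ (w x)`, `|θ| = 1`); `x ↦ Φ η x` measurable, `η ↦ Φ η x` continuous, so
  `{∃ η, 0 < Φ η x} = ⋃_{η ∈ countable dense set} {0 < Φ η x}`.
-/
import Claimed.Agent.R302.MG.Del
import Claimed.Agent.R302.MG.Lift
import Claimed.Agent.R302.MG.BadMeas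

set_option autoImplicit false
set_option linter.unusedSectionVars false

namespace Claimed.Agent.R302

open MeasureTheory Finset Polynomial
open scoped BigOperators ComplexConjugate ENNReal

noncomputable section

/-! ### invariant side -/

/-- LEAF MG-Bad-inv.  `Z` = measurable set of `(2m+1)`-separated centres whose `m`-balls lie in the mask; `g` = lower bound for the sum of the
positive roots of the ball polynomial. -/
theorem mg_bad_inv {Y : Type*} [MeasurableSpace Y] [DecidableEq Y] {D r : ℕ} {C : MgCtx Y D} {H₀ ε₁ : ℝ}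
    {ν : Measure Y} (hC : C.Good r H₀ ε₁) (hν : ∀ k, MeasurePreserving (C.σ k) ν ν)
    {c : Y → Option (Fin r)} (hc : MgMeasC c) {Q : Set Y} (hQm : MeasurableSet Q) (hQν : ν Q ≠ ∞)
    (hQ : ∀ y ∈ Q, C.W y ≤ H₀) {m : ℕ} (hm : 2 * m ≤ C.ρ) {Z : Set Y} (hZ : MeasurableSet Z)
    (hZQ : ∀ z ∈ Z, ∀ u ∈ mgBall C.σ m z, u ∈ Q)
    (hsep : ∀ z ∈ Z, ∀ z' ∈ mgBall C.σ (2 * m + 1) z, z' ∈ Z → z' = z)
    {g : Y → ℝ} (hgi : IntegrableOn g Z ν)
    (hg : ∀ z ∈ Z, g z ≤ pvSPos ((C.data c).poly (mgBall C.σ m z))) :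
    ∫ z in Z, g z ∂ν ≤ ∫ y, C.M c Q y ∂ν + ((mgWords D m).card + 1) * ε₁ * (ν Q).toReal := by
  classical
  have hσ := hC.meas.inv
  have hinv := hσ.invol
  have hε := hC.eps_nonneg
  set N : ℕ := (mgWords D m).card with hN
  set Q' : Set Y := {y | ∃ z ∈ mgBall C.σ m y, z ∈ Z} with hQ'
  have hQ'm : MeasurableSet Q' := by
    have : Q' = ⋃ w ∈ mgWords D m, (mgAct C.σ w) ⁻¹' Z := by
      ext y
      simp only [hQ', Set.mem_ofPred_eq, Set.mem_iUnion, Set.mem_preimage, exists_prop, mgBall,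
        Finset.mem_image]
      constructor
      · rintro ⟨z, ⟨w, hw, rfl⟩, hz⟩; exact ⟨w, hw, hz⟩
      · rintro ⟨w, hw, hz⟩; exact ⟨_, ⟨w, hw, rfl⟩, hz⟩
    rw [this]
    exact Finset.measurableSet_biUnion _ fun w _ => measurable_mgAct hσ.meas w hZ
  have hQ'sub : Q' ⊆ Q := by
    rintro y ⟨z, hz, hzZ⟩
    exact hZQ z hzZ y (mgBall_symm hinv hz)
  have hZsub : Z ⊆ Q := fun z hz => hZQ z hz z (self_mem_mgBall _ _ _)
  have hQ'W : ∀ y ∈ Q', C.W y ≤ H₀ := fun y hy => hQ y (hQ'sub hy)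
  -- (1)
  have h1 := mg_del hC hν hc hQm hQν hQ hQ'm hQ'sub
  -- (2)
  have hMmeas : Measurable (C.M c Q') := mg_meas_M hC.meas hC.r_pos (MgFam.const hσ hc hQ'm)
  have hpos : 0 ≤ (1 + 80 * C.t) * H₀ := by
    have := hC.t_pos; have := hC.H_pos; positivity
  obtain ⟨I1, -, E⟩ := mg_mtp_integral hσ hν m (fun z u => if z ∈ Z then C.M c Q' u else 0)
    (fun w => Measurable.ite hZ (hMmeas.comp (measurable_mgAct hσ.meas w)) measurable_const)
    hQm hQν (c₀ := (1 + 80 * C.t) * H₀ + ε₁)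
    (by
      intro y u
      by_cases hy : y ∈ Z
      · simp only [hy, if_true]
        rw [abs_le]
        exact ⟨by linarith [MgCtx.neg_le_M hC c hQ'W u], MgCtx.M_le hC c hQ'W u⟩
      · simp only [hy, if_false, abs_zero]; linarith)
    (by
      intro y u hy
      rw [if_neg fun h => hy (hZsub h)])
  have hR : ∀ u, ∑ z ∈ mgBall C.σ m u, (if z ∈ Z then C.M c Q' u else 0) = C.M c Q' u := by
    intro u
    by_cases hu : u ∈ Q'
    · obtain ⟨z₀, hz₀, hz₀Z⟩ := hu
      rw [Finset.sum_eq_single_of_mem z₀ hz₀, if_pos hz₀Z]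
      intro z hz hne
      rw [if_neg]
      intro hzZ
      apply hne
      have h2 : z ∈ mgBall C.σ (m + m) z₀ := mgBall_trans (mgBall_symm hinv hz₀) hz
      exact hsep z₀ hz₀Z z (mgBall_mono _ (by omega) _ h2) hzZ
    · have h0 : C.M c Q' u = 0 := by unfold MgCtx.M; rw [if_neg hu]
      rw [h0]
      simp
  simp_rw [hR] at E
  -- (3)
  have hL : ∀ z ∈ Z, g z - N * ε₁ ≤ ∑ u ∈ mgBall C.σ m z, C.M c Q' u := by
    intro z hz
    have hs := MgCtx.sum_M_component hC c (Q := Q') (mgBall C.σ m z)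
      (fun u hu => ⟨z, mgBall_symm hinv hu, hz⟩)
      (by
        rintro u hu v ⟨z', hz', hz'Z⟩ hT
        obtain ⟨k, hk⟩ := hC.meas.ker.supp u v hT
        have hv1 : v ∈ mgBall C.σ 1 u := mem_mgBall.2 ⟨[k], by simp, by simpa using hk⟩
        have h3 : z' ∈ mgBall C.σ (m + 1 + m) z := mgBall_trans (mgBall_trans hu hv1) hz'
        have h4 : z' = z := hsep z hz z' (mgBall_mono _ (by omega) _ h3) hz'Z
        rw [h4] at hz'
        exact mgBall_symm hinv hz')
      (by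
        intro u hu v hv
        exact mgBall_mono _ (by omega) _ (mgBall_trans (mgBall_symm hinv hv) hu))
    have ha := MgCtx.abs_rootSum_sub_le hC c (mgBall C.σ m z) (fun u hu => hQ u (hZQ z hz u hu))
    have hcard : ((mgBall C.σ m z).card : ℝ) ≤ N := by exact_mod_cast card_mgBall_le C.σ m z
    have h5 := (abs_le.1 ha).1
    have h6 : ((mgBall C.σ m z).card : ℝ) * ε₁ ≤ N * ε₁ := mul_le_mul_of_nonneg_right hcard hε
    rw [hs]
    linarith [hg z hz]
  have hZν : ν Z ≠ ∞ := ne_top_of_le_ne_top hQν (measure_mono hZsub)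
  have hind : (fun z => ∑ u ∈ mgBall C.σ m z, (if z ∈ Z then C.M c Q' u else 0)) =
      Z.indicator fun z => ∑ u ∈ mgBall C.σ m z, C.M c Q' u := by
    funext z
    by_cases hz : z ∈ Z
    · simp [hz]
    · simp [hz]
  rw [hind] at E I1
  rw [integral_indicator hZ] at E
  rw [integrable_indicator_iff hZ] at I1
  have hci : IntegrableOn (fun _ : Y => (N : ℝ) * ε₁) Z ν := integrableOn_const hZν
  have h7 : ∫ z in Z, (g z - N * ε₁) ∂ν ≤ ∫ z in Z, ∑ u ∈ mgBall C.σ m z, C.M c Q' u ∂ν :=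
    setIntegral_mono_on (hgi.sub hci) I1 hZ hL
  rw [integral_sub hgi hci, setIntegral_const, E, smul_eq_mul] at h7
  have h8 : (ν (Q \ Q')).toReal ≤ (ν Q).toReal := ENNReal.toReal_mono hQν (measure_mono Set.sdiff_subset)
  have h9 : ν.real Z ≤ (ν Q).toReal := ENNReal.toReal_mono hQν (measure_mono hZsub)
  have h10 : ε₁ * (ν (Q \ Q')).toReal ≤ ε₁ * (ν Q).toReal := mul_le_mul_of_nonneg_left h8 hε
  have h11 : ν.real Z * (N * ε₁) ≤ (ν Q).toReal * (N * ε₁) :=
    mul_le_mul_of_nonneg_right h9 (by positivity)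
  nlinarith


namespace MgBase

variable {X : Type*} [MeasurableSpace X] [DecidableEq X] {D r : ℕ} {B : MgBase X D} {μ : Measure X} {K : ℝ}

/-- the set of centres of fully assigned bad balls -/
def badSet (B : MgBase X D) (c : X → Option (Fin r)) (m : ℕ) (b : ℝ) : Set X :=
  {x | (∀ u ∈ mgBall B.σ m x, c u ≠ none) ∧ B.BadAt c m b x}

/-! ### Point: LEAF MG-Bad-point -/

section Point

theorem mgb_measC_up {c : X → Option (Fin r)} (hc : MgMeasC c) : MgMeasC (mgUp c) := by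
  exact fun o => measurable_fst (hc o)

/-- inside one lifted ball the lifted kernel is the base kernel -/
theorem lT_eq_of_mem_ball (hB : B.Good μ K) {R : ℕ} {z u v : X × ℝ} (hu : u ∈ mgBall B.lσ R z)
    (hv : v ∈ mgBall B.lσ R z) : B.lT u v = B.T u.1 v.1 := by
  classical
  unfold lT
  by_cases h : ∃ k, B.lσ k u = v
  · rw [if_pos h]
  · rw [if_neg h]
    by_contra hT
    obtain ⟨k, hk⟩ := hB.ker.supp u.1 v.1 (Ne.symm hT)
    apply h
    refine ⟨k, ?_⟩
    have h1 : B.lσ k u ∈ mgBall B.lσ (R + 1) z :=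
      mgBall_trans hu (mem_mgBall.2 ⟨[k], by simp, by simp⟩)
    have h2 : v ∈ mgBall B.lσ (R + 1) z := mgBall_mono _ (by omega) _ hv
    exact ball_fst_injOn hB (R + 1) z (by exact_mod_cast h1) (by exact_mod_cast h2) hk

/-- Lemma 4.3 (2) at a lifted centre -/
theorem spos_ball_ge (hB : B.Good μ K) (hr : 0 < r) {t : ℝ} (ht : 0 < t) (ρ : ℕ) (p : ℝ[X])
    {c : X → Option (Fin r)} {m : ℕ} {α : ℝ} (hα : 0 < α) {z : X × ℝ}
    (hz : z.1 ∈ B.badSet c m (160 * t + α)) :
    α / 2 * ((K ^ m)⁻¹ * Real.exp (-z.2)) ≤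
      pvSPos (((B.ctx t ρ p).data (mgUp c)).poly (mgBall B.lσ m z)) := by
  obtain ⟨hass, ξ, hξ⟩ := hz
  have hK0 : 0 < K := lt_of_lt_of_le one_pos hB.one_le
  have hfst : ∀ v ∈ mgBall B.lσ m z, v.1 ∈ mgBall B.σ m z.1 := by
    intro v hv
    rw [← ball_fst B m z]
    exact Finset.mem_image_of_mem _ hv
  refine PvData.bad_cost (D := (B.ctx t ρ p).data (mgUp c)) (τ₁ := 80 * t)
    (MgCtx.data_good (ctx_meas hB t ρ p) _) hr hα ?_ ?_ ?_ (fun v => ξ v.1) ?_
  · intro v hv
    exact hass v.1 (hfst v hv)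
  · intro v hv
    have h1 := hass v.1 (hfst v hv)
    show mgTau t (c v.1) = 80 * t
    unfold mgTau
    cases hc : c v.1 with
    | none => exact absurd hc h1
    | some i => simp
  · intro v hv
    show (K ^ m)⁻¹ * Real.exp (-z.2) ≤ Real.exp (-v.2)
    have h1 := (abs_le.1 (abs_snd_sub_le hB hv)).2
    have h2 : (K ^ m)⁻¹ = Real.exp (-(m * Real.log K)) := by
      rw [Real.exp_neg, Real.exp_nat_mul, Real.exp_log hK0]
    rw [h2, ← Real.exp_add]
    exact Real.exp_le_exp.2 (by linarith)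
  · have e1 : ∑ u ∈ mgBall B.lσ m z, ‖ξ u.1‖ ^ 2 = ∑ x ∈ mgBall B.σ m z.1, ‖ξ x‖ ^ 2 :=
      sum_ball_fst hB m z (fun x => ‖ξ x‖ ^ 2)
    have e2 : ∑ u ∈ mgBall B.lσ m z, ∑ v ∈ mgBall B.lσ m z,
        conj (ξ u.1) * ((B.ctx t ρ p).data (mgUp c)).Tc u v * ξ v.1 =
        ∑ u ∈ mgBall B.σ m z.1, ∑ v ∈ mgBall B.σ m z.1,
          (if c u = c v then conj (ξ u) * B.T u v * ξ v else 0) := by
      rw [← sum_ball_fst hB m z (fun x => ∑ v ∈ mgBall B.σ m z.1,
          (if c x = c v then conj (ξ x) * B.T x v * ξ v else 0))]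
      refine Finset.sum_congr rfl fun u hu => ?_
      rw [← sum_ball_fst hB m z (fun x => (if c u.1 = c x then conj (ξ u.1) * B.T u.1 x * ξ x else 0))]
      refine Finset.sum_congr rfl fun v hv => ?_
      have h3 : ((B.ctx t ρ p).data (mgUp c)).Tc u v = if c u.1 = c v.1 then B.lT u v else 0 := rfl
      rw [h3, lT_eq_of_mem_ball hB hu hv]
      split_ifs <;> simp
    rw [e1, e2]
    have : 2 * (80 * t) + α = 160 * t + α := by ring
    rw [this]
    exact hξ

/-- the weights of the strip -/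
theorem mgb_W_le (t : ℝ) (ρ : ℕ) (p : ℝ[X]) {n : ℝ} : ∀ y ∈ mgStrip X n, (B.ctx t ρ p).W y ≤ Real.exp n := by
  intro y hy
  show Real.exp (-y.2) ≤ Real.exp n
  have := (abs_le.1 (show |y.2| ≤ n from hy)).1
  exact Real.exp_le_exp.2 (by linarith)

/-- the total cost is the integral of the rooted cost over the lift -/
theorem mgb_cost_eq (hB : B.Good μ K) {P : MgPar} {ε₁ : ℝ} (hn : 0 ≤ P.n)
    (hC : (B.ctx P.t P.ρ P.p).Good r (Real.exp P.n) ε₁) {c : X → Option (Fin r)} (hc : MgMeasC c) :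
    B.cost P μ c = ∫ y, (B.ctx P.t P.ρ P.p).M (mgUp c) (mgStrip X P.n) y ∂(mgLiftμ μ) := by
  have := hB.prob
  have hW := mgb_W_le (B := B) P.t P.ρ P.p (n := P.n)
  have hmeas : Measurable ((B.ctx P.t P.ρ P.p).M (mgUp c) (mgStrip X P.n)) :=
    mg_meas_M hC.meas hC.r_pos (MgFam.const hC.meas.inv (mgb_measC_up hc) (mg_measurableSet_strip X P.n))
  have hpos : 0 ≤ (1 + 80 * P.t) * Real.exp P.n := by
    have : 0 < P.t := hC.t_pos
    positivity
  have hε := hC.eps_nonneg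
  have h1 := mg_integral_strip μ hn hmeas (c₀ := (1 + 80 * P.t) * Real.exp P.n + ε₁) (by
    intro y
    rw [abs_le]
    exact ⟨by linarith [MgCtx.neg_le_M hC (mgUp c) hW y], MgCtx.M_le hC (mgUp c) hW y⟩)
  rw [← setIntegral_eq_integral_of_forall_compl_eq_zero (s := mgStrip X P.n), h1]
  · rfl
  · intro y hy
    unfold MgCtx.M
    rw [if_neg hy]

/-- `W dν = dμ ds` on the lifted centres -/
theorem mgb_integral_centres [IsProbabilityMeasure μ] {C0 : Set X} (hC0 : MeasurableSet C0) {n' : ℝ} (hn' : 0 ≤ n') :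
    IntegrableOn (fun y : X × ℝ => Real.exp (-y.2)) {y | y.1 ∈ C0 ∧ |y.2| ≤ n'} (mgLiftμ μ) ∧
      ∫ y in {y : X × ℝ | y.1 ∈ C0 ∧ |y.2| ≤ n'}, Real.exp (-y.2) ∂(mgLiftμ μ) = 2 * n' * (μ C0).toReal := by
  classical
  set Z : Set (X × ℝ) := {y | y.1 ∈ C0 ∧ |y.2| ≤ n'} with hZdef
  have hZ : MeasurableSet Z := by
    have h1 : MeasurableSet {y : X × ℝ | y.1 ∈ C0} := measurable_fst hC0
    have h2 : MeasurableSet {y : X × ℝ | |y.2| ≤ n'} :=
      measurableSet_le (measurable_snd.norm) measurable_const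
    exact h1.inter h2
  have hZsub : Z ⊆ mgStrip X n' := fun y hy => hy.2
  have hνS : mgLiftμ μ (mgStrip X n') ≠ ∞ := by
    rw [mgLiftμ_strip μ hn']; exact ENNReal.ofReal_ne_top
  have hνZ : mgLiftμ μ Z ≠ ∞ := ne_top_of_le_ne_top hνS (measure_mono hZsub)
  have hexpm : Measurable fun y : X × ℝ => Real.exp (-y.2) := Real.measurable_exp.comp measurable_snd.neg
  constructor
  · refine Measure.integrableOn_of_bounded (M := Real.exp n') hνZ hexpm.aestronglyMeasurable ?_
    rw [ae_restrict_iff' hZ]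
    refine ae_of_all _ fun y hy => ?_
    rw [Real.norm_of_nonneg (Real.exp_pos _).le]
    exact Real.exp_le_exp.2 (by linarith [(abs_le.1 hy.2).1])
  · have h1 := mg_integral_strip μ hn' (g := Z.indicator fun y => Real.exp (-y.2))
      (hexpm.indicator hZ) (c₀ := Real.exp n') (by
        intro y
        by_cases hy : y ∈ Z
        · rw [Set.indicator_of_mem hy, abs_of_nonneg (Real.exp_pos _).le]
          exact Real.exp_le_exp.2 (by linarith [(abs_le.1 hy.2).1])
        · rw [Set.indicator_of_notMem hy, abs_zero]; exact (Real.exp_pos _).le)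
    rw [setIntegral_indicator hZ, Set.inter_eq_self_of_subset_right hZsub] at h1
    rw [h1]
    have h2 : ∀ x, (∫ s in (-n')..n', Z.indicator (fun y => Real.exp (-y.2)) (x, s) * Real.exp s) =
        C0.indicator (fun _ => 2 * n') x := by
      intro x
      by_cases hx : x ∈ C0
      · rw [Set.indicator_of_mem hx]
        have : ∀ s ∈ Set.uIcc (-n') n', Z.indicator (fun y => Real.exp (-y.2)) (x, s) * Real.exp s = 1 := by
          intro s hs
          rw [Set.uIcc_of_le (by linarith)] at hs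
          have hm : (x, s) ∈ Z := ⟨hx, abs_le.2 hs⟩
          rw [Set.indicator_of_mem hm, ← Real.exp_add]
          simp
        rw [intervalIntegral.integral_congr this]
        simp
        ring
      · rw [Set.indicator_of_notMem hx]
        have : ∀ s ∈ Set.uIcc (-n') n', Z.indicator (fun y => Real.exp (-y.2)) (x, s) * Real.exp s = 0 := by
          intro s _
          have hm : (x, s) ∉ Z := fun h => hx h.1
          rw [Set.indicator_of_notMem hm, zero_mul]
        rw [intervalIntegral.integral_congr this]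
        simp
    simp_rw [h2]
    rw [integral_indicator hC0, setIntegral_const, smul_eq_mul]
    rw [mul_comm]
    rfl

end Point

/-! ### Meas: LEAF MG-Bad-meas -/

section Meas

theorem measurableSet_assigned (hB : B.Good μ K) {c : X → Option (Fin r)} (hc : MgMeasC c) (m : ℕ) :
    MeasurableSet {x | ∀ u ∈ mgBall B.σ m x, c u ≠ none} :=
  mgb_measurableSet_assigned hB.inv hc m

theorem measurableSet_badAt (hB : B.Good μ K) {c : X → Option (Fin r)} (hc : MgMeasC c) (m : ℕ) (b : ℝ) :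
    MeasurableSet {x | B.BadAt c m b x} :=
  mgb_measurableSet_badAt hB.inv hB.ker hc m b

theorem measurableSet_badSet (hB : B.Good μ K) {c : X → Option (Fin r)} (hc : MgMeasC c) (m : ℕ) (b : ℝ) :
    MeasurableSet (B.badSet c m b) :=
  (measurableSet_assigned hB hc m).inter (measurableSet_badAt hB hc m b)

end Meas

/-! ### Main: LEAF MG-Bad-main -/

section Main

/-- separated bad centres -/
theorem bad_sep (hB : B.Good μ K) {P : MgPar} {ε₁ : ℝ}
    (hC : (B.ctx P.t P.ρ P.p).Good r (Real.exp P.n) ε₁) {c : X → Option (Fin r)} (hc : MgMeasC c)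
    {m : ℕ} (hm : 2 * m ≤ P.ρ) (hn : m * Real.log K ≤ P.n) {α : ℝ} (hα : 0 < α) {C0 : Set X}
    (hC0 : MeasurableSet C0) (hbad : C0 ⊆ B.badSet c m (160 * P.t + α))
    (hsep : ∀ x ∈ C0, ∀ x' ∈ mgBall B.σ (2 * m + 1) x, x' ∈ C0 → x' = x) :
    α / 2 * (K ^ m)⁻¹ * (2 * P.n - 2 * m * Real.log K) * (μ C0).toReal ≤
      B.cost P μ c + ((mgWords D m).card + 1) * ε₁ * (Real.exp P.n - Real.exp (-P.n)) := by
  have := hB.prob
  have hlogK : 0 ≤ Real.log K := Real.log_nonneg hB.one_le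
  have hn0 : 0 ≤ P.n := le_trans (mul_nonneg (Nat.cast_nonneg m) hlogK) hn
  set n' : ℝ := P.n - m * Real.log K with hn'
  have hn'0 : 0 ≤ n' := sub_nonneg.2 hn
  set Z : Set (X × ℝ) := {y | y.1 ∈ C0 ∧ |y.2| ≤ n'} with hZdef
  have hZ : MeasurableSet Z := by
    have h1 : MeasurableSet {y : X × ℝ | y.1 ∈ C0} := measurable_fst hC0
    have h2 : MeasurableSet {y : X × ℝ | |y.2| ≤ n'} :=
      measurableSet_le (measurable_snd.norm) measurable_const
    exact h1.inter h2
  obtain ⟨hint, hval⟩ := mgb_integral_centres (μ := μ) hC0 hn'0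
  have hνQ : mgLiftμ μ (mgStrip X P.n) = ENNReal.ofReal (Real.exp P.n - Real.exp (-P.n)) :=
    mgLiftμ_strip μ hn0
  have hexp : 0 ≤ Real.exp P.n - Real.exp (-P.n) := by
    have : Real.exp (-P.n) ≤ Real.exp P.n := Real.exp_le_exp.2 (by linarith)
    linarith
  have key := mg_bad_inv (C := B.ctx P.t P.ρ P.p) (ν := mgLiftμ μ) hC (fun k => lift_mp hB k)
    (mgb_measC_up hc) (mg_measurableSet_strip X P.n) (by rw [hνQ]; exact ENNReal.ofReal_ne_top)
    (mgb_W_le P.t P.ρ P.p) (m := m) hm hZ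
    (by
      intro z hz u hu
      have h1 := abs_snd_sub_le hB hu
      have h2 : |u.2| ≤ |u.2 - z.2| + |z.2| := by
        have := abs_add_le (u.2 - z.2) z.2
        simpa using this
      show |u.2| ≤ P.n
      have h3 := hz.2
      linarith)
    (by
      intro z hz z' hz' hz'Z
      have h1 : z'.1 ∈ mgBall B.σ (2 * m + 1) z.1 := by
        rw [← ball_fst B (2 * m + 1) z]
        exact Finset.mem_image_of_mem _ hz'
      exact eq_of_mem_ball_of_fst_eq hB hz' (hsep z.1 hz.1 z'.1 h1 hz'Z.1))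
    (g := fun y => α / 2 * ((K ^ m)⁻¹ * Real.exp (-y.2)))
    ((hint.const_mul _).const_mul _)
    (fun z hz => spos_ball_ge hB hC.r_pos hC.t_pos P.ρ P.p hα (hbad hz.1))
  rw [← mgb_cost_eq hB hn0 hC hc, hνQ, ENNReal.toReal_ofReal hexp] at key
  have e : ∫ z in Z, α / 2 * ((K ^ m)⁻¹ * Real.exp (-z.2)) ∂(mgLiftμ μ) =
      α / 2 * (K ^ m)⁻¹ * (2 * P.n - 2 * m * Real.log K) * (μ C0).toReal := by
    rw [integral_const_mul, integral_const_mul, hval, hn']
    ring
  rw [e] at key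
  exact key

/-- BAD BALLS: the measure of the set of centres of fully assigned bad balls is controlled by the cost. -/
theorem bad_measure_le (hB : B.Good μ K) {P : MgPar} {ε₁ : ℝ}
    (hC : (B.ctx P.t P.ρ P.p).Good r (Real.exp P.n) ε₁) {c : X → Option (Fin r)} (hc : MgMeasC c)
    {m : ℕ} (hm : 2 * m ≤ P.ρ) (hn : m * Real.log K ≤ P.n) {α : ℝ} (hα : 0 < α) :
    α / 2 * (K ^ m)⁻¹ * (2 * P.n - 2 * m * Real.log K) * (μ (B.badSet c m (160 * P.t + α))).toReal ≤
      mgNcol D (2 * m + 1) *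
        (B.cost P μ c + ((mgWords D m).card + 1) * ε₁ * (Real.exp P.n - Real.exp (-P.n))) := by
  have := hB.prob
  obtain ⟨col, hcolm, hcol⟩ := mg_exists_coloring hB.inv (2 * m + 1)
  set A := B.badSet c m (160 * P.t + α) with hA
  have hAm : MeasurableSet A := measurableSet_badSet hB hc m _
  have hcl : ∀ q, α / 2 * (K ^ m)⁻¹ * (2 * P.n - 2 * m * Real.log K) * (μ (A ∩ col ⁻¹' {q})).toReal ≤
      B.cost P μ c + ((mgWords D m).card + 1) * ε₁ * (Real.exp P.n - Real.exp (-P.n)) := by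
    intro q
    refine bad_sep hB hC hc hm hn hα (hAm.inter (hcolm q)) Set.inter_subset_left ?_
    intro x hx x' hx' hx'A
    by_contra hne
    have h1 := hcol x x' hx' hne
    have h2 : col x = q := hx.2
    have h3 : col x' = q := hx'A.2
    exact h1 (h3.trans h2.symm)
  have hsum : (μ A).toReal = ∑ q, (μ (A ∩ col ⁻¹' {q})).toReal := by
    have h1 : A = ⋃ q, A ∩ col ⁻¹' {q} := by
      ext x
      simp only [Set.mem_iUnion, Set.mem_inter_iff, Set.mem_preimage, Set.mem_singleton_iff]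
      constructor
      · intro hx; exact ⟨col x, hx, rfl⟩
      · rintro ⟨q, hx, _⟩; exact hx
    have h2 : μ A = ∑ q, μ (A ∩ col ⁻¹' {q}) := by
      conv_lhs => rw [h1]
      rw [measure_iUnion _ (fun q => hAm.inter (hcolm q)), tsum_fintype]
      intro q q' hqq'
      rw [Function.onFun, Set.disjoint_left]
      rintro x ⟨_, hx⟩ ⟨_, hx'⟩
      exact hqq' ((show col x = q from hx).symm.trans hx')
    rw [h2, ENNReal.toReal_sum (fun q _ => measure_ne_top μ _)]
  rw [hsum, Finset.mul_sum]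
  calc ∑ q, α / 2 * (K ^ m)⁻¹ * (2 * P.n - 2 * m * Real.log K) * (μ (A ∩ col ⁻¹' {q})).toReal
      ≤ ∑ _q : Fin (mgNcol D (2 * m + 1)),
        (B.cost P μ c + ((mgWords D m).card + 1) * ε₁ * (Real.exp P.n - Real.exp (-P.n))) :=
        Finset.sum_le_sum fun q _ => hcl q
    _ = _ := by
        rw [Finset.sum_const, Finset.card_univ, Fintype.card_fin, nsmul_eq_mul]

end Main

end MgBase

end

end Claimed.Agent.R302
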