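/-
R302 / MG / Strip   (skeleton: helper244)   LEAVES "MG-Strip-a" (sections Ctx, Fam), "MG-Strip-b" (sections Loc, Est)
Base level wrappers: the strip costs `B.sM`, `B.sDf`, `B.sDfi` and the height integrated costs `B.mbar`, `B.dbar`, `B.dibar`, `B.cost` of a partial colouring of the BASE.
Everything follows from `Lift.lean` (structure of the lift), `Meas.lean` (measurability of rooted families), `Cost.lean` (pointwise properties) applied to
`C = B.ctx P.t P.ρ P.p`, `Q = mgStrip X P.n`, `H₀ = exp P.n`.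

Key remark used everywhere: a lifted ball projects INJECTIVELY onto the base ball (`ball_fst`, `ball_fst_injOn`), so "the colourings agree on the base ball" is the same as
"the lifted colourings agree on the lifted ball", and updating the base colouring at `u.1` is the same (on the lifted orbit of `u`) as updating the lifted colouring at `u`.
-/
import Claimed.Agent.R302.MG.Lift
import Claimed.Agent.R302.MG.Del

set_option autoImplicit false
set_option linter.unusedSectionVars false

namespace Claimed.Agent.R302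

open MeasureTheory Finset Polynomial
open scoped BigOperators ComplexConjugate ENNReal

noncomputable section

/-- hypotheses on the parameters of the algorithm -/
structure MgPar.Good (P : MgPar) (r : ℕ) (ε₁ : ℝ) : Prop where
  r_pos : 0 < r
  t_pos : 0 < P.t
  n_pos : 0 < P.n
  apx : MgApx P.p ((1 + 80 * P.t) * Real.exp P.n) ε₁
  rad : 2 * P.p.natDegree + 1 ≤ P.ρ

/-- volume of the strip -/
def MgPar.vol (P : MgPar) : ℝ := Real.exp P.n - Real.exp (-P.n)

/-- bound for the rooted costs on the strip -/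
def MgPar.bd (P : MgPar) (ε₁ : ℝ) : ℝ := 3 * ((1 + 80 * P.t) * Real.exp P.n) + ε₁

/-- a measurable rooted family of colourings of the base -/
structure MgFamB {X : Type*} [MeasurableSpace X] {D r : ℕ} (σ : Fin D → X → X) {Z : Type*} [MeasurableSpace Z]
    (root : Z → X) (cz : Z → X → Option (Fin r)) : Prop where
  root_meas : Measurable root
  col : ∀ w o, MeasurableSet {z | cz z (mgAct σ w (root z)) = o}

namespace MgBase

variable {X : Type*} [MeasurableSpace X] [DecidableEq X] {D r : ℕ} {B : MgBase X D} {μ : Measure X} {K : ℝ}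
  {P : MgPar} {ε₁ : ℝ}

section Ctx

theorem ctx_good (hB : B.Good μ K) (hP : P.Good r ε₁) : (B.ctx P.t P.ρ P.p).Good r (Real.exp P.n) ε₁ := by
  exact ⟨ctx_meas hB _ _ _, hP.r_pos, hP.t_pos, Real.exp_pos _, hP.apx, hP.rad⟩

theorem strip_W_le (B : MgBase X D) (P : MgPar) : ∀ y ∈ mgStrip X P.n, (B.ctx P.t P.ρ P.p).W y ≤ Real.exp P.n := by
  intro y hy
  have h1 := abs_le.1 (show |y.2| ≤ P.n from hy)
  show Real.exp (-y.2) ≤ Real.exp P.n
  exact Real.exp_le_exp.2 (by linarith [h1.1])

theorem strip_ne_top (hB : B.Good μ K) (hP : P.Good r ε₁) : mgLiftμ μ (mgStrip X P.n) ≠ ∞ := by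
  have := hB.prob
  rw [mgLiftμ_strip μ hP.n_pos.le]
  exact ENNReal.ofReal_ne_top

theorem strip_toReal (hB : B.Good μ K) (hP : P.Good r ε₁) : (mgLiftμ μ (mgStrip X P.n)).toReal = P.vol := by
  have := hB.prob
  have h1 : Real.exp (-P.n) ≤ Real.exp P.n := Real.exp_le_exp.2 (by linarith [hP.n_pos])
  rw [mgLiftμ_strip μ hP.n_pos.le, ENNReal.toReal_ofReal (by linarith)]
  rfl

theorem _root_.Claimed.Agent.R302.MgPar.Good.vol_pos (hP : P.Good r ε₁) : 0 < P.vol := by
  exact sub_pos.2 (Real.exp_lt_exp.2 (by linarith [hP.n_pos]))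

theorem fst_mem_ball (B : MgBase X D) {R : ℕ} {y u : X × ℝ} (hu : u ∈ mgBall B.lσ R y) :
    u.1 ∈ mgBall B.σ R y.1 := by
  rw [← ball_fst B R y]
  exact Finset.mem_image_of_mem _ hu

/-- on one lifted orbit, updating at `u.1` downstairs = updating at `u` upstairs -/
theorem mgUp_update_of_ball (hB : B.Good μ K) (c : X → Option (Fin r)) (o : Option (Fin r)) {R R' : ℕ}
    {y u v : X × ℝ} (hu : u ∈ mgBall B.lσ R y) (hv : v ∈ mgBall B.lσ R' y) :
    mgUp (Function.update c u.1 o) v = Function.update (mgUp c) u o v := by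
  by_cases h : v = u
  · subst h
    simp [mgUp]
  · have h1 : v.1 ≠ u.1 := fun h1 => h (ball_fst_injOn hB (max R R') y
      (Finset.mem_coe.2 (mgBall_mono _ (le_max_right _ _) _ hv))
      (Finset.mem_coe.2 (mgBall_mono _ (le_max_left _ _) _ hu)) h1)
    simp only [mgUp, Function.update_of_ne h, Function.update_of_ne h1]

/-- updating the base colouring at `u.1` = updating the lifted colouring at `u`, seen from the lifted orbit of `u` -/
theorem sM_update (hB : B.Good μ K) (hP : P.Good r ε₁) (c : X → Option (Fin r)) (o : Option (Fin r)) {R : ℕ}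
    {y u : X × ℝ} (hu : u ∈ mgBall B.lσ R y) :
    B.sM P (Function.update c u.1 o) y =
      (B.ctx P.t P.ρ P.p).M (Function.update (mgUp c) u o) (mgStrip X P.n) y := by
  refine MgCtx.M_congr (ctx_good hB hP) fun v hv => ⟨?_, Iff.rfl⟩
  exact mgUp_update_of_ball hB c o hu hv

theorem sDf_update (hB : B.Good μ K) (hP : P.Good r ε₁) (c : X → Option (Fin r)) (o : Option (Fin r)) {R : ℕ}
    {y u : X × ℝ} (hu : u ∈ mgBall B.lσ R y) :
    B.sDf P (Function.update c u.1 o) y =
      (B.ctx P.t P.ρ P.p).Df (Function.update (mgUp c) u o) (mgStrip X P.n) y := by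
  refine MgCtx.Df_congr (ctx_good hB hP) fun v hv => ⟨?_, Iff.rfl⟩
  exact mgUp_update_of_ball hB c o hu hv

theorem sDfi_eq (hB : B.Good μ K) (hP : P.Good r ε₁) (c : X → Option (Fin r)) (i : Fin r) (y : X × ℝ) :
    B.sDfi P c i y = (B.ctx P.t P.ρ P.p).Dfi (mgUp c) (mgStrip X P.n) i y := by
  exact sDf_update hB hP c (some i) (self_mem_mgBall B.lσ 0 y)

end Ctx

section Fam

variable {Z : Type*} [MeasurableSpace Z] {root : Z → X} {cz : Z → X → Option (Fin r)}

theorem famB_const (hB : B.Good μ K) {c : X → Option (Fin r)} (hc : MgMeasC c) :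
    MgFamB B.σ (fun x : X => x) fun _ => c := by
  exact ⟨measurable_id, fun w o => measurable_mgAct hB.inv.meas w (hc o)⟩

theorem famB_act (hB : B.Good μ K) (h : MgFamB B.σ root cz) (w₀ : List (Fin D)) :
    MgFamB B.σ (fun z => mgAct B.σ w₀ (root z)) cz := by
  refine ⟨(measurable_mgAct hB.inv.meas w₀).comp h.root_meas, fun w o => ?_⟩
  simpa only [mgAct_append] using h.col (w ++ w₀) o

theorem famB_update (hB : B.Good μ K) (h : MgFamB B.σ root cz) (w₀ : List (Fin D)) (oz : Z → Option (Fin r))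
    (ho : ∀ o, MeasurableSet (oz ⁻¹' {o})) :
    MgFamB B.σ root fun z => Function.update (cz z) (mgAct B.σ w₀ (root z)) (oz z) := by
  refine ⟨h.root_meas, fun w o => ?_⟩
  have h1 : MeasurableSet {z | mgAct B.σ w (root z) = mgAct B.σ w₀ (root z)} :=
    h.root_meas (mg_measurableSet_eq hB.inv w w₀)
  have h2 : {z | Function.update (cz z) (mgAct B.σ w₀ (root z)) (oz z) (mgAct B.σ w (root z)) = o} =
      ({z | mgAct B.σ w (root z) = mgAct B.σ w₀ (root z)} ∩ oz ⁻¹' {o}) ∪
        ({z | mgAct B.σ w (root z) = mgAct B.σ w₀ (root z)}ᶜ ∩ {z | cz z (mgAct B.σ w (root z)) = o}) := by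
    ext z
    by_cases hz : mgAct B.σ w (root z) = mgAct B.σ w₀ (root z)
    · simp [hz]
    · simp [hz]
  rw [h2]
  exact (h1.inter (ho o)).union (h1.compl.inter (h.col w o))

theorem fam_lift (hB : B.Good μ K) (h : MgFamB B.σ root cz) (n : ℝ) :
    MgFam B.lσ (fun q : Z × ℝ => (root q.1, q.2)) (fun q => mgUp (cz q.1)) fun _ => mgStrip X n := by
  have hroot : Measurable fun q : Z × ℝ => (root q.1, q.2) :=
    (h.root_meas.comp measurable_fst).prodMk measurable_snd
  refine ⟨hroot, fun w o => ?_, fun w => ?_⟩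
  · have h1 : {q : Z × ℝ | mgUp (cz q.1) (mgAct B.lσ w (root q.1, q.2)) = o} =
        Prod.fst ⁻¹' {z | cz z (mgAct B.σ w (root z)) = o} := by
      ext q
      simp only [mgUp, act_lσ_fst, Set.mem_setOf_eq, Set.mem_preimage]
    rw [h1]
    exact measurable_fst (h.col w o)
  · exact ((measurable_mgAct (lσ_meas hB) w).comp hroot) (mg_measurableSet_strip X n)

theorem meas_sM_fam (hB : B.Good μ K) (hP : P.Good r ε₁) (h : MgFamB B.σ root cz) :
    Measurable fun q : Z × ℝ => B.sM P (cz q.1) (root q.1, q.2) := by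
  exact mg_meas_M (ctx_meas hB _ _ _) hP.r_pos (fam_lift hB h P.n)

theorem meas_sDf_fam (hB : B.Good μ K) (hP : P.Good r ε₁) (h : MgFamB B.σ root cz) :
    Measurable fun q : Z × ℝ => B.sDf P (cz q.1) (root q.1, q.2) := by
  exact mg_meas_Df (ctx_meas hB _ _ _) hP.r_pos (fam_lift hB h P.n)

theorem meas_sDfi_fam (hB : B.Good μ K) (hP : P.Good r ε₁) (h : MgFamB B.σ root cz) (i : Fin r) :
    Measurable fun q : Z × ℝ => B.sDfi P (cz q.1) i (root q.1, q.2) := by
  simp only [sDfi_eq hB hP]
  exact mg_meas_Dfi (ctx_meas hB _ _ _) hP.r_pos (fam_lift hB h P.n) i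

theorem meas_mbar_fam (hB : B.Good μ K) (hP : P.Good r ε₁) (h : MgFamB B.σ root cz) :
    Measurable fun z => B.mbar P (cz z) (root z) := by
  exact mg_measurable_height_integral (meas_sM_fam hB hP h)

theorem meas_dbar_fam (hB : B.Good μ K) (hP : P.Good r ε₁) (h : MgFamB B.σ root cz) :
    Measurable fun z => B.dbar P (cz z) (root z) := by
  exact mg_measurable_height_integral (meas_sDf_fam hB hP h)

theorem meas_dibar_fam (hB : B.Good μ K) (hP : P.Good r ε₁) (h : MgFamB B.σ root cz) (i : Fin r) :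
    Measurable fun z => B.dibar P (cz z) i (root z) := by
  exact mg_measurable_height_integral (meas_sDfi_fam hB hP h i)

end Fam

section Loc

theorem sM_congr (hB : B.Good μ K) (hP : P.Good r ε₁) {c c' : X → Option (Fin r)} {y : X × ℝ}
    (h : ∀ u ∈ mgBall B.σ P.p.natDegree y.1, c u = c' u) : B.sM P c y = B.sM P c' y := by
  refine MgCtx.M_congr (ctx_good hB hP) fun u hu => ⟨?_, Iff.rfl⟩
  exact h u.1 (fst_mem_ball B hu)

theorem sDf_congr (hB : B.Good μ K) (hP : P.Good r ε₁) {c c' : X → Option (Fin r)} {y : X × ℝ}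
    (h : ∀ u ∈ mgBall B.σ (2 * P.p.natDegree) y.1, c u = c' u) : B.sDf P c y = B.sDf P c' y := by
  refine MgCtx.Df_congr (ctx_good hB hP) fun u hu => ⟨?_, Iff.rfl⟩
  exact h u.1 (fst_mem_ball B hu)

theorem sDfi_congr (hB : B.Good μ K) (hP : P.Good r ε₁) {c c' : X → Option (Fin r)} {y : X × ℝ}
    (h : ∀ u ∈ mgBall B.σ (2 * P.p.natDegree) y.1, c u = c' u) (i : Fin r) : B.sDfi P c i y = B.sDfi P c' i y := by
  unfold sDfi
  refine sDf_congr hB hP fun u hu => ?_
  by_cases hux : u = y.1
  · rw [hux, Function.update_self, Function.update_self]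
  · rw [Function.update_of_ne hux, Function.update_of_ne hux]
    exact h u hu

theorem dibar_congr (hB : B.Good μ K) (hP : P.Good r ε₁) {c c' : X → Option (Fin r)} {x : X}
    (h : ∀ u ∈ mgBall B.σ (2 * P.p.natDegree) x, c u = c' u) (i : Fin r) : B.dibar P c i x = B.dibar P c' i x := by
  unfold dibar
  refine intervalIntegral.integral_congr fun s _ => ?_
  show B.sDfi P c i (x, s) * Real.exp s = B.sDfi P c' i (x, s) * Real.exp s
  rw [sDfi_congr hB hP (y := (x, s)) h i]

theorem sM_map (hB : B.Good μ K) (hP : P.Good r ε₁) (π : Equiv.Perm (Fin r)) (c : X → Option (Fin r)) (y : X × ℝ) :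
    B.sM P (fun u => (c u).map π) y = B.sM P c y :=
  MgCtx.M_map (ctx_good hB hP) π (mgUp c) _ _

theorem sDf_map (hB : B.Good μ K) (hP : P.Good r ε₁) (π : Equiv.Perm (Fin r)) (c : X → Option (Fin r)) (y : X × ℝ) :
    B.sDf P (fun u => (c u).map π) y = B.sDf P c y :=
  MgCtx.Df_map (ctx_good hB hP) π (mgUp c) _ _

theorem sDfi_map (hB : B.Good μ K) (hP : P.Good r ε₁) (π : Equiv.Perm (Fin r)) (c : X → Option (Fin r)) (i : Fin r)
    (y : X × ℝ) : B.sDfi P (fun u => (c u).map π) (π i) y = B.sDfi P c i y := by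
  rw [sDfi_eq hB hP, sDfi_eq hB hP]
  exact MgCtx.Dfi_map (ctx_good hB hP) π (mgUp c) _ i _

theorem mbar_map (hB : B.Good μ K) (hP : P.Good r ε₁) (π : Equiv.Perm (Fin r)) (c : X → Option (Fin r)) (x : X) :
    B.mbar P (fun u => (c u).map π) x = B.mbar P c x := by
  unfold mbar
  simp only [sM_map hB hP]

theorem dbar_map (hB : B.Good μ K) (hP : P.Good r ε₁) (π : Equiv.Perm (Fin r)) (c : X → Option (Fin r)) (x : X) :
    B.dbar P (fun u => (c u).map π) x = B.dbar P c x := by
  unfold dbar
  simp only [sDf_map hB hP]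

theorem dibar_map (hB : B.Good μ K) (hP : P.Good r ε₁) (π : Equiv.Perm (Fin r)) (c : X → Option (Fin r)) (i : Fin r)
    (x : X) : B.dibar P (fun u => (c u).map π) (π i) x = B.dibar P c i x := by
  unfold dibar
  simp only [sDfi_map hB hP]

end Loc

section Est

omit [MeasurableSpace X] [DecidableEq X] in
theorem height_intervalIntegrable {n c₀ : ℝ} {g : ℝ → ℝ} (hg : Measurable g) (hb : ∀ s, |g s| ≤ c₀) :
    IntervalIntegrable (fun s => g s * Real.exp s) volume (-n) n := by
  have h1 : IntervalIntegrable (fun s => c₀ * Real.exp s) volume (-n) n :=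
    (continuous_const.mul Real.continuous_exp).intervalIntegrable _ _
  refine h1.mono_fun (hg.mul Real.measurable_exp).aestronglyMeasurable
    (Filter.Eventually.of_forall fun s => ?_)
  beta_reduce
  rw [norm_mul, norm_mul, Real.norm_eq_abs, Real.norm_eq_abs c₀]
  exact mul_le_mul_of_nonneg_right ((hb s).trans (le_abs_self _)) (norm_nonneg _)

theorem abs_sM_le (hB : B.Good μ K) (hP : P.Good r ε₁) (c : X → Option (Fin r)) (y : X × ℝ) :
    |B.sM P c y| ≤ P.bd ε₁ := by
  have h1 := mgd_abs_M_le (ctx_good hB hP) (mgUp c) (strip_W_le B P) y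
  have h2 := (ctx_good hB hP).L_pos
  refine h1.trans ?_
  unfold MgPar.bd
  change (1 + 80 * P.t) * Real.exp P.n + ε₁ ≤ _
  change 0 < (1 + 80 * P.t) * Real.exp P.n at h2
  linarith

theorem abs_sDf_le (hB : B.Good μ K) (hP : P.Good r ε₁) (c : X → Option (Fin r)) (y : X × ℝ) :
    |B.sDf P c y| ≤ P.bd ε₁ := by
  exact mgd_abs_Df_le (ctx_good hB hP) (mgUp c) (strip_W_le B P) y

theorem neg_le_sM (hB : B.Good μ K) (hP : P.Good r ε₁) (c : X → Option (Fin r)) (y : X × ℝ) :
    -ε₁ ≤ B.sM P c y := by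
  exact MgCtx.neg_le_M (ctx_good hB hP) (mgUp c) (strip_W_le B P) y

theorem sM_eq_zero (B : MgBase X D) (P : MgPar) (c : X → Option (Fin r)) {y : X × ℝ} (hy : y ∉ mgStrip X P.n) :
    B.sM P c y = 0 := by
  exact MgCtx.M_of_notMem _ hy

theorem neg_le_mbar (hB : B.Good μ K) (hP : P.Good r ε₁) {c : X → Option (Fin r)} (hc : MgMeasC c) (x : X) :
    -(ε₁ * P.vol) ≤ B.mbar P c x := by
  have hm : Measurable fun s : ℝ => B.sM P c (x, s) :=
    (meas_sM_fam hB hP (famB_const hB hc)).comp measurable_prodMk_left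
  have hi := height_intervalIntegrable (n := P.n) hm fun s => abs_sM_le hB hP c (x, s)
  have h1 : ∫ s in (-P.n)..P.n, (-ε₁) * Real.exp s ≤ ∫ s in (-P.n)..P.n, B.sM P c (x, s) * Real.exp s := by
    refine intervalIntegral.integral_mono_on (by linarith [hP.n_pos])
      ((continuous_const.mul Real.continuous_exp).intervalIntegrable _ _) hi fun s _ => ?_
    exact mul_le_mul_of_nonneg_right (neg_le_sM hB hP c _) (Real.exp_pos s).le
  rw [intervalIntegral.integral_const_mul, integral_exp] at h1
  unfold mbar MgPar.vol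
  linarith

theorem integrable_mbar (hB : B.Good μ K) (hP : P.Good r ε₁) {c : X → Option (Fin r)} (hc : MgMeasC c) :
    Integrable (B.mbar P c) μ := by
  have := hB.prob
  refine Integrable.of_bound (meas_mbar_fam hB hP (famB_const hB hc)).aestronglyMeasurable
    (P.bd ε₁ * P.vol) (Filter.Eventually.of_forall fun x => ?_)
  rw [Real.norm_eq_abs]
  exact mg_abs_height_integral_le hP.n_pos.le fun s => abs_sM_le hB hP c (x, s)

theorem integrable_dbar (hB : B.Good μ K) (hP : P.Good r ε₁) {c : X → Option (Fin r)} (hc : MgMeasC c) :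
    Integrable (B.dbar P c) μ := by
  have := hB.prob
  refine Integrable.of_bound (meas_dbar_fam hB hP (famB_const hB hc)).aestronglyMeasurable
    (P.bd ε₁ * P.vol) (Filter.Eventually.of_forall fun x => ?_)
  rw [Real.norm_eq_abs]
  exact mg_abs_height_integral_le hP.n_pos.le fun s => abs_sDf_le hB hP c (x, s)

theorem integrable_dibar (hB : B.Good μ K) (hP : P.Good r ε₁) {c : X → Option (Fin r)} (hc : MgMeasC c) (i : Fin r) :
    Integrable (B.dibar P c i) μ := by
  have := hB.prob
  refine Integrable.of_bound (meas_dibar_fam hB hP (famB_const hB hc) i).aestronglyMeasurable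
    (P.bd ε₁ * P.vol) (Filter.Eventually.of_forall fun x => ?_)
  rw [Real.norm_eq_abs]
  exact mg_abs_height_integral_le hP.n_pos.le fun s => abs_sDf_le hB hP _ (x, s)

/-- the total cost is the integral of the rooted cost over the lift -/
theorem cost_eq (hB : B.Good μ K) (hP : P.Good r ε₁) {c : X → Option (Fin r)} (hc : MgMeasC c) :
    B.cost P μ c = ∫ y, B.sM P c y ∂(mgLiftμ μ) := by
  have := hB.prob
  have hm : Measurable (B.sM P c) := by
    have h1 := meas_sM_fam hB hP (famB_const hB hc)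
    exact h1
  unfold cost mbar
  rw [← mg_integral_strip μ hP.n_pos.le hm (abs_sM_le hB hP c)]
  exact setIntegral_eq_integral_of_forall_compl_eq_zero fun y hy => sM_eq_zero B P c hy

/-- Lemma 6.4, first part -/
theorem cost_none_le (hB : B.Good μ K) (hP : P.Good r ε₁) (ht : 3 / Real.sqrt r < P.t) :
    B.cost P μ (fun _ => (none : Option (Fin r))) ≤ ε₁ * P.vol := by
  have := hB.prob
  have hc : MgMeasC (fun _ : X => (none : Option (Fin r))) := fun o => by
    by_cases ho : (none : Option (Fin r)) = o <;> simp [ho]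
  have h1 : ∀ x, B.mbar P (fun _ => (none : Option (Fin r))) x ≤ ε₁ * P.vol := by
    intro x
    refine (le_abs_self _).trans ?_
    refine mg_abs_height_integral_le hP.n_pos.le fun s => ?_
    exact MgCtx.abs_M_le_of_unassigned (ctx_good hB hP) ht _ (strip_W_le B P) _ fun _ _ => rfl
  calc B.cost P μ (fun _ => (none : Option (Fin r)))
      ≤ ∫ _x, ε₁ * P.vol ∂μ := integral_mono (integrable_mbar hB hP hc) (integrable_const _) h1
    _ = ε₁ * P.vol := by simp

end Est

end MgBase

end

end Claimed.Agent.R302
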