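/-
R302 / MG / StepAux   (helper247)   measure theoretic helpers for `mg_step` (MG/Step.lean).
Everything follows from the statements of MG/Strip.lean, MG/Lift.lean, MG/Mtp.lean.
-/
import Claimed.Agent.R302.MG.Strip

set_option autoImplicit false
set_option linter.unusedSectionVars false

namespace Claimed.Agent.R302

open MeasureTheory Finset Polynomial
open scoped BigOperators ComplexConjugate ENNReal

noncomputable section

namespace MgBase

variable {X : Type*} [MeasurableSpace X] [DecidableEq X] {D r : ℕ} {B : MgBase X D} {μ : Measure X} {K : ℝ}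
  {P : MgPar} {ε₁ : ℝ}

theorem stp_eps_nonneg (hB : B.Good μ K) (hP : P.Good r ε₁) : 0 ≤ ε₁ := (ctx_good hB hP).eps_nonneg

theorem stp_bd_nonneg (hB : B.Good μ K) (hP : P.Good r ε₁) : 0 ≤ P.bd ε₁ := by
  have h1 := hP.t_pos
  have h2 := stp_eps_nonneg hB hP
  unfold MgPar.bd
  positivity

omit [DecidableEq X] in
theorem stp_measurableSet_cell {ι : Type*} [Countable ι] {cell : X → ι}
    (hcell : ∀ i, MeasurableSet (cell ⁻¹' {i})) (s : Set ι) : MeasurableSet (cell ⁻¹' s) := by
  rw [← Set.biUnion_preimage_singleton]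
  exact MeasurableSet.biUnion (Set.to_countable s) fun i _ => hcell i

theorem stp_meas_sM (hB : B.Good μ K) (hP : P.Good r ε₁) {c : X → Option (Fin r)} (hc : MgMeasC c) :
    Measurable (B.sM P c) := by
  have h := meas_sM_fam hB hP (famB_const hB hc)
  simp only [Prod.mk.eta] at h
  exact h

/-- bounded measurable functions vanishing off the strip are integrable -/
theorem stp_integrable_of (hB : B.Good μ K) (hP : P.Good r ε₁) {f : X × ℝ → ℝ} (hf : Measurable f) {c₀ : ℝ}
    (hb : ∀ y, |f y| ≤ c₀) (h0 : ∀ y, y ∉ mgStrip X P.n → f y = 0) : Integrable f (mgLiftμ μ) := by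
  refine IntegrableOn.integrable_of_forall_notMem_eq_zero (s := mgStrip X P.n) ?_ h0
  exact Measure.integrableOn_of_bounded (M := c₀) (strip_ne_top hB hP) hf.aestronglyMeasurable
    (Filter.Eventually.of_forall fun y => hb y)

theorem stp_integrable_sM (hB : B.Good μ K) (hP : P.Good r ε₁) {c : X → Option (Fin r)} (hc : MgMeasC c) :
    Integrable (B.sM P c) (mgLiftμ μ) :=
  stp_integrable_of hB hP (stp_meas_sM hB hP hc) (abs_sM_le hB hP c) fun _ hy => sM_eq_zero B P c hy

open Classical in
/-- the first order sum -/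
def stpS (B : MgBase X D) (P : MgPar) (c c' : X → Option (Fin r)) (Act : Set X) (y : X × ℝ) : ℝ :=
  ∑ u ∈ mgBall B.σ P.p.natDegree y.1, if u ∈ Act then B.sM P (Function.update c u (c' u)) y - B.sM P c y else 0

theorem stp_meas_S (hB : B.Good μ K) (hP : P.Good r ε₁) {c c' : X → Option (Fin r)} (hc : MgMeasC c)
    (hc' : MgMeasC c') {Act : Set X} (hAct : MeasurableSet Act) : Measurable (stpS B P c c' Act) := by
  classical
  unfold stpS
  refine mg_measurable_sum_ball hB.inv P.p.natDegree (root := fun z : X × ℝ => z.1) measurable_fst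
    (fun z u => if u ∈ Act then B.sM P (Function.update c u (c' u)) z - B.sM P c z else 0) fun w => ?_
  have hw : Measurable (mgAct B.σ w) := measurable_mgAct hB.inv.meas w
  refine Measurable.ite ((hw.comp measurable_fst) hAct) (Measurable.sub ?_ (stp_meas_sM hB hP hc))
    measurable_const
  have h := meas_sM_fam hB hP (famB_update hB (famB_const hB hc) w (fun x => c' (mgAct B.σ w x))
    fun o => hw (hc' o))
  simp only [Prod.mk.eta] at h
  exact h

theorem stp_abs_S_le (hB : B.Good μ K) (hP : P.Good r ε₁) (c c' : X → Option (Fin r)) (Act : Set X)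
    (y : X × ℝ) : |stpS B P c c' Act y| ≤ (mgWords D P.p.natDegree).card * (2 * P.bd ε₁) := by
  classical
  have hbd := stp_bd_nonneg hB hP
  unfold stpS
  refine (Finset.abs_sum_le_sum_abs _ _).trans ?_
  calc ∑ u ∈ mgBall B.σ P.p.natDegree y.1,
        |if u ∈ Act then B.sM P (Function.update c u (c' u)) y - B.sM P c y else 0|
      ≤ ∑ _u ∈ mgBall B.σ P.p.natDegree y.1, 2 * P.bd ε₁ := by
        refine Finset.sum_le_sum fun u _ => ?_
        split_ifs
        · have h1 := abs_sM_le hB hP (Function.update c u (c' u)) y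
          have h2 := abs_sM_le hB hP c y
          have h3 := abs_sub (B.sM P (Function.update c u (c' u)) y) (B.sM P c y)
          linarith
        · rw [abs_zero]
          positivity
    _ = (mgBall B.σ P.p.natDegree y.1).card * (2 * P.bd ε₁) := by
        rw [Finset.sum_const, nsmul_eq_mul]
    _ ≤ _ := by
        have : ((mgBall B.σ P.p.natDegree y.1).card : ℝ) ≤ (mgWords D P.p.natDegree).card := by
          exact_mod_cast card_mgBall_le B.σ P.p.natDegree y.1
        gcongr

theorem stp_S_eq_zero (B : MgBase X D) (P : MgPar) (c c' : X → Option (Fin r)) (Act : Set X) {y : X × ℝ}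
    (hy : y ∉ mgStrip X P.n) : stpS B P c c' Act y = 0 := by
  classical
  unfold stpS
  refine Finset.sum_eq_zero fun u _ => ?_
  rw [sM_eq_zero B P _ hy, sM_eq_zero B P _ hy, sub_zero, ite_self]

theorem stp_integrable_S (hB : B.Good μ K) (hP : P.Good r ε₁) {c c' : X → Option (Fin r)} (hc : MgMeasC c)
    (hc' : MgMeasC c') {Act : Set X} (hAct : MeasurableSet Act) :
    Integrable (stpS B P c c' Act) (mgLiftμ μ) :=
  stp_integrable_of hB hP (stp_meas_S hB hP hc hc' hAct) (stp_abs_S_le hB hP c c' Act)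
    fun _ hy => stp_S_eq_zero B P c c' Act hy

omit [MeasurableSpace X] [DecidableEq X] in
theorem stp_intervalIntegrable {g : ℝ → ℝ} (hg : Measurable g) {c₀ : ℝ} (hb : ∀ s, |g s| ≤ c₀) (a b : ℝ) :
    IntervalIntegrable (fun s => g s * Real.exp s) volume a b := by
  have h1 : IntervalIntegrable (fun s => c₀ * Real.exp s) volume a b :=
    (continuous_const.mul Real.continuous_exp).intervalIntegrable a b
  refine h1.mono_fun' (hg.mul Real.measurable_exp).aestronglyMeasurable
    (Filter.Eventually.of_forall fun s => ?_)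
  show ‖g s * Real.exp s‖ ≤ c₀ * Real.exp s
  rw [norm_mul, Real.norm_eq_abs, Real.norm_eq_abs, abs_of_pos (Real.exp_pos s)]
  exact mul_le_mul_of_nonneg_right (hb s) (Real.exp_pos s).le

theorem stp_height_sub (hB : B.Good μ K) (hP : P.Good r ε₁) {c : X → Option (Fin r)} (hc : MgMeasC c)
    (i : Fin r) (x : X) :
    ∫ s in (-P.n)..P.n, (B.sDf P (Function.update c x (some i)) (x, s) - B.sDf P c (x, s)) * Real.exp s =
      B.dibar P c i x - B.dbar P c x := by
  have m1 : Measurable fun s : ℝ => B.sDfi P c i (x, s) :=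
    (meas_sDfi_fam hB hP (famB_const hB hc) i).comp measurable_prodMk_left
  have m2 : Measurable fun s : ℝ => B.sDf P c (x, s) :=
    (meas_sDf_fam hB hP (famB_const hB hc)).comp measurable_prodMk_left
  have i1 := stp_intervalIntegrable m1 (c₀ := P.bd ε₁)
    (fun s => abs_sDf_le hB hP (Function.update c x (some i)) (x, s)) (-P.n) P.n
  have i2 := stp_intervalIntegrable m2 (c₀ := P.bd ε₁) (fun s => abs_sDf_le hB hP c (x, s)) (-P.n) P.n
  rw [dibar, dbar, ← intervalIntegral.integral_sub i1 i2]
  refine intervalIntegral.integral_congr fun s _ => ?_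
  simp only [sub_mul]
  rfl

theorem stp_integrable_min (hB : B.Good μ K) (hP : P.Good r ε₁) {c : X → Option (Fin r)} (hc : MgMeasC c)
    (sel : X → Fin r) (hsel : ∀ x j, B.dibar P c (sel x) x ≤ B.dibar P c j x) :
    Integrable (fun x => B.dibar P c (sel x) x) μ := by
  have hm : ∀ i, Measurable fun x => B.dibar P c i x := fun i =>
    meas_dibar_fam hB hP (famB_const hB hc) i
  have he : (fun x => B.dibar P c (sel x) x) = fun x => ⨅ i, B.dibar P c i x := by
    funext x
    have : Nonempty (Fin r) := ⟨sel x⟩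
    exact le_antisymm (le_ciInf fun j => hsel x j) (ciInf_le (Set.finite_range _).bddBelow (sel x))
  have hmeas : Measurable fun x => B.dibar P c (sel x) x := by
    rw [he]
    exact Measurable.iInf hm
  refine Integrable.mono' (g := fun x => ∑ i, ‖B.dibar P c i x‖)
    (integrable_finsetSum _ fun i _ => (integrable_dibar hB hP hc i).norm) hmeas.aestronglyMeasurable
    (Filter.Eventually.of_forall fun x => ?_)
  exact Finset.single_le_sum (f := fun i => ‖B.dibar P c i x‖) (fun _ _ => norm_nonneg _)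
    (Finset.mem_univ (sel x))

theorem stp_setIntegral_mbar_le (hB : B.Good μ K) (hP : P.Good r ε₁) {c : X → Option (Fin r)}
    (hc : MgMeasC c) {s : Set X} (hs : MeasurableSet s) :
    ∫ x in s, B.mbar P c x ∂μ ≤ B.cost P μ c + ε₁ * P.vol := by
  have := hB.prob
  have hint := integrable_mbar hB hP hc
  have h1 : B.cost P μ c = ∫ x in s, B.mbar P c x ∂μ + ∫ x in sᶜ, B.mbar P c x ∂μ :=
    (integral_add_compl hs hint).symm
  have h0 : 0 ≤ ε₁ * P.vol := mul_nonneg (stp_eps_nonneg hB hP) hP.vol_pos.le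
  have h2 : -(ε₁ * P.vol) ≤ ∫ x in sᶜ, B.mbar P c x ∂μ := by
    calc -(ε₁ * P.vol) ≤ μ.real sᶜ * -(ε₁ * P.vol) := by
          have : μ.real sᶜ ≤ 1 := measureReal_le_one
          nlinarith
      _ = ∫ _x in sᶜ, -(ε₁ * P.vol) ∂μ := by
          rw [setIntegral_const, smul_eq_mul]
      _ ≤ ∫ x in sᶜ, B.mbar P c x ∂μ :=
          setIntegral_mono (integrable_const _).integrableOn hint.integrableOn
            fun x => neg_le_mbar hB hP hc x
  linarith

theorem stp_star (hB : B.Good μ K) (hP : P.Good r ε₁) {c : X → Option (Fin r)} (hc : MgMeasC c)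
    (sel : X → Fin r) (hsel : ∀ x j, B.dibar P c (sel x) x ≤ B.dibar P c j x) {e₃ : ℝ}
    (hstar : ∫ x in {x | c x = none}, (B.dibar P c (sel x) x - B.dbar P c x - 24 * B.mbar P c x) ∂μ ≤ e₃) :
    ∫ x in {x | c x = none}, (B.dibar P c (sel x) x - B.dbar P c x) ∂μ ≤
      e₃ + 24 * (B.cost P μ c + ε₁ * P.vol) := by
  have hN : MeasurableSet {x | c x = none} := hc none
  have i1 : Integrable (fun x => B.dibar P c (sel x) x - B.dbar P c x) μ :=
    (stp_integrable_min hB hP hc sel hsel).sub (integrable_dbar hB hP hc)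
  have i2 : Integrable (fun x => 24 * B.mbar P c x) μ := (integrable_mbar hB hP hc).const_mul 24
  rw [integral_sub i1.integrableOn i2.integrableOn, integral_const_mul] at hstar
  have := stp_setIntegral_mbar_le hB hP hc hN
  linarith

/-- decomposition of the change of the cost under a recolouring -/
theorem stp_cost_decomp (hB : B.Good μ K) (hP : P.Good r ε₁) {c c' : X → Option (Fin r)} (hc : MgMeasC c)
    (hc' : MgMeasC c') {Act : Set X} (hAct : MeasurableSet Act) :
    B.cost P μ c' = B.cost P μ c + ∫ y, stpS B P c c' Act y ∂(mgLiftμ μ) +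
      ∫ y, (B.sM P c' y - B.sM P c y - stpS B P c c' Act y) ∂(mgLiftμ μ) := by
  have i1 := stp_integrable_sM hB hP hc
  have i2 := stp_integrable_sM hB hP hc'
  have i3 := stp_integrable_S hB hP hc hc' hAct
  have i4 : Integrable (fun y => B.sM P c' y - B.sM P c y) (mgLiftμ μ) := i2.sub i1
  rw [cost_eq hB hP hc, cost_eq hB hP hc', integral_sub i4 i3, integral_sub i2 i1]
  ring

/-- summation of the decompositions over a finite label space -/
theorem stp_sum_le (hB : B.Good μ K) (hP : P.Good r ε₁) {c : X → Option (Fin r)} (hc : MgMeasC c)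
    {Ω : Type*} [Fintype Ω] (c' : Ω → X → Option (Fin r)) (hc' : ∀ ω, MgMeasC (c' ω))
    (Act : Ω → Set X) (hAct : ∀ ω, MeasurableSet (Act ω)) {g : X → ℝ} (hg : Integrable g μ) {N : Set X}
    (hN : MeasurableSet N) {a Cst : ℝ}
    (h1 : ∀ ω, ∫ y, stpS B P c (c' ω) (Act ω) y ∂(mgLiftμ μ) = ∫ x in Act ω, g x ∂μ)
    (h2 : ∀ x, ∑ ω, (Act ω).indicator g x = a * N.indicator g x)
    (h3 : ∀ y, ∑ ω, (B.sM P (c' ω) y - B.sM P c y - stpS B P c (c' ω) (Act ω) y) ≤ Cst) :
    ∑ ω, B.cost P μ (c' ω) ≤
      (Fintype.card Ω : ℝ) * B.cost P μ c + a * ∫ x in N, g x ∂μ + Cst * P.vol := by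
  have hR : ∀ ω, Integrable (fun y => B.sM P (c' ω) y - B.sM P c y - stpS B P c (c' ω) (Act ω) y)
      (mgLiftμ μ) := fun ω =>
    ((stp_integrable_sM hB hP (hc' ω)).sub (stp_integrable_sM hB hP hc)).sub
      (stp_integrable_S hB hP hc (hc' ω) (hAct ω))
  have e1 : ∑ ω, B.cost P μ (c' ω) = (Fintype.card Ω : ℝ) * B.cost P μ c + ∑ ω, ∫ x in Act ω, g x ∂μ +
      ∑ ω, ∫ y, (B.sM P (c' ω) y - B.sM P c y - stpS B P c (c' ω) (Act ω) y) ∂(mgLiftμ μ) := by
    have : ∀ ω, B.cost P μ (c' ω) = B.cost P μ c + ∫ x in Act ω, g x ∂μ +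
        ∫ y, (B.sM P (c' ω) y - B.sM P c y - stpS B P c (c' ω) (Act ω) y) ∂(mgLiftμ μ) := fun ω => by
      rw [← h1 ω]
      exact stp_cost_decomp hB hP hc (hc' ω) (hAct ω)
    simp only [this]
    rw [Finset.sum_add_distrib, Finset.sum_add_distrib, Finset.sum_const, Finset.card_univ, nsmul_eq_mul]
  have e2 : ∑ ω, ∫ x in Act ω, g x ∂μ = a * ∫ x in N, g x ∂μ := by
    calc ∑ ω, ∫ x in Act ω, g x ∂μ = ∑ ω, ∫ x, (Act ω).indicator g x ∂μ :=
          Finset.sum_congr rfl fun ω _ => (integral_indicator (hAct ω)).symm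
      _ = ∫ x, ∑ ω, (Act ω).indicator g x ∂μ :=
          (integral_finsetSum _ fun ω _ => hg.indicator (hAct ω)).symm
      _ = ∫ x, a * N.indicator g x ∂μ := by simp only [h2]
      _ = a * ∫ x in N, g x ∂μ := by rw [integral_const_mul, integral_indicator hN]
  have hQ : MeasurableSet (mgStrip X P.n) := mg_measurableSet_strip X P.n
  have e3 : ∑ ω, ∫ y, (B.sM P (c' ω) y - B.sM P c y - stpS B P c (c' ω) (Act ω) y) ∂(mgLiftμ μ)
      ≤ Cst * P.vol := by
    calc ∑ ω, ∫ y, (B.sM P (c' ω) y - B.sM P c y - stpS B P c (c' ω) (Act ω) y) ∂(mgLiftμ μ)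
        = ∫ y, ∑ ω, (B.sM P (c' ω) y - B.sM P c y - stpS B P c (c' ω) (Act ω) y) ∂(mgLiftμ μ) :=
          (integral_finsetSum _ fun ω _ => hR ω).symm
      _ ≤ ∫ y, (mgStrip X P.n).indicator (fun _ => Cst) y ∂(mgLiftμ μ) := by
          refine integral_mono (integrable_finsetSum _ fun ω _ => hR ω) ?_ fun y => ?_
          · exact (integrable_indicator_iff hQ).2 (integrableOn_const (strip_ne_top hB hP))
          · by_cases hy : y ∈ mgStrip X P.n
            · rw [Set.indicator_of_mem hy]
              exact h3 y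
            · rw [Set.indicator_of_notMem hy]
              refine le_of_eq (Finset.sum_eq_zero fun ω _ => ?_)
              rw [sM_eq_zero B P _ hy, sM_eq_zero B P _ hy, stp_S_eq_zero B P _ _ _ hy]
              ring
      _ = Cst * P.vol := by
          rw [integral_indicator_const _ hQ, measureReal_def, strip_toReal hB hP, smul_eq_mul, mul_comm]
  rw [e1, e2]
  linarith

end MgBase

end

end Claimed.Agent.R302
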