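/-
R302 / MG / Step   (skeleton: helper244)   LEAVES "MG-Avg" (section Avg + Choose), "MG-Step-expand" (section Expand), "MG-Step-main" (mg_step)
The one step inequality (replacement of Lemma 6.5 of Q; design of helper234/helper203: activation BITS, first order in `h = 1/A`, no times, no orders).

SETTING.  `c` a measurable partial colouring of the base; a finite measurable partition `cell : X → ι` separating the `k`-balls (`k = deg p`);
fresh labels `ω : ι → Fin A × Fin r` (uniform); the site `x` is ACTIVE if `(ω (cell x)).1 = 0`, its tie shift is `(ω (cell x)).2`.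
`c'_ω = B.stepω P c cell ω`: active unassigned sites receive a minimiser of `i ↦ dibar c i x`.

PROOF of `mg_step`.   Act_ω := {c = none} ∩ {active}.
 (1) `cost c'_ω - cost c = ∫ (sM c'_ω - sM c) dν`   (`cost_eq`).
 (2) `sM c'_ω y - sM c y = ∑_{u ∈ ball k y.1} [u ∈ Act_ω] (sM (update c u (c'_ω u)) y - sM c y) + Rest_ω y`, with `Rest_ω y = 0` if the ball contains at most one point of `Act_ω`
     (`step_expand`), `|Rest_ω y| ≤ 2 bd (1 + N_k)` always (`step_expand_abs`), `Rest_ω y = 0` off the strip.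
 (3) `∫ ∑_u ... dν = ∫_{Act_ω} (dibar c (c'_ω x) x - dbar c x) dμ = ∫_{Act_ω} g dμ`, `g := min_i dibar c i - dbar c` (`change_update_base`, `mgChoose_le`).
 (4) sum over `ω`: `∑_ω 1_{Act_ω}(x) = [c x = none] card / A` (`mg_avg_one`);  `∑_ω [two distinct active points in ball k x] ≤ N_k² card / A²` (`mg_avg_two`, the cells are distinct by `hsep`).
 (5) `∫_{c = none} g ≤ e₃ + 24 ∫_{c = none} mbar ≤ e₃ + 24 (cost c + ε₁ vol)`   (`hstar`, `neg_le_mbar`).
-/
import Claimed.Agent.R302.MG.StepAux

set_option autoImplicit false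
set_option linter.unusedSectionVars false

namespace Claimed.Agent.R302

open MeasureTheory Finset Polynomial
open scoped BigOperators ComplexConjugate ENNReal

noncomputable section

section Avg

variable {ι Λ Λ' : Type*} [Fintype ι] [DecidableEq ι] [Fintype Λ] [Fintype Λ']

theorem mg_sum_prod_coord (f : ι → Λ → ℝ) : ∑ ω : ι → Λ, ∏ i, f i (ω i) = ∏ i, ∑ l, f i l := by
  rw [Finset.prod_univ_sum, Fintype.piFinset_univ]

theorem mg_avg_one (e : ι) (g : Λ → ℝ) :
    (Fintype.card Λ : ℝ) * ∑ ω : ι → Λ, g (ω e) = (Fintype.card (ι → Λ) : ℝ) * ∑ l, g l := by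
  have h1 : ∀ ω : ι → Λ, g (ω e) = ∏ i, (if i = e then g else fun _ => 1) (ω i) := by
    intro ω
    rw [Finset.prod_eq_single e (fun b _ hb => by rw [if_neg hb]) (fun h => absurd (mem_univ e) h),
      if_pos rfl]
  simp only [h1]
  rw [mg_sum_prod_coord, ← Finset.mul_prod_erase univ _ (mem_univ e), if_pos rfl,
    Fintype.card_fun, Nat.cast_pow, ← Finset.card_univ (α := ι), ← Finset.prod_const,
    ← Finset.mul_prod_erase univ (fun _ => (Fintype.card Λ : ℝ)) (mem_univ e)]
  have h2 : ∏ i ∈ univ.erase e, ∑ l, (if i = e then g else fun _ => 1) l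
      = ∏ _i ∈ univ.erase e, (Fintype.card Λ : ℝ) := by
    refine Finset.prod_congr rfl fun i hi => ?_
    rw [if_neg (Finset.ne_of_mem_erase hi)]
    simp
  rw [h2]
  ring

theorem mg_avg_two {e e' : ι} (h : e ≠ e') (g g' : Λ → ℝ) :
    (Fintype.card Λ : ℝ) ^ 2 * ∑ ω : ι → Λ, g (ω e) * g' (ω e') =
      (Fintype.card (ι → Λ) : ℝ) * ((∑ l, g l) * ∑ l, g' l) := by
  have h1 : ∀ ω : ι → Λ, g (ω e) * g' (ω e')
      = ∏ i, (if i = e then g else if i = e' then g' else fun _ => 1) (ω i) := by
    intro ω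
    rw [Finset.prod_eq_mul e e' h (fun b _ hb => by rw [if_neg hb.1, if_neg hb.2])
      (fun h => absurd (mem_univ e) h) (fun h => absurd (mem_univ e') h), if_pos rfl,
      if_neg h.symm, if_pos rfl]
  have he' : e' ∈ univ.erase e := Finset.mem_erase.2 ⟨h.symm, mem_univ e'⟩
  simp only [h1]
  rw [mg_sum_prod_coord, ← Finset.mul_prod_erase univ _ (mem_univ e),
    ← Finset.mul_prod_erase (univ.erase e) _ he', if_pos rfl, if_neg h.symm, if_pos rfl,
    Fintype.card_fun, Nat.cast_pow, ← Finset.card_univ (α := ι), ← Finset.prod_const,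
    ← Finset.mul_prod_erase univ (fun _ => (Fintype.card Λ : ℝ)) (mem_univ e),
    ← Finset.mul_prod_erase (univ.erase e) (fun _ => (Fintype.card Λ : ℝ)) he']
  have h2 : ∏ i ∈ (univ.erase e).erase e',
        ∑ l, (if i = e then g else if i = e' then g' else fun _ => 1) l
      = ∏ _i ∈ (univ.erase e).erase e', (Fintype.card Λ : ℝ) := by
    refine Finset.prod_congr rfl fun i hi => ?_
    rw [if_neg (Finset.ne_of_mem_erase (Finset.mem_of_mem_erase hi)),
      if_neg (Finset.ne_of_mem_erase hi)]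
    simp
  rw [h2]
  ring

theorem mg_sum_prod_labels {M : Type*} [AddCommMonoid M] (F : (ι → Λ × Λ') → M) :
    ∑ ω, F ω = ∑ ω₁ : ι → Λ, ∑ ω₂ : ι → Λ', F fun e => (ω₁ e, ω₂ e) := by
  rw [← Fintype.sum_prod_type',
    ← (Equiv.arrowProdEquivProdArrow ι (fun _ => Λ) (fun _ => Λ')).symm.sum_comp]
  rfl

end Avg

section Choose

variable {r : ℕ} [NeZero r]

theorem mgChoose_nonempty (a : Fin r → ℝ) (s : Fin r) :
    (Finset.univ.filter fun k : Fin r => ∀ j, a (s + k) ≤ a j).Nonempty := by
  obtain ⟨i₀, hi₀⟩ := Finite.exists_min a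
  refine ⟨i₀ - s, ?_⟩
  rw [Finset.mem_filter]
  refine ⟨mem_univ _, fun j => ?_⟩
  rw [add_sub_cancel]
  exact hi₀ j

theorem mgChoose_le (a : Fin r → ℝ) (s j : Fin r) : a (mgChoose a s) ≤ a j := by
  have h := mgChoose_nonempty a s
  rw [mgChoose, dif_pos h]
  exact (Finset.mem_filter.1 (Finset.min'_mem _ h)).2 j

theorem mgChoose_shift (a : Fin r → ℝ) (s e : Fin r) :
    mgChoose (fun i => a (i - e)) (s + e) = mgChoose a s + e := by
  have hset : (Finset.univ.filter fun k : Fin r =>
        ∀ j, (fun i => a (i - e)) (s + e + k) ≤ (fun i => a (i - e)) j)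
      = Finset.univ.filter fun k : Fin r => ∀ j, a (s + k) ≤ a j := by
    refine Finset.filter_congr fun k _ => ?_
    have h1 : s + e + k - e = s + k := by abel
    constructor
    · intro H j
      have := H (j + e)
      simp only [h1, add_sub_cancel_right] at this
      exact this
    · intro H j
      simp only [h1]
      exact H (j - e)
  have h := mgChoose_nonempty a s
  have h' := mgChoose_nonempty (fun i => a (i - e)) (s + e)
  rw [mgChoose, mgChoose, dif_pos h, dif_pos h']
  have : (Finset.univ.filter fun k : Fin r =>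
        ∀ j, (fun i => a (i - e)) (s + e + k) ≤ (fun i => a (i - e)) j).min' h'
      = (Finset.univ.filter fun k : Fin r => ∀ j, a (s + k) ≤ a j).min' h := by
    congr 1
  rw [this]
  abel

/-- measurability of the selection rule -/
theorem mg_measurableSet_choose {Z : Type*} [MeasurableSpace Z] {a : Z → Fin r → ℝ}
    (ha : ∀ i, Measurable fun z => a z i) {s : Z → Fin r} (hs : ∀ j, MeasurableSet {z | s z = j}) (j : Fin r) :
    MeasurableSet {z | mgChoose (a z) (s z) = j} := by
  classical
  -- the order pattern of `a z`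
  let pat : Z → Fin r → Fin r → Bool := fun z i i' => decide (a z i ≤ a z i')
  have hpat : Measurable pat := by
    refine measurable_pi_iff.2 fun i => measurable_pi_iff.2 fun i' => ?_
    refine measurable_to_bool ?_
    have : (fun z => decide (a z i ≤ a z i')) ⁻¹' {true} = {z | a z i ≤ a z i'} := by
      ext z; simp
    rw [this]
    exact measurableSet_le (ha i) (ha i')
  have hsm : Measurable s := by
    refine measurable_to_countable' fun j => ?_
    exact hs j
  let g : (Fin r → Fin r → Bool) × Fin r → Fin r := fun q =>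
    if h : (Finset.univ.filter fun k : Fin r => ∀ j, q.1 (q.2 + k) j = true).Nonempty then
      q.2 + (Finset.univ.filter fun k : Fin r => ∀ j, q.1 (q.2 + k) j = true).min' h
    else q.2
  have hg : ∀ z, mgChoose (a z) (s z) = g (pat z, s z) := by
    intro z
    simp only [mgChoose, g, pat, decide_eq_true_eq]
  have hgm : Measurable g := Measurable.of_discrete
  have : {z | mgChoose (a z) (s z) = j} = (fun z => g (pat z, s z)) ⁻¹' {j} := by
    ext z
    simp [hg z]
  rw [this]
  exact (hgm.comp (hpat.prodMk hsm)) (measurableSet_singleton j)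

end Choose

section Count

variable {ι : Type*} [Fintype ι] [DecidableEq ι] {A r : ℕ}

/-- indicator of the active labels -/
def mgActI (l : Fin A × Fin r) : ℝ := if (l.1 : ℕ) = 0 then 1 else 0

theorem mgActI_nonneg (l : Fin A × Fin r) : 0 ≤ mgActI l := by
  unfold mgActI
  split_ifs <;> norm_num

theorem mg_sum_actI (hA : 0 < A) : ∑ l : Fin A × Fin r, mgActI l = r := by
  unfold mgActI
  rw [Fintype.sum_prod_type, Finset.sum_eq_single (⟨0, hA⟩ : Fin A)]
  · simp
  · intro b _ hb
    have hb' : ¬ ((b : ℕ) = 0) := fun h => hb (Fin.ext h)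
    simp [hb']
  · intro h
    exact absurd (Finset.mem_univ _) h

theorem mg_count_one (hA : 0 < A) (hr : 0 < r) (e : ι) :
    ∑ ω : ι → Fin A × Fin r, mgActI (ω e) = (Fintype.card (ι → Fin A × Fin r) : ℝ) / A := by
  have h := mg_avg_one (Λ := Fin A × Fin r) e mgActI
  rw [mg_sum_actI hA, Fintype.card_prod, Fintype.card_fin, Fintype.card_fin] at h
  have hA' : (A : ℝ) ≠ 0 := by exact_mod_cast hA.ne'
  have hr' : (r : ℝ) ≠ 0 := by exact_mod_cast hr.ne'
  rw [eq_div_iff hA']
  push_cast at h
  have h2 : (r : ℝ) * ((∑ ω : ι → Fin A × Fin r, mgActI (ω e)) * A) =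
      r * (Fintype.card (ι → Fin A × Fin r) : ℝ) := by linarith
  exact mul_left_cancel₀ hr' h2

theorem mg_count_two (hA : 0 < A) (hr : 0 < r) {e e' : ι} (h : e ≠ e') :
    ∑ ω : ι → Fin A × Fin r, mgActI (ω e) * mgActI (ω e') =
      (Fintype.card (ι → Fin A × Fin r) : ℝ) / (A : ℝ) ^ 2 := by
  have h := mg_avg_two (Λ := Fin A × Fin r) h mgActI mgActI
  rw [mg_sum_actI hA, Fintype.card_prod, Fintype.card_fin, Fintype.card_fin] at h
  have hA' : (A : ℝ) ≠ 0 := by exact_mod_cast hA.ne'
  have hr' : (r : ℝ) ≠ 0 := by exact_mod_cast hr.ne'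
  rw [eq_div_iff (pow_ne_zero 2 hA')]
  push_cast at h
  have h2 : ((r : ℝ) * r) * ((∑ ω : ι → Fin A × Fin r, mgActI (ω e) * mgActI (ω e')) * (A : ℝ) ^ 2) =
      (r * r) * (Fintype.card (ι → Fin A × Fin r) : ℝ) := by nlinarith
  exact mul_left_cancel₀ (mul_ne_zero hr' hr') h2

end Count

/-- STAR at fixed parameters: the only input from the type III analysis (helper203) -/
def MgStarAt {X : Type*} [MeasurableSpace X] [DecidableEq X] {D : ℕ} (r : ℕ) (B : MgBase X D) (P : MgPar) (μ : Measure X)
    (e₃ : ℝ) : Prop :=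
  ∀ c : X → Option (Fin r), MgMeasC c → ∀ sel : X → Fin r, (∀ x j, B.dibar P c (sel x) x ≤ B.dibar P c j x) →
    ∫ x in {x | c x = none}, (B.dibar P c (sel x) x - B.dbar P c x - 24 * B.mbar P c x) ∂μ ≤ e₃

/-- (STAR): window stability gives a coherent (height independent) colour.  To be proved by helper203's package. -/
def MgStar.{u} (D r : ℕ) (K t : ℝ) : Prop :=
  ∀ ε₃ > 0, ∃ n₀ : ℝ, ∀ n ≥ n₀, ∃ ε₁ > 0, ∀ (p : ℝ[X]) (ρ : ℕ), (⟨t, ρ, p, n⟩ : MgPar).Good r ε₁ →
    ∀ (X : Type u) [MeasurableSpace X] [DecidableEq X] (B : MgBase X D) (μ : Measure X), B.Good μ K →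
      MgStarAt r B ⟨t, ρ, p, n⟩ μ (2 * n * ε₃)

namespace MgBase

variable {X : Type*} [MeasurableSpace X] [DecidableEq X] {D r : ℕ} [NeZero r] {B : MgBase X D} {μ : Measure X} {K : ℝ}
  {P : MgPar} {ε₁ : ℝ}

/-- one round driven by labels on the cells of a partition -/
def stepω (B : MgBase X D) (P : MgPar) {ι : Type*} {A : ℕ} (c : X → Option (Fin r)) (cell : X → ι)
    (ω : ι → Fin A × Fin r) : X → Option (Fin r) :=
  B.step P c (fun x => ((ω (cell x)).1 : ℕ) = 0) fun x => (ω (cell x)).2

section Expand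

theorem step_eq_of_ne_none (B : MgBase X D) (P : MgPar) (c : X → Option (Fin r)) (act : X → Prop) (tie : X → Fin r)
    {x : X} (h : ¬ (c x = none ∧ act x)) : B.step P c act tie x = c x := by
  unfold MgBase.step
  rw [if_neg h]

/-- measurability of one round, for rooted families -/
theorem famB_step (hB : B.Good μ K) (hP : P.Good r ε₁) {Z : Type*} [MeasurableSpace Z] {root : Z → X}
    {cz : Z → X → Option (Fin r)} (h : MgFamB B.σ root cz) (actz : Z → X → Prop) (tiez : Z → X → Fin r)
    (hact : ∀ w, MeasurableSet {z | actz z (mgAct B.σ w (root z))})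
    (htie : ∀ w s, MeasurableSet {z | tiez z (mgAct B.σ w (root z)) = s}) :
    MgFamB B.σ root fun z => B.step P (cz z) (actz z) (tiez z) := by
  classical
  refine ⟨h.root_meas, fun w o => ?_⟩
  have h1 : MeasurableSet {z | cz z (mgAct B.σ w (root z)) = none ∧ actz z (mgAct B.σ w (root z))} :=
    (h.col w none).inter (hact w)
  have h2 : ∀ j : Fin r, MeasurableSet {z | mgChoose (fun i => B.dibar P (cz z) i (mgAct B.σ w (root z)))
      (tiez z (mgAct B.σ w (root z))) = j} := fun j =>
    mg_measurableSet_choose (fun i => meas_dibar_fam hB hP (famB_act hB h w) i) (htie w) j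
  have h3 : MeasurableSet {z | some (mgChoose (fun i => B.dibar P (cz z) i (mgAct B.σ w (root z)))
      (tiez z (mgAct B.σ w (root z)))) = o} := by
    cases o with
    | none => simp
    | some j => simpa only [Option.some.injEq] using h2 j
  have h4 : {z | B.step P (cz z) (actz z) (tiez z) (mgAct B.σ w (root z)) = o} =
      ({z | cz z (mgAct B.σ w (root z)) = none ∧ actz z (mgAct B.σ w (root z))} ∩
        {z | some (mgChoose (fun i => B.dibar P (cz z) i (mgAct B.σ w (root z)))
          (tiez z (mgAct B.σ w (root z)))) = o}) ∪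
      ({z | cz z (mgAct B.σ w (root z)) = none ∧ actz z (mgAct B.σ w (root z))}ᶜ ∩
        {z | cz z (mgAct B.σ w (root z)) = o}) := by
    ext z
    by_cases hz : cz z (mgAct B.σ w (root z)) = none ∧ actz z (mgAct B.σ w (root z))
    · have e : B.step P (cz z) (actz z) (tiez z) (mgAct B.σ w (root z)) =
          some (mgChoose (fun i => B.dibar P (cz z) i (mgAct B.σ w (root z)))
            (tiez z (mgAct B.σ w (root z)))) := by
        unfold MgBase.step
        rw [if_pos hz]
      simp only [Set.mem_ofPred_eq, Set.mem_union, Set.mem_inter_iff, Set.mem_compl_iff]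
      rw [e]
      tauto
    · have e := step_eq_of_ne_none B P (cz z) (actz z) (tiez z) hz
      simp only [Set.mem_ofPred_eq, Set.mem_union, Set.mem_inter_iff, Set.mem_compl_iff]
      rw [e]
      tauto
  rw [h4]
  exact (h1.inter h3).union (h1.compl.inter (h.col w o))

theorem measC_stepω (hB : B.Good μ K) (hP : P.Good r ε₁) {c : X → Option (Fin r)} (hc : MgMeasC c) {ι : Type*}
    [Fintype ι] {cell : X → ι} (hcell : ∀ i, MeasurableSet (cell ⁻¹' {i})) {A : ℕ} (ω : ι → Fin A × Fin r) :
    MgMeasC (B.stepω P c cell ω) := by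
  classical
  have hpre : ∀ S : Set ι, MeasurableSet (cell ⁻¹' S) := by
    intro S
    have : cell ⁻¹' S = ⋃ i ∈ S, cell ⁻¹' {i} := by
      ext x; simp
    rw [this]
    exact MeasurableSet.biUnion (Set.to_countable S) fun i _ => hcell i
  have hfam := famB_step hB hP (famB_const hB hc) (fun _ x => ((ω (cell x)).1 : ℕ) = 0)
    (fun _ x => (ω (cell x)).2)
    (fun w => measurable_mgAct hB.inv.meas w (hpre {i | ((ω i).1 : ℕ) = 0}))
    (fun w s => measurable_mgAct hB.inv.meas w (hpre {i | (ω i).2 = s}))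
  intro o
  exact hfam.col [] o

open Classical in
/-- first order expansion: exact if the `k`-ball contains at most one changed site -/
theorem step_expand (hB : B.Good μ K) (hP : P.Good r ε₁) {c c' : X → Option (Fin r)} {Act : Set X}
    (h : ∀ x, x ∉ Act → c' x = c x) (y : X × ℝ)
    (h1 : ∀ u ∈ mgBall B.σ P.p.natDegree y.1, ∀ u' ∈ mgBall B.σ P.p.natDegree y.1, u ∈ Act → u' ∈ Act → u = u') :
    B.sM P c' y - B.sM P c y =
      ∑ u ∈ mgBall B.σ P.p.natDegree y.1, if u ∈ Act then B.sM P (Function.update c u (c' u)) y - B.sM P c y else 0 := by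
  by_cases hex : ∃ u₀ ∈ mgBall B.σ P.p.natDegree y.1, u₀ ∈ Act
  · obtain ⟨u₀, hu₀, hA⟩ := hex
    have e : B.sM P c' y = B.sM P (Function.update c u₀ (c' u₀)) y := by
      refine sM_congr hB hP fun u hu => ?_
      by_cases huu : u = u₀
      · rw [huu, Function.update_self]
      · rw [Function.update_of_ne huu]
        exact h u fun huA => huu (h1 u hu u₀ hu₀ huA hA)
    rw [Finset.sum_eq_single u₀ (fun b hb hbne => if_neg fun hbA => hbne (h1 b hb u₀ hu₀ hbA hA))
      (fun hn => absurd hu₀ hn), if_pos hA, e]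
  · push Not at hex
    have e : B.sM P c' y = B.sM P c y := sM_congr hB hP fun u hu => h u (hex u hu)
    rw [Finset.sum_eq_zero (fun u hu => if_neg (hex u hu)), e, sub_self]

open Classical in
theorem step_expand_abs (hB : B.Good μ K) (hP : P.Good r ε₁) (c c' : X → Option (Fin r)) (Act : Set X) (y : X × ℝ) :
    |B.sM P c' y - B.sM P c y -
      ∑ u ∈ mgBall B.σ P.p.natDegree y.1, if u ∈ Act then B.sM P (Function.update c u (c' u)) y - B.sM P c y else 0| ≤
      2 * P.bd ε₁ * (1 + (mgWords D P.p.natDegree).card) := by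
  have hbd : 0 ≤ P.bd ε₁ := (abs_nonneg _).trans (abs_sM_le hB hP c y)
  have h1 : |∑ u ∈ mgBall B.σ P.p.natDegree y.1,
      if u ∈ Act then B.sM P (Function.update c u (c' u)) y - B.sM P c y else 0| ≤
      ∑ _u ∈ mgBall B.σ P.p.natDegree y.1, 2 * P.bd ε₁ := by
    refine (Finset.abs_sum_le_sum_abs _ _).trans (Finset.sum_le_sum fun u _ => ?_)
    split_ifs
    · have h2 := abs_sub (B.sM P (Function.update c u (c' u)) y) (B.sM P c y)
      have h3 := abs_sM_le hB hP (Function.update c u (c' u)) y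
      have h4 := abs_sM_le hB hP c y
      linarith
    · rw [abs_zero]
      positivity
  rw [Finset.sum_const, nsmul_eq_mul] at h1
  have h2 : ((mgBall B.σ P.p.natDegree y.1).card : ℝ) ≤ (mgWords D P.p.natDegree).card := by
    exact_mod_cast card_mgBall_le B.σ P.p.natDegree y.1
  have h3 := abs_sM_le hB hP c' y
  have h4 := abs_sM_le hB hP c y
  have h5 := abs_sub (B.sM P c' y) (B.sM P c y)
  have h6 := abs_sub (B.sM P c' y - B.sM P c y) (∑ u ∈ mgBall B.σ P.p.natDegree y.1,
      if u ∈ Act then B.sM P (Function.update c u (c' u)) y - B.sM P c y else 0)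
  have h7 : ((mgBall B.σ P.p.natDegree y.1).card : ℝ) * (2 * P.bd ε₁) ≤
      ((mgWords D P.p.natDegree).card : ℝ) * (2 * P.bd ε₁) :=
    mul_le_mul_of_nonneg_right h2 (by positivity)
  linarith

open Classical in
/-- transport of single site recolourings, base form (from `mg_change_update` on the lift, `sum_ball_fst`, `sM_update`, `mg_integral_strip`) -/
theorem change_update_base (hB : B.Good μ K) (hP : P.Good r ε₁) {c c' : X → Option (Fin r)} (hc : MgMeasC c)
    (hc' : MgMeasC c') {Act : Set X} (hAct : MeasurableSet Act) :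
    ∫ y, (∑ u ∈ mgBall B.σ P.p.natDegree y.1,
        if u ∈ Act then B.sM P (Function.update c u (c' u)) y - B.sM P c y else 0) ∂(mgLiftμ μ) =
      ∫ x in Act, (∫ s in (-P.n)..P.n,
        (B.sDf P (Function.update c x (c' x)) (x, s) - B.sDf P c (x, s)) * Real.exp s) ∂μ := by
  have hprob : IsProbabilityMeasure μ := hB.prob
  have hCg := ctx_good hB hP
  have hup : MgMeasC (mgUp c) := fun o => measurable_fst (hc o)
  have hup' : MgMeasC (mgUp c') := fun o => measurable_fst (hc' o)
  have hA : MeasurableSet (Prod.fst ⁻¹' Act : Set (X × ℝ)) := measurable_fst hAct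
  have E := mg_change_update hCg (fun k => lift_mp hB k) hup hup' (mg_measurableSet_strip X P.n)
    (strip_ne_top hB hP) (strip_W_le B P) hA
  -- the left hand side
  have L : ∀ y : X × ℝ, (∑ u ∈ mgBall B.σ P.p.natDegree y.1,
        if u ∈ Act then B.sM P (Function.update c u (c' u)) y - B.sM P c y else 0) =
      ∑ u ∈ mgBall (B.ctx P.t P.ρ P.p).σ (B.ctx P.t P.ρ P.p).p.natDegree y,
        (if u ∈ (Prod.fst ⁻¹' Act : Set (X × ℝ)) then
          (B.ctx P.t P.ρ P.p).M (Function.update (mgUp c) u (mgUp c' u)) (mgStrip X P.n) y -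
            (B.ctx P.t P.ρ P.p).M (mgUp c) (mgStrip X P.n) y else 0) := by
    intro y
    rw [← sum_ball_fst hB P.p.natDegree y
      (fun u => if u ∈ Act then B.sM P (Function.update c u (c' u)) y - B.sM P c y else 0)]
    refine Finset.sum_congr rfl fun u hu => ?_
    rw [sM_update hB hP c (c' u.1) hu]
    rfl
  simp_rw [L]
  rw [E]
  -- the right hand side
  let G : X × ℝ → ℝ := fun u => B.sDf P (Function.update c u.1 (c' u.1)) u - B.sDf P c u
  have hG : ∀ u : X × ℝ, (B.ctx P.t P.ρ P.p).Df (Function.update (mgUp c) u (mgUp c' u)) (mgStrip X P.n) u -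
      (B.ctx P.t P.ρ P.p).Df (mgUp c) (mgStrip X P.n) u = G u := by
    intro u
    simp only [G]
    rw [sDf_update hB hP c (c' u.1) (self_mem_mgBall B.lσ 0 u)]
    rfl
  simp_rw [hG]
  have hGm : Measurable G := by
    have h1 := meas_sDf_fam hB hP (famB_update hB (famB_const hB hc) [] (fun z => c' z) hc')
    have h2 := meas_sDf_fam hB hP (famB_const hB hc)
    exact h1.sub h2
  have hGb : ∀ u, |G u| ≤ 2 * P.bd ε₁ := by
    intro u
    have h1 := abs_sub (B.sDf P (Function.update c u.1 (c' u.1)) u) (B.sDf P c u)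
    have h2 := abs_sDf_le hB hP (Function.update c u.1 (c' u.1)) u
    have h3 := abs_sDf_le hB hP c u
    simp only [G]
    linarith
  have hG0 : ∀ u, u ∉ mgStrip X P.n → G u = 0 := by
    intro u hu
    simp only [G, MgBase.sDf]
    rw [MgCtx.Df_of_notMem _ hu, MgCtx.Df_of_notMem _ hu, sub_zero]
  let g : X × ℝ → ℝ := (Prod.fst ⁻¹' Act : Set (X × ℝ)).indicator G
  have hgm : Measurable g := hGm.indicator hA
  have hgb : ∀ u, |g u| ≤ 2 * P.bd ε₁ := by
    intro u
    have h0 : 0 ≤ 2 * P.bd ε₁ := (abs_nonneg _).trans (hGb u)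
    simp only [g, Set.indicator]
    split_ifs
    · exact hGb u
    · simpa using h0
  have hg0 : ∀ u, u ∉ mgStrip X P.n → g u = 0 := by
    intro u hu
    simp only [g, Set.indicator]
    split_ifs
    · exact hG0 u hu
    · rfl
  rw [← integral_indicator hA, ← setIntegral_eq_integral_of_forall_compl_eq_zero hg0,
    mg_integral_strip μ hP.n_pos.le hgm hgb, ← integral_indicator hAct]
  refine integral_congr_ae (ae_of_all _ fun x => ?_)
  by_cases hx : x ∈ Act
  · have h1 : ∀ s : ℝ, g (x, s) = G (x, s) := fun s => Set.indicator_of_mem (show (x, s) ∈ Prod.fst ⁻¹' Act from hx) G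
    simp only [h1, Set.indicator_of_mem hx]
    rfl
  · have h1 : ∀ s : ℝ, g (x, s) = 0 := fun s =>
      Set.indicator_of_notMem (show (x, s) ∉ Prod.fst ⁻¹' Act from hx) G
    simp only [h1, Set.indicator_of_notMem hx]
    simp

end Expand

/-- THE ONE STEP INEQUALITY -/
theorem mg_step (hB : B.Good μ K) (hP : P.Good r ε₁) {c : X → Option (Fin r)} (hc : MgMeasC c) {ι : Type*}
    [Fintype ι] [DecidableEq ι] {cell : X → ι} (hcell : ∀ i, MeasurableSet (cell ⁻¹' {i}))
    (hsep : MgSeparates B.σ cell P.p.natDegree) {A : ℕ} (hA : 0 < A) {e₃ : ℝ} (hstar : MgStarAt r B P μ e₃) :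
    ∑ ω : ι → Fin A × Fin r, B.cost P μ (B.stepω P c cell ω) ≤
      (Fintype.card (ι → Fin A × Fin r) : ℝ) * ((1 + 24 / A) * B.cost P μ c + (e₃ + 24 * ε₁ * P.vol) / A +
        2 * P.bd ε₁ * (1 + (mgWords D P.p.natDegree).card) * ((mgWords D P.p.natDegree).card : ℝ) ^ 2 * P.vol / (A : ℝ) ^ 2) := by
  classical
  have hr : 0 < r := hP.r_pos
  have hA' : (0 : ℝ) < A := by exact_mod_cast hA
  have hbd := stp_bd_nonneg hB hP
  set Nk : ℝ := ((mgWords D P.p.natDegree).card : ℝ) with hNk
  have hNk0 : 0 ≤ Nk := Nat.cast_nonneg _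
  set Ωc : ℝ := (Fintype.card (ι → Fin A × Fin r) : ℝ) with hΩ
  have hΩ0 : 0 ≤ Ωc := Nat.cast_nonneg _
  -- the minimal virtual increment
  let sel : X → Fin r := fun x => mgChoose (fun i => B.dibar P c i x) 0
  have hsel : ∀ x j, B.dibar P c (sel x) x ≤ B.dibar P c j x := fun x j =>
    mgChoose_le (fun i => B.dibar P c i x) 0 j
  let g : X → ℝ := fun x => B.dibar P c (sel x) x - B.dbar P c x
  have hg : Integrable g μ := (stp_integrable_min hB hP hc sel hsel).sub (integrable_dbar hB hP hc)
  let Act : (ι → Fin A × Fin r) → Set X := fun ω => {x | c x = none ∧ ((ω (cell x)).1 : ℕ) = 0}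
  have hAct : ∀ ω, MeasurableSet (Act ω) := fun ω =>
    (hc none).inter (stp_measurableSet_cell hcell {i | ((ω i).1 : ℕ) = 0})
  have hc' : ∀ ω : ι → Fin A × Fin r, MgMeasC (B.stepω P c cell ω) := fun ω =>
    measC_stepω hB hP hc hcell ω
  have hN : MeasurableSet {x | c x = none} := hc none
  -- first order terms
  have h1 : ∀ ω, ∫ y, stpS B P c (B.stepω P c cell ω) (Act ω) y ∂(mgLiftμ μ) = ∫ x in Act ω, g x ∂μ := by
    intro ω
    have h := change_update_base hB hP hc (hc' ω) (hAct ω)
    unfold stpS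
    refine h.trans (setIntegral_congr_fun (hAct ω) fun x hx => ?_)
    have hx' : B.stepω P c cell ω x = some (mgChoose (fun i => B.dibar P c i x) (ω (cell x)).2) := by
      unfold stepω step
      exact if_pos hx
    have hmin : B.dibar P c (mgChoose (fun i => B.dibar P c i x) (ω (cell x)).2) x =
        B.dibar P c (sel x) x :=
      le_antisymm (mgChoose_le (fun i => B.dibar P c i x) _ _) (hsel x _)
    simp only [hx']
    rw [stp_height_sub hB hP hc, hmin]
  -- activation probability
  have h2 : ∀ x, ∑ ω, (Act ω).indicator g x = (Ωc / A) * {x | c x = none}.indicator g x := by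
    intro x
    by_cases hx : c x = none
    · rw [Set.indicator_of_mem (show x ∈ {x | c x = none} from hx), ← mg_count_one hA hr (cell x),
        Finset.sum_mul]
      refine Finset.sum_congr rfl fun ω _ => ?_
      unfold mgActI
      by_cases hω : ((ω (cell x)).1 : ℕ) = 0
      · rw [Set.indicator_of_mem (show x ∈ Act ω from ⟨hx, hω⟩), if_pos hω, one_mul]
      · rw [Set.indicator_of_notMem (show x ∉ Act ω from fun h => hω h.2), if_neg hω, zero_mul]
    · rw [Set.indicator_of_notMem (show x ∉ {x | c x = none} from hx), mul_zero]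
      exact Finset.sum_eq_zero fun ω _ => Set.indicator_of_notMem (fun h => hx h.1) _
  -- second order terms
  have h3 : ∀ y, ∑ ω, (B.sM P (B.stepω P c cell ω) y - B.sM P c y -
      stpS B P c (B.stepω P c cell ω) (Act ω) y) ≤ 2 * P.bd ε₁ * (1 + Nk) * (Nk ^ 2 * (Ωc / (A : ℝ) ^ 2)) := by
    intro y
    set bl := mgBall B.σ P.p.natDegree y.1 with hbl
    have hterm : ∀ (ω : ι → Fin A × Fin r) (u u' : X),
        0 ≤ (if u ≠ u' then mgActI (ω (cell u)) * mgActI (ω (cell u')) else 0) := by
      intro ω u u'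
      split_ifs
      · exact mul_nonneg (mgActI_nonneg _) (mgActI_nonneg _)
      · exact le_rfl
    have hω : ∀ ω, B.sM P (B.stepω P c cell ω) y - B.sM P c y -
        stpS B P c (B.stepω P c cell ω) (Act ω) y ≤ 2 * P.bd ε₁ * (1 + Nk) *
          ∑ u ∈ bl, ∑ u' ∈ bl, (if u ≠ u' then mgActI (ω (cell u)) * mgActI (ω (cell u')) else 0) := by
      intro ω
      have hnn : 0 ≤ ∑ u ∈ bl, ∑ u' ∈ bl,
          (if u ≠ u' then mgActI (ω (cell u)) * mgActI (ω (cell u')) else 0) :=
        Finset.sum_nonneg fun u _ => Finset.sum_nonneg fun u' _ => hterm ω u u'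
      by_cases hone : ∀ u ∈ bl, ∀ u' ∈ bl, u ∈ Act ω → u' ∈ Act ω → u = u'
      · have h := step_expand hB hP (c := c) (c' := B.stepω P c cell ω) (Act := Act ω)
          (fun x hx => step_eq_of_ne_none B P c _ _ hx) y hone
        unfold stpS
        rw [h, sub_self]
        positivity
      · push Not at hone
        obtain ⟨u, hu, u', hu', hua, hua', hne⟩ := hone
        have habs := step_expand_abs hB hP c (B.stepω P c cell ω) (Act ω) y
        have h1le : 1 ≤ ∑ u ∈ bl, ∑ u' ∈ bl,
            (if u ≠ u' then mgActI (ω (cell u)) * mgActI (ω (cell u')) else 0) := by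
          calc (1 : ℝ) = (if u ≠ u' then mgActI (ω (cell u)) * mgActI (ω (cell u')) else 0) := by
                rw [if_pos hne, mgActI, mgActI, if_pos hua.2, if_pos hua'.2, one_mul]
            _ ≤ ∑ u'' ∈ bl, (if u ≠ u'' then mgActI (ω (cell u)) * mgActI (ω (cell u'')) else 0) :=
                Finset.single_le_sum
                  (f := fun u'' => if u ≠ u'' then mgActI (ω (cell u)) * mgActI (ω (cell u'')) else 0)
                  (fun u'' _ => hterm ω u u'') hu'
            _ ≤ _ := Finset.single_le_sum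
                  (f := fun u => ∑ u'' ∈ bl,
                    if u ≠ u'' then mgActI (ω (cell u)) * mgActI (ω (cell u'')) else 0)
                  (fun u _ => Finset.sum_nonneg fun u'' _ => hterm ω u u'') hu
        unfold stpS
        refine ((le_abs_self _).trans habs).trans ?_
        rw [← hNk]
        calc 2 * P.bd ε₁ * (1 + Nk) = 2 * P.bd ε₁ * (1 + Nk) * 1 := (mul_one _).symm
          _ ≤ _ := by gcongr
    have hpair : ∀ u ∈ bl, ∀ u' ∈ bl, ∑ ω : ι → Fin A × Fin r,
        (if u ≠ u' then mgActI (ω (cell u)) * mgActI (ω (cell u')) else 0) ≤ Ωc / (A : ℝ) ^ 2 := by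
      intro u hu u' hu'
      by_cases hne : u = u'
      · simp only [hne, ne_eq, not_true_eq_false, if_false, Finset.sum_const_zero]
        positivity
      · have hcell' : cell u ≠ cell u' := fun h => hne (hsep y.1 u hu u' hu' h)
        simp only [ne_eq, hne, not_false_eq_true, if_true]
        exact (mg_count_two hA hr hcell').le
    have hcard : ((bl.card : ℕ) : ℝ) ≤ Nk := by
      rw [hNk]
      exact_mod_cast card_mgBall_le B.σ P.p.natDegree y.1
    calc ∑ ω, (B.sM P (B.stepω P c cell ω) y - B.sM P c y - stpS B P c (B.stepω P c cell ω) (Act ω) y)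
        ≤ ∑ ω : ι → Fin A × Fin r, 2 * P.bd ε₁ * (1 + Nk) *
          ∑ u ∈ bl, ∑ u' ∈ bl, (if u ≠ u' then mgActI (ω (cell u)) * mgActI (ω (cell u')) else 0) :=
          Finset.sum_le_sum fun ω _ => hω ω
      _ = 2 * P.bd ε₁ * (1 + Nk) * ∑ u ∈ bl, ∑ u' ∈ bl, ∑ ω : ι → Fin A × Fin r,
          (if u ≠ u' then mgActI (ω (cell u)) * mgActI (ω (cell u')) else 0) := by
          rw [← Finset.mul_sum, Finset.sum_comm]
          congr 1
          refine Finset.sum_congr rfl fun u _ => ?_
          rw [Finset.sum_comm]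
      _ ≤ 2 * P.bd ε₁ * (1 + Nk) * ∑ _u ∈ bl, ∑ _u' ∈ bl, Ωc / (A : ℝ) ^ 2 := by
          refine mul_le_mul_of_nonneg_left ?_ (by positivity)
          exact Finset.sum_le_sum fun u hu => Finset.sum_le_sum fun u' hu' => hpair u hu u' hu'
      _ = 2 * P.bd ε₁ * (1 + Nk) * ((bl.card : ℝ) ^ 2 * (Ωc / (A : ℝ) ^ 2)) := by
          simp only [Finset.sum_const, nsmul_eq_mul]
          ring
      _ ≤ _ := by gcongr
  have hmain := stp_sum_le hB hP hc (fun ω => B.stepω P c cell ω) hc' Act hAct hg hN h1 h2 h3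
  have hst := stp_star hB hP hc sel hsel (hstar c hc sel hsel)
  calc ∑ ω : ι → Fin A × Fin r, B.cost P μ (B.stepω P c cell ω)
      ≤ Ωc * B.cost P μ c + Ωc / A * ∫ x in {x | c x = none}, g x ∂μ +
        2 * P.bd ε₁ * (1 + Nk) * (Nk ^ 2 * (Ωc / (A : ℝ) ^ 2)) * P.vol := hmain
    _ ≤ Ωc * B.cost P μ c + Ωc / A * (e₃ + 24 * (B.cost P μ c + ε₁ * P.vol)) +
        2 * P.bd ε₁ * (1 + Nk) * (Nk ^ 2 * (Ωc / (A : ℝ) ^ 2)) * P.vol := by
        have : 0 ≤ Ωc / A := by positivity
        gcongr
    _ = _ := by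
        field_simp
        ring

end MgBase

end

end Claimed.Agent.R302
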