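/-
R302 / MG / RuleFam   (helper252)   LEAF "MG-Rule-meas": proofs of the three statements of section `Fam` of `MG/Rule.lean`
(measurability of the iterated rule for rooted families of label fields), under the names `rf_famB_run`, `rf_meas_fin_fam`, `rf_measC_run`.
Only input: `famB_step`.
-/
import Claimed.Agent.R302.MG.Step

set_option autoImplicit false
set_option linter.unusedSectionVars false

namespace Claimed.Agent.R302

open MeasureTheory Finset Polynomial
open scoped BigOperators ComplexConjugate ENNReal

noncomputable section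

/-- a map into a finite type with measurable fibres: every event is measurable -/
theorem rf_meas_pred {Z Λ : Type*} [MeasurableSpace Z] [Finite Λ] (f : Z → Λ)
    (hf : ∀ l, MeasurableSet {z | f z = l}) (p : Λ → Prop) : MeasurableSet {z | p (f z)} := by
  have h : {z | p (f z)} = ⋃ l ∈ {l | p l}, {z | f z = l} := by
    ext z
    simp
  rw [h]
  exact MeasurableSet.biUnion (Set.to_countable _) fun l _ => hf l

namespace MgBase

variable {X : Type*} [MeasurableSpace X] [DecidableEq X] {D r : ℕ} [NeZero r] {B : MgBase X D} {μ : Measure X} {K : ℝ}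
  {P : MgPar} {ε₁ : ℝ}

theorem rf_famB_run (hB : B.Good μ K) (hP : P.Good r ε₁) (A j : ℕ) {Z : Type*} [MeasurableSpace Z] {root : Z → X}
    (hroot : Measurable root) (ℓz : Z → X → MgLab A r j)
    (hℓ : ∀ w l, MeasurableSet {z | ℓz z (mgAct B.σ w (root z)) = l}) :
    MgFamB B.σ root fun z => B.run P A j (ℓz z) := by
  induction j with
  | zero => exact ⟨hroot, fun w o => MeasurableSet.const ((none : Option (Fin r)) = o)⟩
  | succ j ih =>
    have hfin : Finite (MgLab A r (j + 1)) := Finite.of_fintype _
    refine famB_step hB hP (ih (fun z x => (ℓz z x).1) fun w l => ?_)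
      (fun z x => ((ℓz z x).2.1 : ℕ) = 0) (fun z x => (ℓz z x).2.2) (fun w => ?_) fun w s => ?_
    · exact rf_meas_pred (fun z => ℓz z (mgAct B.σ w (root z))) (hℓ w) fun q => q.1 = l
    · exact rf_meas_pred (fun z => ℓz z (mgAct B.σ w (root z))) (hℓ w) fun q => (q.2.1 : ℕ) = 0
    · exact rf_meas_pred (fun z => ℓz z (mgAct B.σ w (root z))) (hℓ w) fun q => q.2.2 = s

theorem rf_meas_fin_fam (hB : B.Good μ K) (hP : P.Good r ε₁) (A N : ℕ) {Z : Type*} [MeasurableSpace Z] {root : Z → X}
    (hroot : Measurable root) (ℓz : Z → X → MgLab A r N × Fin r)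
    (hℓ : ∀ w l, MeasurableSet {z | ℓz z (mgAct B.σ w (root z)) = l}) (i : Fin r) :
    MeasurableSet {z | B.fin P A N (ℓz z) (root z) = i} := by
  have hfin : Finite (MgLab A r N × Fin r) := Finite.of_fintype _
  have h1 : MgFamB B.σ root fun z => B.run P A N fun x => (ℓz z x).1 :=
    rf_famB_run hB hP A N hroot (fun z x => (ℓz z x).1) fun w l =>
      rf_meas_pred (fun z => ℓz z (mgAct B.σ w (root z))) (hℓ w) fun q => q.1 = l
  have h2 : MeasurableSet {z | (ℓz z (root z)).2 = i} :=
    rf_meas_pred (fun z => ℓz z (mgAct B.σ [] (root z))) (hℓ []) fun q => q.2 = i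
  have h3 : {z | B.fin P A N (ℓz z) (root z) = i} =
      {z | B.run P A N (fun x => (ℓz z x).1) (mgAct B.σ [] (root z)) = some i} ∪
        ({z | B.run P A N (fun x => (ℓz z x).1) (mgAct B.σ [] (root z)) = none} ∩
          {z | (ℓz z (root z)).2 = i}) := by
    ext z
    simp only [Set.mem_ofPred_eq, Set.mem_union, Set.mem_inter_iff, MgBase.fin, mgAct]
    cases hrun : B.run P A N (fun x => (ℓz z x).1) (root z) with
    | none => simp
    | some k => simp
  rw [h3]
  exact (h1.col [] (some i)).union ((h1.col [] none).inter h2)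

theorem rf_measC_run (hB : B.Good μ K) (hP : P.Good r ε₁) (A j : ℕ) {ι : Type*} [Fintype ι] {cell : X → ι}
    (hcell : ∀ i, MeasurableSet (cell ⁻¹' {i})) (z : ι → MgLab A r j) :
    MgMeasC (B.run P A j fun x => z (cell x)) := by
  have h1 : MgFamB B.σ (fun x : X => x) fun _ : X => B.run P A j fun x => z (cell x) := by
    refine rf_famB_run hB hP A j measurable_id (fun _ x => z (cell x)) fun w l => ?_
    have h2 : MeasurableSet {x | z (cell x) = l} :=
      rf_meas_pred cell (fun i => hcell i) fun i => z i = l
    exact measurable_mgAct hB.inv.meas w h2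
  exact fun o => h1.col [] o

end MgBase

end

end Claimed.Agent.R302
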