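/-
R302 / MG / Rule   (skeleton: helper244)   LEAVES "MG-Rule-alg" (section Alg), "MG-Rule-meas" (section Fam), "MG-Rule-avg" (section Av)
Iteration of the rounds: `B.run P A j ℓ` (partial colouring after `j` rounds, label field `ℓ : X → MgLab A r j`), `B.fin P A N ℓ` (final colouring).

All proofs are inductions on `j` along the recursive definitions `MgLab A r (j+1) = MgLab A r j × (Fin A × Fin r)`,
`run (j+1) ℓ = step (run j (fst ∘ ℓ)) (active) (tie)`.
* Alg: locality radius `2 k j` (`dibar_congr`), covariance under the cyclic shift of all tie labels (`dibar_map` for the permutation `i ↦ i + e`, `mgChoose_shift`).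
* Fam: measurability for rooted families of label fields (`famB_step`).
* Av: label fields `x ↦ z (cell x)`, `z : ι → MgLab A r j` uniform.  Split `z = (z₁, ω)` (`mg_sum_prod_labels`), apply `mg_step` to `c = run j (z₁ ∘ cell)`.
  `a_{j+1} ≤ (1 + 24/A) a_j + b`, `a_0 ≤ ε₁ vol`  ⟹  `a_j ≤ (1 + 24/A)^j (ε₁ vol + j b)`.
  Unassigned sites: `run (j+1) = none ↔ run j = none ∧ not active`; the activation label of the cell of `x` is independent of `z₁` (product structure), `mg_avg_one`.
  Marginals: the bijection `z ↦ shift e ∘ z` of the label space maps `{fin = i}` onto `{fin = i + e}`.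
-/
import Claimed.Agent.R302.MG.Step
import Claimed.Agent.R302.MG.RuleFam

set_option autoImplicit false
set_option linter.unusedSectionVars false

namespace Claimed.Agent.R302

open MeasureTheory Finset Polynomial
open scoped BigOperators ComplexConjugate ENNReal

noncomputable section

theorem mg_card_lab (A r j : ℕ) : Fintype.card (MgLab A r j) = (A * r) ^ j := by
  induction j with
  | zero => exact Fintype.card_unit
  | succ j ih =>
    have h : Fintype.card (MgLab A r (j + 1)) = Fintype.card (MgLab A r j × (Fin A × Fin r)) := rfl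
    rw [h, Fintype.card_prod, Fintype.card_prod, ih, Fintype.card_fin, Fintype.card_fin, pow_succ]

/-- cyclic shift of all tie labels -/
def mgLabShift (A r : ℕ) [NeZero r] (e : Fin r) : (j : ℕ) → MgLab A r j → MgLab A r j
  | 0, l => l
  | j + 1, l => (mgLabShift A r e j l.1, (l.2.1, l.2.2 + e))

theorem mgLabShift_bijective (A r : ℕ) [NeZero r] (e : Fin r) (j : ℕ) : Function.Bijective (mgLabShift A r e j) := by
  induction j with
  | zero => exact Function.bijective_id
  | succ j ih =>
    have h : mgLabShift A r e (j + 1) =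
        Prod.map (mgLabShift A r e j) (Prod.map (id : Fin A → Fin A) (fun s : Fin r => s + e)) := rfl
    rw [h]
    exact ih.prodMap (Function.bijective_id.prodMap (AddGroup.addRight_bijective e))

namespace MgBase

variable {X : Type*} [MeasurableSpace X] [DecidableEq X] {D r : ℕ} [NeZero r] {B : MgBase X D} {μ : Measure X} {K : ℝ}
  {P : MgPar} {ε₁ : ℝ}

section Alg

theorem run_congr (hB : B.Good μ K) (hP : P.Good r ε₁) (A j : ℕ) {ℓ ℓ' : X → MgLab A r j} {x : X}
    (h : ∀ u ∈ mgBall B.σ (2 * P.p.natDegree * j) x, ℓ u = ℓ' u) : B.run P A j ℓ x = B.run P A j ℓ' x := by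
  induction j generalizing x with
  | zero => rfl
  | succ j ih =>
    have hx : ℓ x = ℓ' x := h x (self_mem_mgBall _ _ _)
    have hc : ∀ u ∈ mgBall B.σ (2 * P.p.natDegree) x,
        B.run P A j (fun v => (ℓ v).1) u = B.run P A j (fun v => (ℓ' v).1) u := by
      intro u hu
      refine ih (ℓ := fun v => (ℓ v).1) (ℓ' := fun v => (ℓ' v).1) fun v hv => ?_
      have hv' : v ∈ mgBall B.σ (2 * P.p.natDegree * (j + 1)) x := by
        have := mgBall_trans hu hv
        rwa [show 2 * P.p.natDegree + 2 * P.p.natDegree * j = 2 * P.p.natDegree * (j + 1) by ring]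
          at this
      exact congrArg Prod.fst (h v hv')
    have hcx := hc x (self_mem_mgBall _ _ _)
    have hd : (fun i => B.dibar P (B.run P A j fun v => (ℓ v).1) i x) =
        fun i => B.dibar P (B.run P A j fun v => (ℓ' v).1) i x :=
      funext fun i => dibar_congr hB hP hc i
    simp only [run, step]
    rw [hd, hcx, hx]

theorem fin_congr (hB : B.Good μ K) (hP : P.Good r ε₁) (A N : ℕ) {ℓ ℓ' : X → MgLab A r N × Fin r} {x : X}
    (h : ∀ u ∈ mgBall B.σ (2 * P.p.natDegree * N) x, ℓ u = ℓ' u) : B.fin P A N ℓ x = B.fin P A N ℓ' x := by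
  have hx : ℓ x = ℓ' x := h x (self_mem_mgBall _ _ _)
  have hr : B.run P A N (fun u => (ℓ u).1) x = B.run P A N (fun u => (ℓ' u).1) x :=
    run_congr hB hP A N fun u hu => congrArg Prod.fst (h u hu)
  simp only [fin]
  rw [hr, hx]

theorem run_shift (hB : B.Good μ K) (hP : P.Good r ε₁) (A j : ℕ) (e : Fin r) (ℓ : X → MgLab A r j) (x : X) :
    B.run P A j (fun u => mgLabShift A r e j (ℓ u)) x = (B.run P A j ℓ x).map (· + e) := by
  induction j generalizing x with
  | zero => rfl
  | succ j ih =>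
    have hc : (B.run P A j fun u => (mgLabShift A r e (j + 1) (ℓ u)).1) =
        fun u => (B.run P A j (fun v => (ℓ v).1) u).map (Equiv.addRight e) :=
      funext fun u => ih (fun v => (ℓ v).1) u
    have hd : ∀ i, B.dibar P (fun u => (B.run P A j (fun v => (ℓ v).1) u).map (Equiv.addRight e)) i x =
        B.dibar P (B.run P A j fun v => (ℓ v).1) (i - e) x := by
      intro i
      have := dibar_map hB hP (Equiv.addRight e) (B.run P A j fun v => (ℓ v).1) (i - e) x
      rwa [show (Equiv.addRight e) (i - e) = i from sub_add_cancel i e] at this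
    have h1 : B.run P A (j + 1) (fun u => mgLabShift A r e (j + 1) (ℓ u)) x =
        B.step P (B.run P A j fun u => (mgLabShift A r e (j + 1) (ℓ u)).1)
          (fun u => ((ℓ u).2.1 : ℕ) = 0) (fun u => (ℓ u).2.2 + e) x := rfl
    have h2 : B.run P A (j + 1) ℓ x =
        B.step P (B.run P A j fun u => (ℓ u).1) (fun u => ((ℓ u).2.1 : ℕ) = 0) (fun u => (ℓ u).2.2) x :=
      rfl
    rw [h1, h2, hc]
    simp only [step, hd, Option.map_eq_none_iff]
    rw [mgChoose_shift (fun i => B.dibar P (B.run P A j fun v => (ℓ v).1) i x)]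
    split_ifs
    · rfl
    · rfl

theorem fin_shift (hB : B.Good μ K) (hP : P.Good r ε₁) (A N : ℕ) (e : Fin r) (ℓ : X → MgLab A r N × Fin r) (x : X) :
    B.fin P A N (fun u => (mgLabShift A r e N (ℓ u).1, (ℓ u).2 + e)) x = B.fin P A N ℓ x + e := by
  have h := run_shift hB hP A N e (fun u => (ℓ u).1) x
  simp only [fin]
  rw [h]
  cases B.run P A N (fun u => (ℓ u).1) x <;> rfl

/-- assigned sites keep their colour in the final colouring -/
theorem fin_eq_of_run (B : MgBase X D) (P : MgPar) (A N : ℕ) (ℓ : X → MgLab A r N × Fin r) {x : X} {i : Fin r}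
    (h : B.run P A N (fun u => (ℓ u).1) x = some i) : B.fin P A N ℓ x = i := by
  simp only [fin]
  rw [h]
  rfl

end Alg

section Fam

theorem famB_run (hB : B.Good μ K) (hP : P.Good r ε₁) (A j : ℕ) {Z : Type*} [MeasurableSpace Z] {root : Z → X}
    (hroot : Measurable root) (ℓz : Z → X → MgLab A r j)
    (hℓ : ∀ w l, MeasurableSet {z | ℓz z (mgAct B.σ w (root z)) = l}) :
    MgFamB B.σ root fun z => B.run P A j (ℓz z) :=
  rf_famB_run hB hP A j hroot ℓz hℓ

theorem meas_fin_fam (hB : B.Good μ K) (hP : P.Good r ε₁) (A N : ℕ) {Z : Type*} [MeasurableSpace Z] {root : Z → X}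
    (hroot : Measurable root) (ℓz : Z → X → MgLab A r N × Fin r)
    (hℓ : ∀ w l, MeasurableSet {z | ℓz z (mgAct B.σ w (root z)) = l}) (i : Fin r) :
    MeasurableSet {z | B.fin P A N (ℓz z) (root z) = i} :=
  rf_meas_fin_fam hB hP A N hroot ℓz hℓ i

theorem measC_run (hB : B.Good μ K) (hP : P.Good r ε₁) (A j : ℕ) {ι : Type*} [Fintype ι] {cell : X → ι}
    (hcell : ∀ i, MeasurableSet (cell ⁻¹' {i})) (z : ι → MgLab A r j) :
    MgMeasC (B.run P A j fun x => z (cell x)) :=
  rf_measC_run hB hP A j hcell z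

end Fam

section Av

variable {ι : Type*} [Fintype ι] [DecidableEq ι] {cell : X → ι}

/-- the error term of one round -/
def _root_.Claimed.Agent.R302.MgPar.err (P : MgPar) (D A : ℕ) (ε₁ e₃ : ℝ) : ℝ :=
  (e₃ + 24 * ε₁ * P.vol) / A +
    2 * P.bd ε₁ * (1 + (mgWords D P.p.natDegree).card) * ((mgWords D P.p.natDegree).card : ℝ) ^ 2 * P.vol / (A : ℝ) ^ 2

theorem rav_eps_nonneg (hP : P.Good r ε₁) : 0 ≤ ε₁ := by
  have hL : 0 < (1 + 80 * P.t) * Real.exp P.n :=
    mul_pos (by have := hP.t_pos; positivity) (Real.exp_pos _)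
  exact (abs_nonneg _).trans (hP.apx.sup 0 ⟨by linarith, hL.le⟩)

theorem rav_err_nonneg (hP : P.Good r ε₁) (A : ℕ) {e₃ : ℝ} (he₃ : 0 ≤ e₃) : 0 ≤ P.err D A ε₁ e₃ := by
  have h1 := rav_eps_nonneg hP
  have h2 := hP.vol_pos.le
  have h3 : 0 ≤ P.bd ε₁ := by
    unfold MgPar.bd
    have := hP.t_pos
    positivity
  unfold MgPar.err
  positivity

theorem rav_card_succ (A j : ℕ) :
    (Fintype.card (ι → MgLab A r (j + 1)) : ℝ) =
      (Fintype.card (ι → MgLab A r j) : ℝ) * (Fintype.card (ι → Fin A × Fin r) : ℝ) := by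
  have h : Fintype.card (ι → MgLab A r (j + 1)) = Fintype.card (ι → MgLab A r j × (Fin A × Fin r)) := rfl
  rw [h, Fintype.card_fun, Fintype.card_fun, Fintype.card_fun, Fintype.card_prod, mul_pow]
  push_cast
  ring

theorem rav_sum_succ {M : Type*} [AddCommMonoid M] (A j : ℕ) (F : (ι → MgLab A r (j + 1)) → M) :
    ∑ z, F z = ∑ z₁ : ι → MgLab A r j, ∑ ω : ι → Fin A × Fin r, F fun e => (z₁ e, ω e) :=
  mg_sum_prod_labels (Λ := MgLab A r j) (Λ' := Fin A × Fin r) F

theorem run_cost (hB : B.Good μ K) (hP : P.Good r ε₁) (ht : 3 / Real.sqrt r < P.t)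
    (hcell : ∀ i, MeasurableSet (cell ⁻¹' {i})) (hsep : MgSeparates B.σ cell P.p.natDegree) {A : ℕ} (hA : 0 < A)
    {e₃ : ℝ} (he₃ : 0 ≤ e₃) (hstar : MgStarAt r B P μ e₃) (j : ℕ) :
    ∑ z : ι → MgLab A r j, B.cost P μ (B.run P A j fun x => z (cell x)) ≤
      (Fintype.card (ι → MgLab A r j) : ℝ) * ((1 + 24 / A) ^ j * (ε₁ * P.vol + j * P.err D A ε₁ e₃)) := by
  have hb := rav_err_nonneg (D := D) hP A he₃
  have hq : (1 : ℝ) ≤ 1 + 24 / A := by
    have : (0 : ℝ) ≤ 24 / A := by positivity
    linarith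
  induction j with
  | zero =>
    have h0 : ∀ z : ι → MgLab A r 0, B.cost P μ (B.run P A 0 fun x => z (cell x)) ≤ ε₁ * P.vol :=
      fun z => cost_none_le hB hP ht
    calc ∑ z : ι → MgLab A r 0, B.cost P μ (B.run P A 0 fun x => z (cell x))
        ≤ ∑ _z : ι → MgLab A r 0, ε₁ * P.vol := Finset.sum_le_sum fun z _ => h0 z
      _ = (Fintype.card (ι → MgLab A r 0) : ℝ) * ((1 + 24 / A) ^ 0 *
            (ε₁ * P.vol + (0 : ℕ) * P.err D A ε₁ e₃)) := by
          rw [Finset.sum_const, nsmul_eq_mul, Finset.card_univ]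
          simp
  | succ j ih =>
    set b := P.err D A ε₁ e₃ with hbdef
    set q : ℝ := 1 + 24 / A with hqdef
    set Nω : ℝ := (Fintype.card (ι → Fin A × Fin r) : ℝ) with hNω
    set Nj : ℝ := (Fintype.card (ι → MgLab A r j) : ℝ) with hNj
    have hNω0 : 0 ≤ Nω := Nat.cast_nonneg _
    have hNj0 : 0 ≤ Nj := Nat.cast_nonneg _
    have hstep : ∀ z₁ : ι → MgLab A r j,
        ∑ ω : ι → Fin A × Fin r, B.cost P μ (B.run P A (j + 1) fun x => (z₁ (cell x), ω (cell x))) ≤
          Nω * (q * B.cost P μ (B.run P A j fun x => z₁ (cell x)) + b) := by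
      intro z₁
      have h := mg_step hB hP (measC_run hB hP A j hcell z₁) hcell hsep hA hstar
      have e : (1 + 24 / (A : ℝ)) * B.cost P μ (B.run P A j fun x => z₁ (cell x)) + (e₃ + 24 * ε₁ * P.vol) / A +
          2 * P.bd ε₁ * (1 + (mgWords D P.p.natDegree).card) * ((mgWords D P.p.natDegree).card : ℝ) ^ 2 *
            P.vol / (A : ℝ) ^ 2 = q * B.cost P μ (B.run P A j fun x => z₁ (cell x)) + b := by
        rw [hbdef, MgPar.err]
        ring
      rw [e] at h
      exact h
    rw [rav_sum_succ, rav_card_succ]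
    calc ∑ z₁ : ι → MgLab A r j, ∑ ω : ι → Fin A × Fin r,
          B.cost P μ (B.run P A (j + 1) fun x => (z₁ (cell x), ω (cell x)))
        ≤ ∑ z₁ : ι → MgLab A r j, Nω * (q * B.cost P μ (B.run P A j fun x => z₁ (cell x)) + b) :=
          Finset.sum_le_sum fun z₁ _ => hstep z₁
      _ = Nω * (q * ∑ z₁ : ι → MgLab A r j, B.cost P μ (B.run P A j fun x => z₁ (cell x)) + Nj * b) := by
          rw [← Finset.mul_sum, Finset.sum_add_distrib, ← Finset.mul_sum, Finset.sum_const, nsmul_eq_mul,
            Finset.card_univ]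
      _ ≤ Nω * (q * (Nj * (q ^ j * (ε₁ * P.vol + j * b))) + Nj * b) := by
          refine mul_le_mul_of_nonneg_left ?_ hNω0
          have := mul_le_mul_of_nonneg_left ih (le_trans zero_le_one hq)
          linarith
      _ ≤ Nj * Nω * (q ^ (j + 1) * (ε₁ * P.vol + ((j + 1 : ℕ) : ℝ) * b)) := by
          have h1 : b ≤ q ^ (j + 1) * b := le_mul_of_one_le_left hb (one_le_pow₀ hq)
          have h2 : Nω * (q * (Nj * (q ^ j * (ε₁ * P.vol + j * b))) + Nj * b) =
              Nj * Nω * (q ^ (j + 1) * (ε₁ * P.vol + j * b) + b) := by ring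
          have h3 : q ^ (j + 1) * (ε₁ * P.vol + ((j + 1 : ℕ) : ℝ) * b) =
              q ^ (j + 1) * (ε₁ * P.vol + j * b) + q ^ (j + 1) * b := by push_cast; ring
          rw [h2, h3]
          exact mul_le_mul_of_nonneg_left (by linarith) (mul_nonneg hNj0 hNω0)

theorem rav_fin_ne_zero_card {A : ℕ} (hA : 0 < A) :
    (Finset.univ.filter fun a : Fin A => ¬ (a : ℕ) = 0).card = A - 1 := by
  have h : (Finset.univ.filter fun a : Fin A => ¬ (a : ℕ) = 0) = Finset.univ.erase ⟨0, hA⟩ := by
    ext a
    simp only [Finset.mem_filter, Finset.mem_univ, true_and, Finset.mem_erase, and_true, ne_eq]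
    exact not_congr ⟨fun h => Fin.ext h, fun h => congrArg Fin.val h⟩
  rw [h, Finset.card_erase_of_mem (Finset.mem_univ _), Finset.card_univ, Fintype.card_fin]

/-- the activation label of one cell is inactive with probability `(A-1)/A` -/
theorem rav_inactive_card {A : ℕ} (hA : 0 < A) (e : ι) :
    A * (Finset.univ.filter fun ω : ι → Fin A × Fin r => ¬ ((ω e).1 : ℕ) = 0).card =
      (A - 1) * Fintype.card (ι → Fin A × Fin r) := by
  have h := mg_avg_one (ι := ι) (Λ := Fin A × Fin r) e fun l => if ¬ (l.1 : ℕ) = 0 then (1 : ℝ) else 0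
  have h1 : ∑ l : Fin A × Fin r, (if ¬ (l.1 : ℕ) = 0 then (1 : ℝ) else 0) = ((A - 1 : ℕ) : ℝ) * r := by
    rw [Fintype.sum_prod_type]
    have h0 : ∀ a : Fin A, ∑ _s : Fin r, (if ¬ (a : ℕ) = 0 then (1 : ℝ) else 0) =
        (r : ℝ) * (if ¬ (a : ℕ) = 0 then (1 : ℝ) else 0) := by
      intro a
      rw [Finset.sum_const, Finset.card_univ, Fintype.card_fin, nsmul_eq_mul]
    rw [Finset.sum_congr rfl fun a _ => h0 a, ← Finset.mul_sum, Finset.sum_boole, rav_fin_ne_zero_card hA]
    ring
  have h2 : ∑ ω : ι → Fin A × Fin r, (if ¬ ((ω e).1 : ℕ) = 0 then (1 : ℝ) else 0) =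
      ((Finset.univ.filter fun ω : ι → Fin A × Fin r => ¬ ((ω e).1 : ℕ) = 0).card : ℝ) := by
    rw [Finset.sum_boole]
  rw [h1, h2, Fintype.card_prod, Fintype.card_fin, Fintype.card_fin] at h
  have h3 : r * (A * (Finset.univ.filter fun ω : ι → Fin A × Fin r => ¬ ((ω e).1 : ℕ) = 0).card) =
      r * ((A - 1) * Fintype.card (ι → Fin A × Fin r)) := by
    have : ((A * r : ℕ) : ℝ) * ((Finset.univ.filter fun ω : ι → Fin A × Fin r => ¬ ((ω e).1 : ℕ) = 0).card : ℝ) =
        (Fintype.card (ι → Fin A × Fin r) : ℝ) * (((A - 1 : ℕ) : ℝ) * r) := h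
    have h4 : A * r * (Finset.univ.filter fun ω : ι → Fin A × Fin r => ¬ ((ω e).1 : ℕ) = 0).card =
        Fintype.card (ι → Fin A × Fin r) * ((A - 1) * r) := by exact_mod_cast this
    calc r * (A * (Finset.univ.filter fun ω : ι → Fin A × Fin r => ¬ ((ω e).1 : ℕ) = 0).card)
        = A * r * (Finset.univ.filter fun ω : ι → Fin A × Fin r => ¬ ((ω e).1 : ℕ) = 0).card := by ring
      _ = Fintype.card (ι → Fin A × Fin r) * ((A - 1) * r) := h4
      _ = r * ((A - 1) * Fintype.card (ι → Fin A × Fin r)) := by ring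
  exact Nat.eq_of_mul_eq_mul_left (Nat.pos_of_ne_zero (NeZero.ne r)) h3

theorem rav_run_succ_none (B : MgBase X D) (P : MgPar) (A j : ℕ) (ℓ : X → MgLab A r (j + 1)) (x : X) :
    B.run P A (j + 1) ℓ x = none ↔ B.run P A j (fun u => (ℓ u).1) x = none ∧ ¬ ((ℓ x).2.1 : ℕ) = 0 := by
  have h : B.run P A (j + 1) ℓ x =
      B.step P (B.run P A j fun u => (ℓ u).1) (fun u => ((ℓ u).2.1 : ℕ) = 0) (fun u => (ℓ u).2.2) x := rfl
  rw [h]
  simp only [step]
  split_ifs with hc
  · simp [hc.2]
  · constructor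
    · intro h0
      exact ⟨h0, fun ha => hc ⟨h0, ha⟩⟩
    · intro h0
      exact h0.1

theorem rav_card_succ_nat (A j : ℕ) :
    Fintype.card (ι → MgLab A r (j + 1)) =
      Fintype.card (ι → MgLab A r j) * Fintype.card (ι → Fin A × Fin r) := by
  have h : Fintype.card (ι → MgLab A r (j + 1)) = Fintype.card (ι → MgLab A r j × (Fin A × Fin r)) := rfl
  rw [h, Fintype.card_fun, Fintype.card_fun, Fintype.card_fun, Fintype.card_prod, mul_pow]

theorem run_none_card (B : MgBase X D) (P : MgPar) {A : ℕ} (hA : 0 < A) (j : ℕ) (x : X) :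
    A ^ j * (Finset.univ.filter fun z : ι → MgLab A r j => B.run P A j (fun u => z (cell u)) x = none).card =
      (A - 1) ^ j * Fintype.card (ι → MgLab A r j) := by
  induction j with
  | zero =>
    have h : (Finset.univ.filter fun z : ι → MgLab A r 0 => B.run P A 0 (fun u => z (cell u)) x = none) =
        Finset.univ := Finset.filter_true_of_mem fun z _ => rfl
    rw [h, Finset.card_univ, pow_zero, pow_zero]
  | succ j ih =>
    have h1 : (Finset.univ.filter fun z : ι → MgLab A r (j + 1) =>
          B.run P A (j + 1) (fun u => z (cell u)) x = none).card =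
        (Finset.univ.filter fun z : ι → MgLab A r j => B.run P A j (fun u => z (cell u)) x = none).card *
          (Finset.univ.filter fun ω : ι → Fin A × Fin r => ¬ ((ω (cell x)).1 : ℕ) = 0).card := by
      rw [Finset.card_filter, Finset.card_filter, Finset.card_filter, rav_sum_succ, Finset.sum_mul_sum]
      refine Finset.sum_congr rfl fun z₁ _ => Finset.sum_congr rfl fun ω _ => ?_
      have h2 := rav_run_succ_none B P A j (fun u => (z₁ (cell u), ω (cell u))) x
      by_cases ha : B.run P A j (fun u => z₁ (cell u)) x = none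
      · by_cases hb : ((ω (cell x)).1 : ℕ) = 0
        · rw [if_neg (fun h => (h2.1 h).2 hb), if_neg (not_not.2 hb), mul_zero]
        · rw [if_pos (h2.2 ⟨ha, hb⟩), if_pos ha, if_pos hb, mul_one]
      · rw [if_neg (fun h => ha (h2.1 h).1), if_neg ha, zero_mul]
    rw [h1, rav_card_succ_nat, pow_succ, pow_succ]
    calc A ^ j * A * ((Finset.univ.filter fun z : ι → MgLab A r j =>
            B.run P A j (fun u => z (cell u)) x = none).card *
          (Finset.univ.filter fun ω : ι → Fin A × Fin r => ¬ ((ω (cell x)).1 : ℕ) = 0).card)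
        = (A ^ j * (Finset.univ.filter fun z : ι → MgLab A r j =>
            B.run P A j (fun u => z (cell u)) x = none).card) *
          (A * (Finset.univ.filter fun ω : ι → Fin A × Fin r => ¬ ((ω (cell x)).1 : ℕ) = 0).card) := by ring
      _ = ((A - 1) ^ j * Fintype.card (ι → MgLab A r j)) *
          ((A - 1) * Fintype.card (ι → Fin A × Fin r)) := by rw [ih, rav_inactive_card hA]
      _ = (A - 1) ^ j * (A - 1) * (Fintype.card (ι → MgLab A r j) * Fintype.card (ι → Fin A × Fin r)) := by
          ring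

/-- the shift of all tie labels and of the last label, on label fields indexed by the cells -/
def ravShift (A N : ℕ) (e : Fin r) (z : ι → MgLab A r N × Fin r) : ι → MgLab A r N × Fin r :=
  fun u => (mgLabShift A r e N (z u).1, (z u).2 + e)

theorem ravShift_bijective (A N : ℕ) (e : Fin r) : Function.Bijective (ravShift (ι := ι) A N e) := by
  have h1 : Function.Bijective (Prod.map (mgLabShift A r e N) (fun s : Fin r => s + e)) :=
    (mgLabShift_bijective A r e N).prodMap (AddGroup.addRight_bijective e)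
  exact ⟨fun z z' h => h1.1.comp_left h, fun z => by
    obtain ⟨z', hz'⟩ := h1.2.comp_left z
    exact ⟨z', hz'⟩⟩

theorem rav_fin_card_shift (hB : B.Good μ K) (hP : P.Good r ε₁) (A N : ℕ) (x : X) (i e : Fin r) :
    (Finset.univ.filter fun z : ι → MgLab A r N × Fin r => B.fin P A N (fun u => z (cell u)) x = i).card =
      (Finset.univ.filter fun z : ι → MgLab A r N × Fin r => B.fin P A N (fun u => z (cell u)) x = i + e).card := by
  refine Finset.card_equiv (Equiv.ofBijective _ (ravShift_bijective (ι := ι) A N e)) fun z => ?_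
  simp only [Finset.mem_filter, Finset.mem_univ, true_and, Equiv.ofBijective_apply]
  have h := fin_shift hB hP A N e (fun u => z (cell u)) x
  have h' : B.fin P A N (fun u => ravShift A N e z (cell u)) x = B.fin P A N (fun u => z (cell u)) x + e := h
  rw [h', add_left_inj]

theorem fin_marginal (hB : B.Good μ K) (hP : P.Good r ε₁) (A N : ℕ) (x : X) (i : Fin r) :
    r * (Finset.univ.filter fun z : ι → MgLab A r N × Fin r => B.fin P A N (fun u => z (cell u)) x = i).card =
      Fintype.card (ι → MgLab A r N × Fin r) := by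
  have h := Finset.card_eq_sum_card_fiberwise (s := (Finset.univ : Finset (ι → MgLab A r N × Fin r)))
    (t := (Finset.univ : Finset (Fin r))) (f := fun z => B.fin P A N (fun u => z (cell u)) x)
    (fun z _ => Finset.mem_coe.2 (Finset.mem_univ _))
  rw [Finset.card_univ] at h
  rw [h]
  have h2 : ∀ i' ∈ (Finset.univ : Finset (Fin r)),
      (Finset.univ.filter fun z : ι → MgLab A r N × Fin r => B.fin P A N (fun u => z (cell u)) x = i').card =
      (Finset.univ.filter fun z : ι → MgLab A r N × Fin r => B.fin P A N (fun u => z (cell u)) x = i).card := by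
    intro i' _
    have := rav_fin_card_shift (cell := cell) hB hP A N x i (i' - i)
    rw [add_sub_cancel] at this
    exact this.symm
  rw [Finset.sum_congr rfl h2, Finset.sum_const, Finset.card_univ, Fintype.card_fin, smul_eq_mul]

end Av

end MgBase

end

end Claimed.Agent.R302
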