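/-
R302 / MG / StarPhase  (helper203): abstract Fubini + pigeonhole lemma used by `mgs_exists_phase` (MG/StarDev.lean).
-/
import Mathlib

set_option autoImplicit false

namespace Claimed.Agent.R302

open MeasureTheory Finset
open scoped BigOperators ENNReal

theorem mgs_phase_abs {X : Type*} [MeasurableSpace X] (ν : Measure X) [IsFiniteMeasure ν] (f : X → ℝ → ℝ → ℝ)
    (hm : Measurable fun q : X × ℝ × ℝ => f q.1 q.2.1 q.2.2) {L C C1 : ℝ} (hL : 0 ≤ L)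
    (h0 : ∀ x s σ, 0 ≤ f x s σ) (h1 : ∀ x s σ, |s| ≤ L → σ ∈ Set.Icc (-1:ℝ) 0 → f x s σ ≤ C1)
    (h : ∀ s, |s| ≤ L → ∫ σ in (-1:ℝ)..0, (∫ x, f x s σ ∂ν) ≤ C) :
    ∃ σ0 ∈ Set.Icc (-1:ℝ) 0, ∫ x, (∫ s in (-L)..L, f x s σ0) ∂ν ≤ 2 * L * C := by
  set ν2 : Measure ℝ := volume.restrict (Set.Ioc (-L) L) with hν2
  set ν3 : Measure ℝ := volume.restrict (Set.Ioc (-1:ℝ) 0) with hν3
  have : IsFiniteMeasure ν2 := ⟨by rw [hν2, Measure.restrict_apply_univ]; exact measure_Ioc_lt_top⟩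
  have : IsProbabilityMeasure ν3 := ⟨by rw [hν3, Measure.restrict_apply_univ]; simp⟩
  have hs2 : ∀ᵐ s ∂ν2, |s| ≤ L := by
    refine (ae_restrict_iff' measurableSet_Ioc).2 (Filter.Eventually.of_forall fun s hs => ?_)
    exact abs_le.2 ⟨hs.1.le, hs.2⟩
  have hs3 : ∀ᵐ σ ∂ν3, σ ∈ Set.Icc (-1:ℝ) 0 := by
    refine (ae_restrict_iff' measurableSet_Ioc).2 (Filter.Eventually.of_forall fun s hs => ?_)
    exact ⟨hs.1.le, hs.2⟩
  -- integrability on the triple product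
  have hint : Integrable (fun q : X × ℝ × ℝ => f q.1 q.2.1 q.2.2) (ν.prod (ν2.prod ν3)) := by
    refine Integrable.of_bound hm.aestronglyMeasurable C1 ?_
    have h23 : ∀ᵐ q ∂(ν2.prod ν3), |q.1| ≤ L ∧ q.2 ∈ Set.Icc (-1:ℝ) 0 := by
      have ha : ∀ᵐ q ∂(ν2.prod ν3), |q.1| ≤ L := Measure.quasiMeasurePreserving_fst.ae hs2
      have hb : ∀ᵐ q ∂(ν2.prod ν3), q.2 ∈ Set.Icc (-1:ℝ) 0 := Measure.quasiMeasurePreserving_snd.ae hs3
      filter_upwards [ha, hb] with q h1 h2 using ⟨h1, h2⟩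
    have h123 : ∀ᵐ q ∂(ν.prod (ν2.prod ν3)), |q.2.1| ≤ L ∧ q.2.2 ∈ Set.Icc (-1:ℝ) 0 :=
      Measure.quasiMeasurePreserving_snd.ae h23
    filter_upwards [h123] with q hq
    rw [Real.norm_eq_abs, abs_of_nonneg (h0 _ _ _)]
    exact h1 _ _ _ hq.1 hq.2
  -- g(s,σ) = ∫ f dν
  have hg : Integrable (fun q : ℝ × ℝ => ∫ x, f x q.1 q.2 ∂ν) (ν2.prod ν3) := hint.integral_prod_right
  -- F
  have hFeq : ∀ σ ∈ Set.Icc (-1:ℝ) 0, ∫ x, (∫ s in (-L)..L, f x s σ) ∂ν = ∫ s, (∫ x, f x s σ ∂ν) ∂ν2 := by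
    intro σ hσ
    have hi : Integrable (fun q : X × ℝ => f q.1 q.2 σ) (ν.prod ν2) := by
      have hm' : Measurable (fun q : X × ℝ => f q.1 q.2 σ) :=
        hm.comp (measurable_fst.prodMk (measurable_snd.prodMk measurable_const))
      refine Integrable.of_bound hm'.aestronglyMeasurable C1 ?_
      have h12 : ∀ᵐ q ∂(ν.prod ν2), |q.2| ≤ L := Measure.quasiMeasurePreserving_snd.ae hs2
      filter_upwards [h12] with q hq
      rw [Real.norm_eq_abs, abs_of_nonneg (h0 _ _ _)]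
      exact h1 _ _ _ hq hσ
    have := integral_integral_swap (f := fun x s => f x s σ) (μ := ν) (ν := ν2) hi
    rw [← this]
    refine integral_congr_ae (Filter.Eventually.of_forall fun x => ?_)
    simp only
    rw [intervalIntegral.integral_of_le (by linarith)]
  have hF : Integrable (fun σ => ∫ s, (∫ x, f x s σ ∂ν) ∂ν2) ν3 := hg.integral_prod_right
  obtain ⟨σ0, hσ0, hle⟩ := exists_notMem_null_le_integral hF (N := (Set.Icc (-1:ℝ) 0)ᶜ) (by
    exact hs3)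
  have hσ0' : σ0 ∈ Set.Icc (-1:ℝ) 0 := by simpa using hσ0
  refine ⟨σ0, hσ0', ?_⟩
  rw [hFeq σ0 hσ0']
  refine hle.trans ?_
  have hsw := integral_integral_swap (f := fun s σ => ∫ x, f x s σ ∂ν) (μ := ν2) (ν := ν3) hg
  rw [← hsw]
  have hI : Integrable (fun s => ∫ σ, (∫ x, f x s σ ∂ν) ∂ν3) ν2 := hg.integral_prod_left
  calc ∫ s, (∫ σ, (∫ x, f x s σ ∂ν) ∂ν3) ∂ν2 ≤ ∫ s, C ∂ν2 := by
        refine integral_mono_ae hI (integrable_const _) ?_
        filter_upwards [hs2] with s hs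
        have := h s hs
        rwa [intervalIntegral.integral_of_le (by norm_num)] at this
    _ = 2 * L * C := by
        rw [integral_const, hν2]
        simp only [Measure.real, Measure.restrict_apply_univ, Real.volume_Ioc, smul_eq_mul]
        rw [ENNReal.toReal_ofReal (by linarith)]
        ring

end Claimed.Agent.R302
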