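/-
R302 / MG / RecoverA   (blueprint: helper203; proofs: helper73)
Real analysis part of `MG/Recover`: the kernels `ψ_η`, the truncated representation `θ` of `x_+` with its explicit errors
`E0 = x arctan (η0 / x) = ∫_0^{η0} ψ`, `E1 = x arctan (x / η1) = ∫_{η1}^∞ ψ`, and sums of monotone functions over interlacing multisets.
Mathlib only.
-/
import Mathlib

set_option autoImplicit false

namespace Claimed.Agent.R302

open Finset Polynomial MeasureTheory
open scoped BigOperators ComplexConjugate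

noncomputable section

/-- the point `iη` -/
def mgsI (η : ℝ) : ℂ := (η : ℂ) * Complex.I

/-- `ψ_η` -/
def mgsPsi (η x : ℝ) : ℝ := x ^ 2 / (x ^ 2 + η ^ 2)

/-- truncated representation of `x_+` -/
def mgsTheta (η0 η1 x : ℝ) : ℝ := x / 2 + (1 / Real.pi) * ∫ η in η0..η1, mgsPsi η x

/-! ### real analysis -/

theorem mgsr_sub_arctan_mono : Monotone fun t : ℝ => t - Real.arctan t := by
  refine monotone_of_deriv_nonneg (differentiable_id.sub Real.differentiable_arctan) fun t => ?_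
  have h : HasDerivAt (fun t : ℝ => t - Real.arctan t) (1 - 1 / (1 + t ^ 2)) t :=
    (hasDerivAt_id t).sub (Real.hasDerivAt_arctan t)
  rw [h.deriv, sub_nonneg, div_le_one (by positivity)]
  nlinarith [sq_nonneg t]

theorem mgsr_arctan_le {t : ℝ} (ht : 0 ≤ t) : Real.arctan t ≤ t := by
  have := mgsr_sub_arctan_mono ht
  simp only [Real.arctan_zero, sub_zero] at this
  linarith

theorem mgsr_psi_hasDerivAt {x : ℝ} (hx : x ≠ 0) (η : ℝ) :
    HasDerivAt (fun η => x * Real.arctan (η / x)) (mgsPsi η x) η := by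
  have h1 : HasDerivAt (fun η : ℝ => η / x) (1 / x) η := (hasDerivAt_id η).div_const x
  have h2 := ((Real.hasDerivAt_arctan (η / x)).comp η h1).const_mul x
  have e : mgsPsi η x = x * (1 / (1 + (η / x) ^ 2) * (1 / x)) := by
    unfold mgsPsi
    have : x ^ 2 + η ^ 2 ≠ 0 := by positivity
    field_simp
  rw [e]
  exact h2

theorem mgsr_psi_cont {x : ℝ} (hx : x ≠ 0) : Continuous fun η => mgsPsi η x := by
  unfold mgsPsi
  refine Continuous.div (by fun_prop) (by fun_prop) fun η => ?_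
  positivity

theorem mgsr_psi_zero (η : ℝ) : mgsPsi η 0 = 0 := by simp [mgsPsi]

theorem mgsr_psi_intervalIntegrable (x a b : ℝ) : IntervalIntegrable (fun η => mgsPsi η x) volume a b := by
  rcases eq_or_ne x 0 with rfl | hx
  · simp only [mgsr_psi_zero]; exact intervalIntegrable_const
  · exact (mgsr_psi_cont hx).intervalIntegrable a b

theorem mgsr_psi_integral (x a b : ℝ) :
    ∫ η in a..b, mgsPsi η x = x * Real.arctan (b / x) - x * Real.arctan (a / x) := by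
  rcases eq_or_ne x 0 with rfl | hx
  · simp [mgsr_psi_zero]
  · exact intervalIntegral.integral_eq_sub_of_hasDerivAt (fun η _ => mgsr_psi_hasDerivAt hx η)
      (mgsr_psi_intervalIntegrable x a b)

theorem mgsr_psi_nonneg (η x : ℝ) : 0 ≤ mgsPsi η x := by unfold mgsPsi; positivity

theorem mgsr_psi_le_one (η x : ℝ) : mgsPsi η x ≤ 1 := by
  unfold mgsPsi
  exact div_le_one_of_le₀ (by nlinarith [sq_nonneg η]) (by positivity)

theorem mgsr_psi_neg (η x : ℝ) : mgsPsi η (-x) = mgsPsi η x := by simp [mgsPsi]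

theorem mgsr_psi_mono (η : ℝ) {x y : ℝ} (hx : 0 ≤ x) (hxy : x ≤ y) : mgsPsi η x ≤ mgsPsi η y := by
  rcases eq_or_lt_of_le hx with rfl | hx'
  · rw [mgsr_psi_zero]; exact mgsr_psi_nonneg _ _
  unfold mgsPsi
  have hy : 0 < y := lt_of_lt_of_le hx' hxy
  rw [div_le_div_iff₀ (by positivity) (by positivity)]
  have : x ^ 2 ≤ y ^ 2 := by nlinarith
  nlinarith [sq_nonneg η, mul_le_mul_of_nonneg_right this (sq_nonneg η)]

/-- the lower error `∫_0^{η0} ψ` -/
def mgsrE0 (η0 x : ℝ) : ℝ := x * Real.arctan (η0 / x)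

/-- the upper error `∫_{η1}^∞ ψ` -/
def mgsrE1 (η1 x : ℝ) : ℝ := x * Real.arctan (x / η1)

theorem mgsr_E0_eq (η0 x : ℝ) : mgsrE0 η0 x = ∫ η in (0:ℝ)..η0, mgsPsi η x := by
  rw [mgsr_psi_integral]; simp [mgsrE0]

theorem mgsr_E0_neg (η0 x : ℝ) : mgsrE0 η0 (-x) = mgsrE0 η0 x := by
  simp [mgsrE0, div_neg, Real.arctan_neg]

theorem mgsr_E1_neg (η1 x : ℝ) : mgsrE1 η1 (-x) = mgsrE1 η1 x := by
  simp [mgsrE1, neg_div, Real.arctan_neg]

theorem mgsr_E0_zero (η0 : ℝ) : mgsrE0 η0 0 = 0 := by simp [mgsrE0]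
theorem mgsr_E1_zero (η1 : ℝ) : mgsrE1 η1 0 = 0 := by simp [mgsrE1]

theorem mgsr_E0_mono {η0 : ℝ} (h0 : 0 ≤ η0) {x y : ℝ} (hx : 0 ≤ x) (hxy : x ≤ y) :
    mgsrE0 η0 x ≤ mgsrE0 η0 y := by
  rw [mgsr_E0_eq, mgsr_E0_eq]
  exact intervalIntegral.integral_mono_on h0 (mgsr_psi_intervalIntegrable _ _ _)
    (mgsr_psi_intervalIntegrable _ _ _) fun η _ => mgsr_psi_mono η hx hxy

theorem mgsr_E0_le {η0 : ℝ} (h0 : 0 ≤ η0) (x : ℝ) : mgsrE0 η0 x ≤ η0 := by
  rw [mgsr_E0_eq]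
  have := intervalIntegral.integral_mono_on h0 (mgsr_psi_intervalIntegrable x 0 η0)
    (intervalIntegrable_const (c := (1:ℝ))) fun η _ => mgsr_psi_le_one η x
  simpa using this

theorem mgsr_E1_mono {η1 : ℝ} (h1 : 0 < η1) {x y : ℝ} (hx : 0 ≤ x) (hxy : x ≤ y) :
    mgsrE1 η1 x ≤ mgsrE1 η1 y := by
  unfold mgsrE1
  have h2 : Real.arctan (x / η1) ≤ Real.arctan (y / η1) :=
    Real.arctan_mono (div_le_div_of_nonneg_right hxy h1.le)
  have h3 : 0 ≤ Real.arctan (x / η1) := Real.arctan_nonneg.2 (div_nonneg hx h1.le)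
  exact mul_le_mul hxy h2 h3 (hx.trans hxy)

/-- `x² / η1 - E1` is monotone on the positive half line -/
theorem mgsr_E1c_mono {η1 : ℝ} (h1 : 0 < η1) {x y : ℝ} (hx : 0 ≤ x) (hxy : x ≤ y) :
    x ^ 2 / η1 - mgsrE1 η1 x ≤ y ^ 2 / η1 - mgsrE1 η1 y := by
  unfold mgsrE1
  have e : ∀ s : ℝ, s ^ 2 / η1 - s * Real.arctan (s / η1) = s * (s / η1 - Real.arctan (s / η1)) := by
    intro s; ring
  rw [e, e]
  have h2 : x / η1 - Real.arctan (x / η1) ≤ y / η1 - Real.arctan (y / η1) :=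
    mgsr_sub_arctan_mono (div_le_div_of_nonneg_right hxy h1.le)
  have h3 : 0 ≤ x / η1 - Real.arctan (x / η1) := sub_nonneg.2 (mgsr_arctan_le (div_nonneg hx h1.le))
  exact mul_le_mul hxy h2 h3 (hx.trans hxy)

theorem mgsr_theta_err {η0 η1 : ℝ} (h1 : 0 < η1) (x : ℝ) :
    max x 0 - mgsTheta η0 η1 x = (1 / Real.pi) * (mgsrE0 η0 x + mgsrE1 η1 x) := by
  have hpi := Real.pi_pos
  unfold mgsTheta mgsrE0 mgsrE1
  rw [mgsr_psi_integral]
  rcases lt_trichotomy x 0 with hx | rfl | hx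
  · have h2 : Real.arctan (η1 / x) = -(Real.pi / 2) - Real.arctan (x / η1) := by
      rw [← Real.arctan_inv_of_neg (div_neg_of_neg_of_pos hx h1), inv_div]
    rw [h2, max_eq_right hx.le]
    field_simp
    ring
  · simp
  · have h2 : Real.arctan (η1 / x) = Real.pi / 2 - Real.arctan (x / η1) := by
      rw [← Real.arctan_inv_of_pos (div_pos hx h1), inv_div]
    rw [h2, max_eq_left hx.le]
    field_simp
    ring

/-- even functions monotone on the positive half line are unimodal -/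
theorem mgsr_unimodal_of_even {h : ℝ → ℝ} (he : ∀ x, h (-x) = h x)
    (hm : ∀ x y, 0 ≤ x → x ≤ y → h x ≤ h y) :
    AntitoneOn h (Set.Iic 0) ∧ MonotoneOn h (Set.Ici 0) := by
  refine ⟨fun x hx y hy hxy => ?_, fun x hx y _ hxy => hm x y hx hxy⟩
  rw [← he x, ← he y]
  exact hm _ _ (neg_nonneg.2 hy) (neg_le_neg hxy)

theorem mgsr_E0_nonneg {η0 : ℝ} (h0 : 0 ≤ η0) (x : ℝ) : 0 ≤ mgsrE0 η0 x := by
  rcases le_total 0 x with hx | hx
  · have := mgsr_E0_mono h0 le_rfl hx; rwa [mgsr_E0_zero] at this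
  · have := mgsr_E0_mono h0 le_rfl (neg_nonneg.2 hx); rwa [mgsr_E0_zero, mgsr_E0_neg] at this

theorem mgsr_E1_nonneg {η1 : ℝ} (h1 : 0 < η1) (x : ℝ) : 0 ≤ mgsrE1 η1 x := by
  rcases le_total 0 x with hx | hx
  · have := mgsr_E1_mono h1 le_rfl hx; rwa [mgsr_E1_zero] at this
  · have := mgsr_E1_mono h1 le_rfl (neg_nonneg.2 hx); rwa [mgsr_E1_zero, mgsr_E1_neg] at this

theorem mgsr_E1_le {η1 : ℝ} (h1 : 0 < η1) (x : ℝ) : mgsrE1 η1 x ≤ x ^ 2 / η1 := by
  rcases le_total 0 x with hx | hx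
  · have := mgsr_E1c_mono h1 le_rfl hx
    rw [mgsr_E1_zero] at this
    simp at this
    linarith
  · have := mgsr_E1c_mono h1 le_rfl (neg_nonneg.2 hx)
    rw [mgsr_E1_zero, mgsr_E1_neg] at this
    simp at this
    linarith

theorem mgs_theta_le {η0 η1 : ℝ} (h0 : 0 < η0) (h1 : η0 ≤ η1) (x : ℝ) : mgsTheta η0 η1 x ≤ max x 0 := by
  have h := mgsr_theta_err (η0 := η0) (lt_of_lt_of_le h0 h1) x
  have h2 : 0 ≤ (1 / Real.pi) * (mgsrE0 η0 x + mgsrE1 η1 x) :=
    mul_nonneg (by positivity) (add_nonneg (mgsr_E0_nonneg h0.le x) (mgsr_E1_nonneg (lt_of_lt_of_le h0 h1) x))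
  linarith

theorem mgs_le_theta {η0 η1 : ℝ} (h0 : 0 < η0) (h1 : η0 ≤ η1) (x : ℝ) :
    max x 0 ≤ mgsTheta η0 η1 x + (η0 + x ^ 2 / η1) / Real.pi := by
  have h := mgsr_theta_err (η0 := η0) (lt_of_lt_of_le h0 h1) x
  have h2 : (1 / Real.pi) * (mgsrE0 η0 x + mgsrE1 η1 x) ≤ (1 / Real.pi) * (η0 + x ^ 2 / η1) :=
    mul_le_mul_of_nonneg_left (add_le_add (mgsr_E0_le h0.le x) (mgsr_E1_le (lt_of_lt_of_le h0 h1) x))
      (by positivity)
  have h3 : (1 / Real.pi) * (η0 + x ^ 2 / η1) = (η0 + x ^ 2 / η1) / Real.pi := by ring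
  linarith

/-! ### interlacing multisets and monotone functions -/

/-- number of elements `> x` -/
def mgsrCnt (A : Multiset ℝ) (x : ℝ) : ℕ := Multiset.card (A.filter fun y => x < y)

theorem mgsr_cnt_cons (a : ℝ) (A : Multiset ℝ) (x : ℝ) :
    mgsrCnt (a ::ₘ A) x = (if x < a then 1 else 0) + mgsrCnt A x := by
  unfold mgsrCnt
  rw [Multiset.filter_cons]
  split_ifs <;> simp [add_comm]

theorem mgsr_cnt_eq_zero {A : Multiset ℝ} {x : ℝ} (h : ∀ a ∈ A, a ≤ x) : mgsrCnt A x = 0 := by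
  unfold mgsrCnt
  rw [Multiset.card_eq_zero, Multiset.filter_eq_nil]
  exact fun a ha => not_lt.2 (h a ha)

theorem mgsr_cnt_pos {A : Multiset ℝ} {x a : ℝ} (ha : a ∈ A) (h : x < a) : 0 < mgsrCnt A x :=
  Multiset.card_pos_iff_exists_mem.2 ⟨a, Multiset.mem_filter.2 ⟨ha, h⟩⟩

theorem mgsr_exists_max {A : Multiset ℝ} (h : 0 < Multiset.card A) : ∃ a ∈ A, ∀ a' ∈ A, a' ≤ a := by
  obtain ⟨a₀, ha₀⟩ := Multiset.card_pos_iff_exists_mem.1 h
  obtain ⟨a, ha, hmax⟩ := Finset.exists_max_image A.toFinset id ⟨a₀, Multiset.mem_toFinset.2 ha₀⟩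
  exact ⟨a, Multiset.mem_toFinset.1 ha, fun a' ha' => hmax a' (Multiset.mem_toFinset.2 ha')⟩

theorem mgsr_interlace_sum {g : ℝ → ℝ} (hg : Monotone g) : ∀ (n : ℕ) (A B : Multiset ℝ),
    Multiset.card B = n → Multiset.card A = n + 1 →
    (∀ x, mgsrCnt B x ≤ mgsrCnt A x ∧ mgsrCnt A x ≤ mgsrCnt B x + 1) →
    (∀ m, (∀ x, m ≤ g x) → m ≤ (A.map g).sum - (B.map g).sum) ∧
      (∀ c, (∀ a ∈ A, a ≤ c) → (A.map g).sum - (B.map g).sum ≤ g c) := by
  intro n
  induction n with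
  | zero =>
    intro A B hB hA _
    rw [Multiset.card_eq_zero] at hB
    obtain ⟨a, rfl⟩ := Multiset.card_eq_one.1 hA
    subst hB
    refine ⟨fun m hm => by simpa using hm a, fun c hc => ?_⟩
    simpa using hg (hc a (Multiset.mem_singleton_self a))
  | succ n ih =>
    intro A B hB hA h
    obtain ⟨a, haA, hamax⟩ := mgsr_exists_max (A := A) (by omega)
    obtain ⟨b, hbB, hbmax⟩ := mgsr_exists_max (A := B) (by omega)
    obtain ⟨A', rfl⟩ := Multiset.exists_cons_of_mem haA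
    obtain ⟨B', rfl⟩ := Multiset.exists_cons_of_mem hbB
    rw [Multiset.card_cons] at hA hB
    have hba : b ≤ a := by
      by_contra hcon
      rw [not_le] at hcon
      have h1 := mgsr_cnt_eq_zero hamax
      have h2 := mgsr_cnt_pos hbB hcon
      have := (h a).1
      omega
    have hint : ∀ x, mgsrCnt B' x ≤ mgsrCnt A' x ∧ mgsrCnt A' x ≤ mgsrCnt B' x + 1 := by
      intro x
      have h1 := h x
      rw [mgsr_cnt_cons, mgsr_cnt_cons] at h1
      by_cases hxb : x < b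
      · rw [if_pos hxb, if_pos (lt_of_lt_of_le hxb hba)] at h1
        omega
      · have h2 : mgsrCnt (b ::ₘ B') x = 0 := mgsr_cnt_eq_zero fun y hy => (hbmax y hy).trans (not_lt.1 hxb)
        rw [mgsr_cnt_cons, if_neg hxb] at h2
        rw [if_neg hxb] at h1
        split_ifs at h1 <;> omega
    have hA'b : ∀ a' ∈ A', a' ≤ b := by
      intro a' ha'
      by_contra hcon
      rw [not_le] at hcon
      have h1 := (h b).2
      have h2 : mgsrCnt (b ::ₘ B') b = 0 := mgsr_cnt_eq_zero hbmax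
      have h3 := mgsr_cnt_pos ha' hcon
      rw [h2, mgsr_cnt_cons, if_pos (lt_of_lt_of_le hcon (hamax a' (Multiset.mem_cons_of_mem ha')))] at h1
      omega
    obtain ⟨ih1, ih2⟩ := ih A' B' (by omega) (by omega) hint
    simp only [Multiset.map_cons, Multiset.sum_cons]
    refine ⟨fun m hm => ?_, fun c hc => ?_⟩
    · have := ih1 m hm
      have := hg hba
      linarith
    · have := ih2 b hA'b
      have := hg (hc a (Multiset.mem_cons_self a A'))
      linarith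

end

end Claimed.Agent.R302
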