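/-
R302 / MG / RecoverB   (blueprint: helper203; proofs: helper73)
`PvData` part of `MG/Recover`, first half: linearity of `ρ`, `df`; the identities `ρ[ψ_η] = 1 - Re (iη G(iη))`, `df[ℓ_η] = log ‖F(iη)‖`,
`df[1]`, `df[x]`, `df[x²]`; the unimodal lemma.
-/
import Claimed.Agent.R302.MG.RecoverA
import Claimed.Agent.R302.Poly.Bounds
import Claimed.Agent.R302.Poly.Pert
import Claimed.Agent.R302.Poly.PertF

set_option autoImplicit false

namespace Claimed.Agent.R302

open Finset Polynomial MeasureTheory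
open scoped BigOperators ComplexConjugate

noncomputable section

/-! ### linearity of root sums -/

theorem mgsr_rootSum_add (P : ℂ[X]) (f g : ℝ → ℝ) :
    pvRootSum P (fun x => f x + g x) = pvRootSum P f + pvRootSum P g := by
  unfold pvRootSum; exact Multiset.sum_map_add

theorem mgsr_rootSum_smul (P : ℂ[X]) (c : ℝ) (f : ℝ → ℝ) :
    pvRootSum P (fun x => c * f x) = c * pvRootSum P f := by
  unfold pvRootSum; exact Multiset.sum_map_mul_left

theorem mgsr_rootSum_const (P : ℂ[X]) (c : ℝ) :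
    pvRootSum P (fun _ => c) = Multiset.card P.roots * c := by
  unfold pvRootSum; simp [Multiset.map_const', Multiset.sum_replicate]

theorem mgsr_rootSum_integral (P : ℂ[X]) (f : ℝ → ℝ → ℝ) (a b : ℝ)
    (hf : ∀ x, IntervalIntegrable (fun η => f η x) volume a b) :
    IntervalIntegrable (fun η => pvRootSum P (f η)) volume a b ∧
      pvRootSum P (fun x => ∫ η in a..b, f η x) = ∫ η in a..b, pvRootSum P (f η) := by
  unfold pvRootSum
  induction P.roots using Multiset.induction_on with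
  | empty => simp
  | cons y s ih =>
    simp only [Multiset.map_cons, Multiset.sum_cons]
    refine ⟨(hf y.re).add ih.1, ?_⟩
    rw [intervalIntegral.integral_add (hf y.re) ih.1, ih.2]

theorem mgsr_rootSum_eq (P : ℂ[X]) (f : ℝ → ℝ) :
    pvRootSum P f = ((P.roots.map Complex.re).map f).sum := by
  unfold pvRootSum; rw [Multiset.map_map]; rfl

theorem mgsr_count_eq (P : ℂ[X]) (x : ℝ) : pvCount P x = mgsrCnt (P.roots.map Complex.re) x := by
  unfold pvCount mgsrCnt
  rw [Multiset.filter_map, Multiset.card_map]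
  rfl

/-! ### kernels on the imaginary axis -/

theorem mgsr_I_im (η : ℝ) : (mgsI η).im = η := by simp [mgsI]

theorem mgsr_I_re (η : ℝ) : (mgsI η).re = 0 := by simp [mgsI]

theorem mgsr_kernel_re {η : ℝ} (hη : 0 < η) (w : ℝ) {μ : ℂ} (hμ : μ.im = 0) :
    (mgsI η * ((w : ℂ) / (mgsI η - μ))).re = w * (1 - mgsPsi η μ.re) := by
  have h : μ.re ^ 2 + η ^ 2 ≠ 0 := by positivity
  simp only [mgsPsi, Complex.mul_re, Complex.div_re, Complex.div_im, Complex.normSq_apply,
    Complex.sub_re, Complex.sub_im, Complex.ofReal_re, Complex.ofReal_im, mgsr_I_im, mgsr_I_re, hμ]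
  have h' : (0 - μ.re) * (0 - μ.re) + (η - 0) * (η - 0) = μ.re ^ 2 + η ^ 2 := by ring
  rw [h']
  field_simp
  ring

theorem mgsr_kernel_im {η : ℝ} (hη : 0 < η) (w : ℝ) {μ : ℂ} (hμ : μ.im = 0) :
    ((w : ℂ) / (mgsI η - μ)).im = -(w * (η / (μ.re ^ 2 + η ^ 2))) := by
  have h : μ.re ^ 2 + η ^ 2 ≠ 0 := by positivity
  simp only [Complex.div_im, Complex.normSq_apply,
    Complex.sub_re, Complex.sub_im, Complex.ofReal_re, Complex.ofReal_im, mgsr_I_im, mgsr_I_re, hμ]
  have h' : (0 - μ.re) * (0 - μ.re) + (η - 0) * (η - 0) = μ.re ^ 2 + η ^ 2 := by ring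
  rw [h']
  field_simp
  ring

theorem mgsr_norm_sub {η : ℝ} {μ : ℂ} (hμ : μ.im = 0) :
    ‖mgsI η - μ‖ = Real.sqrt (μ.re ^ 2 + η ^ 2) := by
  rw [Complex.norm_eq_sqrt_sq_add_sq]
  congr 1
  simp only [Complex.sub_re, Complex.sub_im, mgsr_I_im, mgsr_I_re, hμ]
  ring

theorem mgsr_log_prod {η : ℝ} (hη : 0 < η) (m : Multiset ℂ) (hm : ∀ μ ∈ m, μ.im = 0) :
    (m.map fun μ => mgsI η - μ).prod ≠ 0 ∧
      Real.log ‖(m.map fun μ => mgsI η - μ).prod‖ =
        (m.map fun μ : ℂ => (1 / 2) * Real.log (μ.re ^ 2 + η ^ 2)).sum := by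
  induction m using Multiset.induction_on with
  | empty => simp
  | cons a s ih =>
    obtain ⟨i1, i2⟩ := ih fun μ hμ => hm μ (Multiset.mem_cons_of_mem hμ)
    have ha := hm a (Multiset.mem_cons_self a s)
    have hpos : 0 < a.re ^ 2 + η ^ 2 := by positivity
    have hn : ‖mgsI η - a‖ ≠ 0 := by
      rw [mgsr_norm_sub ha]; exact (Real.sqrt_pos.2 hpos).ne'
    simp only [Multiset.map_cons, Multiset.prod_cons, Multiset.sum_cons]
    refine ⟨mul_ne_zero (norm_ne_zero_iff.1 hn) i1, ?_⟩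
    rw [norm_mul, Real.log_mul hn (norm_ne_zero_iff.2 i1), i2, mgsr_norm_sub ha, Real.log_sqrt hpos.le]
    ring

theorem mgsr_rootSum_log {P : ℂ[X]} (hP : P.Monic) (hr : ∀ μ ∈ P.roots, μ.im = 0) {η : ℝ} (hη : 0 < η) :
    P.eval (mgsI η) ≠ 0 ∧
      pvRootSum P (fun x => (1 / 2) * Real.log (x ^ 2 + η ^ 2)) = Real.log ‖P.eval (mgsI η)‖ := by
  have he : P.eval (mgsI η) = (P.roots.map fun μ => mgsI η - μ).prod :=
    (IsAlgClosed.splits P).eval_eq_prod_roots_of_monic hP _
  obtain ⟨h1, h2⟩ := mgsr_log_prod hη P.roots hr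
  rw [he]
  exact ⟨h1, h2.symm⟩

namespace PvData

variable {V : Type*} [DecidableEq V] {r : ℕ}

/-! ### linearity -/

theorem mgsr_df_add (D : PvData V r) (S : Finset V) (v : V) (f g : ℝ → ℝ) :
    D.df S v (fun x => f x + g x) = D.df S v f + D.df S v g := by
  unfold df; rw [mgsr_rootSum_add, mgsr_rootSum_add]; ring

theorem mgsr_df_smul (D : PvData V r) (S : Finset V) (v : V) (c : ℝ) (f : ℝ → ℝ) :
    D.df S v (fun x => c * f x) = c * D.df S v f := by
  unfold df; rw [mgsr_rootSum_smul, mgsr_rootSum_smul]; ring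

theorem mgsr_df_sub (D : PvData V r) (S : Finset V) (v : V) (f g : ℝ → ℝ) :
    D.df S v (fun x => f x - g x) = D.df S v f - D.df S v g := by
  have e : (fun x => f x - g x) = fun x => f x + (-1) * g x := by funext x; ring
  rw [e, mgsr_df_add, mgsr_df_smul]; ring

theorem mgsr_df_integral (D : PvData V r) (S : Finset V) (v : V) (f : ℝ → ℝ → ℝ) (a b : ℝ)
    (hf : ∀ x, IntervalIntegrable (fun η => f η x) volume a b) :
    IntervalIntegrable (fun η => D.df S v (f η)) volume a b ∧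
      D.df S v (fun x => ∫ η in a..b, f η x) = ∫ η in a..b, D.df S v (f η) := by
  obtain ⟨i1, i2⟩ := mgsr_rootSum_integral (D.poly S) f a b hf
  obtain ⟨j1, j2⟩ := mgsr_rootSum_integral (D.poly (S.erase v)) f a b hf
  unfold df
  exact ⟨i1.sub j1, by rw [i2, j2, intervalIntegral.integral_sub i1 j1]⟩

theorem mgsr_rho_integral (D : PvData V r) (S : Finset V) (v : V) (f : ℝ → ℝ → ℝ) (a b : ℝ)
    (hf : ∀ x, IntervalIntegrable (fun η => f η x) volume a b) :
    D.rho S v (fun x => ∫ η in a..b, f η x) = ∫ η in a..b, D.rho S v (f η) := by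
  unfold rho pvRho
  rw [intervalIntegral.integral_finsetSum (fun μ _ => (hf μ.re).const_mul _)]
  refine Finset.sum_congr rfl fun μ _ => ?_
  rw [intervalIntegral.integral_const_mul]

theorem mgsr_rho_const {D : PvData V r} (hD : D.Good) (hr : 0 < r) {S : Finset V} {v : V} (hv : v ∈ S)
    (c : ℝ) : D.rho S v (fun _ => c) = c := by
  have := rho_smul D S v c (fun _ => 1)
  rw [rho_one hD hr hv] at this
  simpa using this

/-! ### the resolvent -/

theorem mgsr_G_eq {D : PvData V r} (hD : D.Good) (hr : 0 < r) {S : Finset V} {v : V} (hv : v ∈ S)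
    {z : ℂ} (hz : 0 < z.im) :
    D.G S v z = ∑ μ ∈ (D.poly S).roots.toFinset,
      (pvResW (D.poly S) (D.poly (S.erase v)) μ : ℂ) / (z - μ) :=
  (rho_spec hD hr hv).2.2 z (poly_eval_ne_zero hD hr S hz)

theorem mgsr_G_inv (D : PvData V r) (S : Finset V) (v : V) (z : ℂ) : D.G S v z = (D.F S v z)⁻¹ := by
  unfold G F; rw [inv_div]

theorem mgsr_F_inv (D : PvData V r) (S : Finset V) (v : V) (z : ℂ) : D.F S v z = (D.G S v z)⁻¹ := by
  unfold G F; rw [inv_div]

theorem mgsr_G_ne {D : PvData V r} (hD : D.Good) (hr : 0 < r) (S : Finset V) (v : V)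
    {z : ℂ} (hz : 0 < z.im) : D.G S v z ≠ 0 :=
  div_ne_zero (poly_eval_ne_zero hD hr _ hz) (poly_eval_ne_zero hD hr _ hz)

theorem mgsr_F_ne {D : PvData V r} (hD : D.Good) (hr : 0 < r) (S : Finset V) (v : V)
    {z : ℂ} (hz : 0 < z.im) : D.F S v z ≠ 0 :=
  div_ne_zero (poly_eval_ne_zero hD hr _ hz) (poly_eval_ne_zero hD hr _ hz)

theorem mgs_rho_psi {D : PvData V r} (hD : D.Good) (hr : 0 < r) {S : Finset V} {v : V} (hv : v ∈ S)
    {η : ℝ} (hη : 0 < η) : D.rho S v (mgsPsi η) = 1 - (mgsI η * D.G S v (mgsI η)).re := by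
  have hz : 0 < (mgsI η).im := by rw [mgsr_I_im]; exact hη
  have h1 : D.rho S v (fun _ => 1) = 1 := rho_one hD hr hv
  rw [mgsr_G_eq hD hr hv hz, Finset.mul_sum, Complex.re_sum]
  have h2 : ∀ μ ∈ (D.poly S).roots.toFinset,
      (mgsI η * ((pvResW (D.poly S) (D.poly (S.erase v)) μ : ℂ) / (mgsI η - μ))).re =
        pvResW (D.poly S) (D.poly (S.erase v)) μ * 1 -
          pvResW (D.poly S) (D.poly (S.erase v)) μ * mgsPsi η μ.re := by
    intro μ hμ
    rw [mgsr_kernel_re hη _ (poly_roots_real hD hr S μ (Multiset.mem_toFinset.1 hμ))]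
    ring
  rw [Finset.sum_congr rfl h2, Finset.sum_sub_distrib]
  unfold rho pvRho at h1 ⊢
  rw [h1]
  ring

theorem mgs_df_log {D : PvData V r} (hD : D.Good) (hr : 0 < r) {S : Finset V} {v : V} (hv : v ∈ S)
    {η : ℝ} (hη : 0 < η) :
    D.df S v (fun x => (1 / 2) * Real.log (x ^ 2 + η ^ 2)) = Real.log ‖D.F S v (mgsI η)‖ := by
  obtain ⟨h1, h2⟩ := mgsr_rootSum_log (D.poly_monic hr S) (poly_roots_real hD hr S) hη
  obtain ⟨h3, h4⟩ := mgsr_rootSum_log (D.poly_monic hr (S.erase v)) (poly_roots_real hD hr (S.erase v)) hη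
  unfold df F
  rw [h2, h4, norm_div, Real.log_div (norm_ne_zero_iff.2 h1) (norm_ne_zero_iff.2 h3)]

theorem mgs_df_one {D : PvData V r} (hD : D.Good) (hr : 0 < r) {S : Finset V} {v : V} (hv : v ∈ S)
    (c₀ : ℝ) : D.df S v (fun _ => c₀) = c₀ := by
  unfold df
  rw [mgsr_rootSum_const, mgsr_rootSum_const, card_roots D hr, card_roots D hr,
    Finset.card_erase_of_mem hv]
  have h7 := Finset.card_pos.2 ⟨v, hv⟩
  rw [Nat.cast_sub h7]
  push_cast
  ring

theorem mgs_df_id {D : PvData V r} (hD : D.Good) (hr : 0 < r) {S : Finset V} {v : V} (hv : v ∈ S) :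
    D.df S v (fun x => x) = -D.a v := by
  unfold df
  rw [← sum_rho hD hr S, ← sum_rho hD hr (S.erase v),
    Finset.sum_congr rfl fun u hu => rho_id hD hr hu,
    Finset.sum_congr rfl fun u hu => rho_id hD hr hu, ← Finset.add_sum_erase S _ hv]
  ring

theorem mgsr_coll_comm (D : PvData V r) (u v : V) : D.coll u v = D.coll v u := by
  unfold coll; exact Finset.sum_congr rfl fun j _ => mul_comm _ _

theorem mgs_df_sq {D : PvData V r} (hD : D.Good) (hr : 0 < r) {S : Finset V} {v : V} (hv : v ∈ S) :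
    D.df S v (fun x => x ^ 2) = D.a v ^ 2 + 2 * D.kap S v fun _ => 1 := by
  unfold df
  rw [← sum_rho hD hr S, ← sum_rho hD hr (S.erase v),
    Finset.sum_congr rfl fun u hu => rho_sq hD hr hu,
    Finset.sum_congr rfl fun u hu => rho_sq hD hr hu, ← Finset.add_sum_erase S _ hv,
    add_sub_assoc, ← Finset.sum_sub_distrib]
  have h1 : ∀ u ∈ S.erase v, (D.a u ^ 2 + D.kap S u fun _ => 1) -
      (D.a u ^ 2 + D.kap (S.erase v) u fun _ => 1) = D.W v * D.W u * ‖D.T v u‖ ^ 2 * D.coll u v := by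
    intro u hu
    have huS := Finset.mem_of_mem_erase hu
    have hvu : v ∈ S.erase u := Finset.mem_erase.2 ⟨(Finset.ne_of_mem_erase hu).symm, hv⟩
    rw [kap_one hD hr huS, kap_one hD hr hu, Finset.erase_right_comm, ← Finset.add_sum_erase _ _ hvu,
      mgsr_coll_comm D v u, hD.herm u v, RCLike.norm_conj]
    ring
  rw [Finset.sum_congr rfl h1, ← kap_one hD hr hv]
  ring

/-! ### monotone and unimodal test functions -/

theorem mgsr_df_mono {D : PvData V r} (hD : D.Good) (hr : 0 < r) {S : Finset V} {v : V}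
    (hv : v ∈ S) {g : ℝ → ℝ} (hg : Monotone g) :
    (∀ m, (∀ x, m ≤ g x) → m ≤ D.df S v g) ∧ (∀ M, (∀ x, g x ≤ M) → D.df S v g ≤ M) := by
  have hc := Finset.card_pos.2 ⟨v, hv⟩
  have hA : Multiset.card ((D.poly S).roots.map Complex.re) = (S.erase v).card + 1 := by
    rw [Multiset.card_map, card_roots D hr, Finset.card_erase_of_mem hv]; omega
  have hB : Multiset.card ((D.poly (S.erase v)).roots.map Complex.re) = (S.erase v).card := by
    rw [Multiset.card_map, card_roots D hr]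
  obtain ⟨h1, h2⟩ := mgsr_interlace_sum hg _ _ _ hB hA (fun x => by
    rw [← mgsr_count_eq, ← mgsr_count_eq]; exact count_interlace hD hr hv x)
  unfold df
  rw [mgsr_rootSum_eq, mgsr_rootSum_eq]
  refine ⟨h1, fun M hM => ?_⟩
  obtain ⟨c, -, hc⟩ := mgsr_exists_max (A := (D.poly S).roots.map Complex.re) (by omega)
  exact (h2 c hc).trans (hM c)

theorem mgsr_unimodal_split (D : PvData V r) (hD : D.Good) (hr : 0 < r) {S : Finset V} {v : V}
    (hv : v ∈ S) (h : ℝ → ℝ) :
    D.df S v h = D.df S v (fun x => h (max x 0)) - D.df S v (fun x => -h (min x 0)) - h 0 := by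
  have e : h = fun x => (h (max x 0) - -h (min x 0)) - h 0 := by
    funext x
    rcases le_total x 0 with hx | hx
    · rw [max_eq_right hx, min_eq_left hx]; ring
    · rw [max_eq_left hx, min_eq_right hx]; ring
  conv_lhs => rw [e]
  rw [mgsr_df_sub, mgsr_df_sub, mgs_df_one hD hr hv]

/-- unimodal lemma, lower bound (no regularity needed: pair the interlacing roots) -/
theorem mgs_df_unimodal_ge {D : PvData V r} (hD : D.Good) (hr : 0 < r) {S : Finset V} {v : V}
    (hv : v ∈ S) {h : ℝ → ℝ} (h1 : AntitoneOn h (Set.Iic 0)) (h2 : MonotoneOn h (Set.Ici 0)) :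
    h 0 ≤ D.df S v h := by
  have m1 : Monotone fun x => h (max x 0) := fun x y hxy =>
    h2 (Set.mem_Ici.2 (le_max_right _ _)) (Set.mem_Ici.2 (le_max_right _ _)) (max_le_max hxy le_rfl)
  have m2 : Monotone fun x => -h (min x 0) := fun x y hxy =>
    neg_le_neg (h1 (Set.mem_Iic.2 (min_le_right _ _)) (Set.mem_Iic.2 (min_le_right _ _)) (min_le_min hxy le_rfl))
  have b1 := (mgsr_df_mono hD hr hv m1).1 (h 0) fun x =>
    h2 (Set.mem_Ici.2 le_rfl) (Set.mem_Ici.2 (le_max_right _ _)) (le_max_right _ _)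
  have b2 := (mgsr_df_mono hD hr hv m2).2 (-h 0) fun x =>
    neg_le_neg (h1 (Set.mem_Iic.2 (min_le_right _ _)) (Set.mem_Iic.2 le_rfl) (min_le_right _ _))
  rw [mgsr_unimodal_split D hD hr hv h]
  linarith

/-- unimodal lemma, upper bound -/
theorem mgs_df_unimodal_le {D : PvData V r} (hD : D.Good) (hr : 0 < r) {S : Finset V} {v : V}
    (hv : v ∈ S) {h : ℝ → ℝ} (h1 : AntitoneOn h (Set.Iic 0)) (h2 : MonotoneOn h (Set.Ici 0)) {B : ℝ}
    (hB : ∀ x, h x ≤ B) : D.df S v h ≤ 2 * B - h 0 := by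
  have m1 : Monotone fun x => h (max x 0) := fun x y hxy =>
    h2 (Set.mem_Ici.2 (le_max_right _ _)) (Set.mem_Ici.2 (le_max_right _ _)) (max_le_max hxy le_rfl)
  have m2 : Monotone fun x => -h (min x 0) := fun x y hxy =>
    neg_le_neg (h1 (Set.mem_Iic.2 (min_le_right _ _)) (Set.mem_Iic.2 (min_le_right _ _)) (min_le_min hxy le_rfl))
  have b1 := (mgsr_df_mono hD hr hv m1).2 B fun x => hB _
  have b2 := (mgsr_df_mono hD hr hv m2).1 (-B) fun x => neg_le_neg (hB _)
  rw [mgsr_unimodal_split D hD hr hv h]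
  linarith

end PvData

end

end Claimed.Agent.R302
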