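/-
R302 / MG / RecoverC   (blueprint: helper203; proofs: helper73)
`PvData` part of `MG/Recover`, second half: the truncation estimates for `m` and `d`, the formulas for `ρ[θ]`, `df[θ]`,
bounds for `F`, `G`, `Jf` and the formula for the option `i`.
-/
import Claimed.Agent.R302.MG.RecoverB

set_option autoImplicit false

namespace Claimed.Agent.R302

open Finset Polynomial MeasureTheory
open scoped BigOperators ComplexConjugate

noncomputable section

/-- `ℓ_η` -/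
def mgsrEll (η x : ℝ) : ℝ := (1 / 2) * Real.log (x ^ 2 + η ^ 2)

theorem mgsr_ell_continuousOn (x : ℝ) {η0 η1 : ℝ} (h0 : 0 < η0) (h1 : η0 ≤ η1) :
    ContinuousOn (fun η => mgsrEll η x) (Set.uIcc η0 η1) := by
  unfold mgsrEll
  refine ContinuousOn.mul continuousOn_const (ContinuousOn.log (by fun_prop) fun η hη => ?_)
  rw [Set.uIcc_of_le h1] at hη
  have : 0 < η := lt_of_lt_of_le h0 hη.1
  positivity

theorem mgsr_ell_intervalIntegrable (x : ℝ) {η0 η1 : ℝ} (h0 : 0 < η0) (h1 : η0 ≤ η1) :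
    IntervalIntegrable (fun η => mgsrEll η x) volume η0 η1 :=
  (mgsr_ell_continuousOn x h0 h1).intervalIntegrable

theorem mgsr_ell_hasDerivAt (x : ℝ) {η : ℝ} (hη : 0 < η) :
    HasDerivAt (fun η => η * mgsrEll η x) (mgsrEll η x + 1 - mgsPsi η x) η := by
  have hpos : x ^ 2 + η ^ 2 ≠ 0 := by positivity
  have h1 : HasDerivAt (fun η : ℝ => x ^ 2 + η ^ 2) (2 * η) η := by
    have := ((hasDerivAt_id η).pow 2).const_add (x ^ 2)
    simpa using this
  have h2 := ((h1.log hpos).const_mul (1 / 2 : ℝ))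
  have h3 := (hasDerivAt_id η).mul h2
  have e : mgsrEll η x + 1 - mgsPsi η x =
      1 * (1 / 2 * Real.log (x ^ 2 + η ^ 2)) + id η * (1 / 2 * (2 * η / (x ^ 2 + η ^ 2))) := by
    unfold mgsrEll mgsPsi
    simp only [id]
    field_simp
    ring
  rw [e]
  exact h3

/-- identity (3) -/
theorem mgsr_psi_integral_log (x : ℝ) {η0 η1 : ℝ} (h0 : 0 < η0) (h1 : η0 ≤ η1) :
    ∫ η in η0..η1, mgsPsi η x =
      (η1 - η0) - η1 * mgsrEll η1 x + η0 * mgsrEll η0 x + ∫ η in η0..η1, mgsrEll η x := by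
  have i1 := mgsr_ell_intervalIntegrable x h0 h1
  have i2 := mgsr_psi_intervalIntegrable x η0 η1
  have i3 : IntervalIntegrable (fun _ : ℝ => (1 : ℝ)) volume η0 η1 := intervalIntegrable_const
  have h := intervalIntegral.integral_eq_sub_of_hasDerivAt
    (f := fun η => η * mgsrEll η x) (f' := fun η => mgsrEll η x + 1 - mgsPsi η x) (a := η0) (b := η1)
    (fun η hη => by
      rw [Set.uIcc_of_le h1] at hη
      exact mgsr_ell_hasDerivAt x (lt_of_lt_of_le h0 hη.1)) ((i1.add i3).sub i2)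
  rw [intervalIntegral.integral_sub (i1.add i3) i2, intervalIntegral.integral_add i1 i3] at h
  simp only [intervalIntegral.integral_const, smul_eq_mul, mul_one] at h
  linarith

namespace PvData

variable {V : Type*} [DecidableEq V] {r : ℕ}

theorem mgs_m_theta {D : PvData V r} (hD : D.Good) (hr : 0 < r) {S : Finset V} {v : V} (hv : v ∈ S)
    {η0 η1 : ℝ} (h0 : 0 < η0) (h1 : η0 ≤ η1) :
    |D.m S v - D.rho S v (mgsTheta η0 η1)| ≤ (η0 + D.rho S v (fun x => x ^ 2) / η1) / Real.pi := by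
  have hη1 : 0 < η1 := lt_of_lt_of_le h0 h1
  have hpi := Real.pi_pos
  have a1 : D.rho S v (mgsTheta η0 η1) ≤ D.m S v :=
    rho_mono hD hr hv fun x _ => mgs_theta_le h0 h1 x.re
  have a2 : D.m S v ≤
      D.rho S v (fun x => mgsTheta η0 η1 x + (η0 / Real.pi + (1 / (η1 * Real.pi)) * x ^ 2)) :=
    rho_mono hD hr hv fun x _ => by
      have h := mgs_le_theta h0 h1 x.re
      have e : (η0 + x.re ^ 2 / η1) / Real.pi = η0 / Real.pi + (1 / (η1 * Real.pi)) * x.re ^ 2 := by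
        field_simp
      rw [e] at h
      exact h
  rw [rho_add, rho_add, mgsr_rho_const hD hr hv, rho_smul] at a2
  have e : (η0 + D.rho S v (fun x => x ^ 2) / η1) / Real.pi =
      η0 / Real.pi + (1 / (η1 * Real.pi)) * D.rho S v (fun x => x ^ 2) := by
    field_simp
  rw [e, abs_le]
  have hnn : 0 ≤ D.rho S v (fun x => x ^ 2) := by
    have := rho_mono hD hr hv (f := fun _ => 0) (g := fun x => x ^ 2) fun x _ => sq_nonneg _
    rwa [mgsr_rho_const hD hr hv] at this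
  have hnn2 : 0 ≤ η0 / Real.pi + (1 / (η1 * Real.pi)) * D.rho S v (fun x => x ^ 2) := by positivity
  constructor <;> linarith

theorem mgsr_theta_fun (η0 η1 : ℝ) :
    mgsTheta η0 η1 = fun x => (1 / 2) * x + (1 / Real.pi) * ∫ η in η0..η1, mgsPsi η x := by
  funext x; unfold mgsTheta; ring

theorem mgs_rho_theta {D : PvData V r} (hD : D.Good) (hr : 0 < r) {S : Finset V} {v : V} (hv : v ∈ S)
    {η0 η1 : ℝ} (h0 : 0 < η0) (h1 : η0 ≤ η1) :
    D.rho S v (mgsTheta η0 η1) =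
      -D.a v / 2 + (1 / Real.pi) * ∫ η in η0..η1, (1 - (mgsI η * D.G S v (mgsI η)).re) := by
  rw [mgsr_theta_fun, rho_add, rho_smul, rho_smul, rho_id hD hr hv,
    mgsr_rho_integral D S v (fun η x => mgsPsi η x) η0 η1 fun x => mgsr_psi_intervalIntegrable x η0 η1]
  have e : ∫ η in η0..η1, D.rho S v (fun x => mgsPsi η x) =
      ∫ η in η0..η1, (1 - (mgsI η * D.G S v (mgsI η)).re) := by
    refine intervalIntegral.integral_congr fun η hη => ?_
    rw [Set.uIcc_of_le h1] at hη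
    exact mgs_rho_psi hD hr hv (lt_of_lt_of_le h0 hη.1)
  rw [e]
  ring

theorem mgs_d_theta {D : PvData V r} (hD : D.Good) (hr : 0 < r) {S : Finset V} {v : V} (hv : v ∈ S)
    {η0 η1 : ℝ} (h0 : 0 < η0) (h1 : η0 ≤ η1) :
    |D.d S v - D.df S v (mgsTheta η0 η1)| ≤
      (2 * η0 + (D.a v ^ 2 + 2 * D.kap S v fun _ => 1) / η1) / Real.pi := by
  have hη1 : 0 < η1 := lt_of_lt_of_le h0 h1
  have hpi := Real.pi_pos
  have e : (fun x => max x 0 - mgsTheta η0 η1 x) =
      fun x => (1 / Real.pi) * (mgsrE0 η0 x + mgsrE1 η1 x) := funext (mgsr_theta_err hη1)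
  have e1 : D.d S v - D.df S v (mgsTheta η0 η1) =
      (1 / Real.pi) * (D.df S v (mgsrE0 η0) + D.df S v (mgsrE1 η1)) := by
    rw [d_eq_df, ← mgsr_df_sub, e, mgsr_df_smul, mgsr_df_add]
  obtain ⟨u1, u2⟩ := mgsr_unimodal_of_even (mgsr_E0_neg η0) (fun x y => mgsr_E0_mono h0.le)
  obtain ⟨u3, u4⟩ := mgsr_unimodal_of_even (mgsr_E1_neg η1) (fun x y => mgsr_E1_mono hη1)
  obtain ⟨u5, u6⟩ := mgsr_unimodal_of_even (h := fun x => (1 / η1) * x ^ 2 - mgsrE1 η1 x)
    (fun x => by simp only [mgsr_E1_neg, neg_sq]) (fun x y hx hxy => by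
      have := mgsr_E1c_mono hη1 hx hxy
      have e2 : ∀ s : ℝ, (1 / η1) * s ^ 2 = s ^ 2 / η1 := fun s => by ring
      simp only [e2]
      exact this)
  have b1 := mgs_df_unimodal_ge hD hr hv u1 u2
  have b2 := mgs_df_unimodal_le hD hr hv u1 u2 (mgsr_E0_le h0.le)
  have b3 := mgs_df_unimodal_ge hD hr hv u3 u4
  have b4 := mgs_df_unimodal_ge hD hr hv u5 u6
  rw [mgsr_df_sub, mgsr_df_smul, mgs_df_sq hD hr hv] at b4
  simp only [mgsr_E0_zero, mgsr_E1_zero] at b1 b2 b3 b4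
  norm_num at b4
  have e3 : (2 * η0 + (D.a v ^ 2 + 2 * D.kap S v fun _ => 1) / η1) / Real.pi =
      (1 / Real.pi) * (2 * η0 + η1⁻¹ * (D.a v ^ 2 + 2 * D.kap S v fun _ => 1)) := by
    field_simp
  rw [e1, e3, abs_of_nonneg (mul_nonneg (by positivity) (add_nonneg b1 b3))]
  refine mul_le_mul_of_nonneg_left ?_ (by positivity)
  linarith

theorem mgs_df_theta {D : PvData V r} (hD : D.Good) (hr : 0 < r) {S : Finset V} {v : V} (hv : v ∈ S)
    {η0 η1 : ℝ} (h0 : 0 < η0) (h1 : η0 ≤ η1) :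
    D.df S v (mgsTheta η0 η1) =
      -D.a v / 2 + (1 / Real.pi) * ((η1 - η0) - η1 * Real.log ‖D.F S v (mgsI η1)‖
        + η0 * Real.log ‖D.F S v (mgsI η0)‖ + ∫ η in η0..η1, Real.log ‖D.F S v (mgsI η)‖) := by
  have hη1 : 0 < η1 := lt_of_lt_of_le h0 h1
  have e : mgsTheta η0 η1 = fun x => (1 / 2) * x + (1 / Real.pi) *
      ((((η1 - η0) - η1 * mgsrEll η1 x) + η0 * mgsrEll η0 x) + ∫ η in η0..η1, mgsrEll η x) := by
    rw [mgsr_theta_fun]
    funext x
    rw [mgsr_psi_integral_log x h0 h1]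
  have hl : ∀ η, 0 < η → D.df S v (mgsrEll η) = Real.log ‖D.F S v (mgsI η)‖ :=
    fun η hη => mgs_df_log hD hr hv hη
  rw [e, mgsr_df_add, mgsr_df_smul, mgsr_df_smul, mgsr_df_add, mgsr_df_add, mgsr_df_sub, mgsr_df_smul,
    mgsr_df_smul, mgs_df_one hD hr hv, mgs_df_id hD hr hv,
    (mgsr_df_integral D S v (fun η x => mgsrEll η x) η0 η1
      fun x => mgsr_ell_intervalIntegrable x h0 h1).2]
  have e2 : ∫ η in η0..η1, D.df S v (fun x => mgsrEll η x) =
      ∫ η in η0..η1, Real.log ‖D.F S v (mgsI η)‖ := by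
    refine intervalIntegral.integral_congr fun η hη => ?_
    rw [Set.uIcc_of_le h1] at hη
    exact hl η (lt_of_lt_of_le h0 hη.1)
  have e3 := hl η0 h0
  have e4 := hl η1 hη1
  rw [e2]
  change 1 / 2 * -D.a v + 1 / Real.pi * (η1 - η0 - η1 * D.df S v (mgsrEll η1) +
    η0 * D.df S v (mgsrEll η0) + _) = _
  rw [e3, e4]
  ring

theorem mgsr_F_norm_ge {D : PvData V r} (hD : D.Good) (hr : 0 < r) {S : Finset V} {v : V} (hv : v ∈ S)
    {z : ℂ} (hz : 0 < z.im) : z.im ≤ ‖D.F S v z‖ :=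
  (F_im hD hr hv hz).trans ((le_abs_self _).trans (Complex.abs_im_le_norm _))

theorem mgs_F_norm_ge {D : PvData V r} (hD : D.Good) (hr : 0 < r) {S : Finset V} {v : V} (hv : v ∈ S)
    {η : ℝ} (hη : 0 < η) : η ≤ ‖D.F S v (mgsI η)‖ := by
  have := mgsr_F_norm_ge hD hr hv (z := mgsI η) (by rw [mgsr_I_im]; exact hη)
  rwa [mgsr_I_im] at this

theorem mgs_G_norm_le {D : PvData V r} (hD : D.Good) (hr : 0 < r) {S : Finset V} {v : V} (hv : v ∈ S)
    {z : ℂ} (hz : 0 < z.im) : ‖D.G S v z‖ ≤ 1 / z.im := by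
  rw [mgsr_G_inv, norm_inv, one_div]
  exact inv_anti₀ hz (mgsr_F_norm_ge hD hr hv hz)

theorem mgs_G_norm_ge {D : PvData V r} (hD : D.Good) (hr : 0 < r) {S : Finset V} {v : V} (hv : v ∈ S)
    {η M : ℝ} (hη : 0 < η) (hM : D.rho S v (fun x => x ^ 2) ≤ M) :
    3 / 4 * η / (4 * M + η ^ 2) ≤ ‖D.G S v (mgsI η)‖ := by
  have hz : 0 < (mgsI η).im := by rw [mgsr_I_im]; exact hη
  have hw := (rho_spec hD hr hv).1
  have h1 : D.rho S v (fun _ => 1) = 1 := rho_one hD hr hv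
  have hM0 : 0 ≤ M := by
    have := rho_mono hD hr hv (f := fun _ => 0) (g := fun x => x ^ 2) fun x _ => sq_nonneg _
    rw [mgsr_rho_const hD hr hv] at this
    linarith
  have hc : 0 < M + η ^ 2 := by positivity
  -- imaginary part
  have him : (D.G S v (mgsI η)).im = -(η * D.rho S v fun x => 1 / (x ^ 2 + η ^ 2)) := by
    rw [mgsr_G_eq hD hr hv hz, Complex.im_sum]
    unfold rho pvRho
    rw [Finset.mul_sum, ← Finset.sum_neg_distrib]
    refine Finset.sum_congr rfl fun μ hμ => ?_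
    rw [mgsr_kernel_im hη _ (poly_roots_real hD hr S μ (Multiset.mem_toFinset.1 hμ))]
    ring
  -- tangent line
  have ht : D.rho S v (fun x => (1 / (M + η ^ 2) + M / (M + η ^ 2) ^ 2) + (-(1 / (M + η ^ 2) ^ 2)) * x ^ 2) ≤
      D.rho S v fun x => 1 / (x ^ 2 + η ^ 2) := by
    refine rho_mono hD hr hv fun x _ => ?_
    have hx : 0 < x.re ^ 2 + η ^ 2 := by positivity
    have key : 1 / (x.re ^ 2 + η ^ 2) - ((1 / (M + η ^ 2) + M / (M + η ^ 2) ^ 2) +
        (-(1 / (M + η ^ 2) ^ 2)) * x.re ^ 2) =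
        (x.re ^ 2 - M) ^ 2 / ((x.re ^ 2 + η ^ 2) * (M + η ^ 2) ^ 2) := by
      field_simp
      ring
    have : 0 ≤ (x.re ^ 2 - M) ^ 2 / ((x.re ^ 2 + η ^ 2) * (M + η ^ 2) ^ 2) := by positivity
    linarith
  rw [rho_add, mgsr_rho_const hD hr hv, rho_smul] at ht
  have ht2 : 1 / (M + η ^ 2) ≤ D.rho S v fun x => 1 / (x ^ 2 + η ^ 2) := by
    have h3 : 0 ≤ 1 / (M + η ^ 2) ^ 2 * (M - D.rho S v (fun x => x ^ 2)) :=
      mul_nonneg (by positivity) (by linarith)
    have h4 : M / (M + η ^ 2) ^ 2 = 1 / (M + η ^ 2) ^ 2 * M := by ring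
    nlinarith
  have h5 : 3 / 4 * η / (4 * M + η ^ 2) ≤ η * (1 / (M + η ^ 2)) := by
    rw [mul_one_div, div_le_div_iff₀ (by positivity) hc]
    nlinarith [mul_nonneg hη.le hM0, mul_pos hη (sq_pos_of_pos hη)]
  calc 3 / 4 * η / (4 * M + η ^ 2) ≤ η * (1 / (M + η ^ 2)) := h5
    _ ≤ η * D.rho S v fun x => 1 / (x ^ 2 + η ^ 2) := mul_le_mul_of_nonneg_left ht2 hη.le
    _ = -(D.G S v (mgsI η)).im := by rw [him]; ring
    _ ≤ |(D.G S v (mgsI η)).im| := neg_le_abs _
    _ ≤ ‖D.G S v (mgsI η)‖ := Complex.abs_im_le_norm _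

theorem mgs_assign_F {D : PvData V r} (hD : D.Good) (hr : 0 < r) {S : Finset V} {v : V} (hv : v ∈ S)
    (i : Fin r) {z : ℂ} (hz : 0 < z.im) :
    (D.assign v i (80 * D.τ v)).F S v z = z + 80 * D.a v + D.Jf S i v z / D.G S v z := by
  have hG := mgsr_G_ne hD hr S v hz
  have hq := poly_eval_ne_zero hD hr (S.erase v) hz
  unfold Jf
  rw [mul_div_cancel_right₀ _ hG]
  unfold F
  rw [assign_poly D hr hv, assign_poly_erase, cond_poly_erase, Polynomial.eval_add, Polynomial.eval_mul,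
    Polynomial.eval_C]
  unfold a
  push_cast
  field_simp
  ring

theorem mgs_Jf_norm_le {D : PvData V r} (hD : D.Good) (hr : 0 < r) {S : Finset V} {v : V} (hv : v ∈ S)
    (i : Fin r) {z : ℂ} (hz : 0 < z.im) :
    ‖D.Jf S i v z‖ ≤ ((D.cond v i).kap S v fun _ => 1) / z.im ^ 2 := by
  have hD' := cond_good hD v i
  have hk := kap_spec hD' hr hv
  have hq := poly_eval_ne_zero hD' hr (S.erase v) hz
  have h1 := hk.2.2 z hq
  have ha : (D.cond v i).a v = D.a v := rfl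
  have h2 : (D.cond v i).F S v z - z - D.a v =
      -∑ μ ∈ ((D.cond v i).poly (S.erase v)).roots.toFinset,
        (pvResW ((D.cond v i).poly (S.erase v)) ((X + C ((D.cond v i).a v : ℂ)) *
          (D.cond v i).poly (S.erase v) - (D.cond v i).poly S) μ : ℂ) / (z - μ) := by
    rw [← h1, Polynomial.eval_sub, Polynomial.eval_mul, Polynomial.eval_add, Polynomial.eval_X,
      Polynomial.eval_C, ha]
    unfold F
    field_simp
    ring
  have h3 : ‖(D.cond v i).F S v z - z - D.a v‖ ≤ ((D.cond v i).kap S v fun _ => 1) / z.im := by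
    rw [h2, norm_neg]
    refine (norm_sum_le _ _).trans ?_
    unfold kap pvRho
    rw [Finset.sum_div]
    refine Finset.sum_le_sum fun μ hμ => ?_
    have hμ' := poly_roots_real hD' hr (S.erase v) μ (Multiset.mem_toFinset.1 hμ)
    have h4 : z.im ≤ ‖z - μ‖ := by
      have := (le_abs_self _).trans (Complex.abs_im_le_norm (z - μ))
      rwa [Complex.sub_im, hμ', sub_zero] at this
    rw [norm_div, Complex.norm_real, Real.norm_of_nonneg (hk.1 μ), mul_one]
    exact div_le_div_of_nonneg_left (hk.1 μ) hz h4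
  have h5 := mgs_G_norm_le hD hr hv hz
  unfold Jf
  rw [norm_mul]
  calc ‖(D.cond v i).F S v z - z - D.a v‖ * ‖D.G S v z‖
      ≤ (((D.cond v i).kap S v fun _ => 1) / z.im) * (1 / z.im) :=
        mul_le_mul h3 h5 (norm_nonneg _) ((norm_nonneg _).trans h3)
    _ = ((D.cond v i).kap S v fun _ => 1) / z.im ^ 2 := by
        field_simp

end PvData

end

end Claimed.Agent.R302
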