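/-
R302 / MG / Recover   (blueprint: helper203; package MGS-Recover)

COST RECOVERY FROM THE IMAGINARY AXIS (replaces the Poisson / weak compactness part of Q Lemma 6.2).  Finite, no measure theory.

Notation: `D : PvData V r` good, `v ∈ S`, `G = D.G S v`, `F = D.F S v = 1 / G`, `a = D.a v`, `ψ_η(x) = x² / (x² + η²)`,
`ℓ_η(x) = (1/2) log (x² + η²)`.
 (1) `x_+ = x/2 + (1/π) ∫_0^∞ ψ_η(x) dη`;  `0 ≤ ψ_η ≤ min(1, x²/η²)`.
 (2) `ρ[ψ_η] = 1 - Re (iη G(iη))`;  `ρ[x] = -a`.  Hence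
     `|m - (-a/2 + (1/π) ∫_{η0}^{η1} (1 - Re(iη G(iη))) dη)| ≤ (η0 + ρ[x²]/η1)/π`.
 (3) `df[ℓ_η] = log ‖F(iη)‖` (both polynomials are monic with real roots), `df[1] = 1`, `df[x] = -a`, and
     `∫_{η0}^{η1} ψ_η(x) dη = (η1 - η0) - η1 ℓ_{η1}(x) + η0 ℓ_{η0}(x) + ∫_{η0}^{η1} ℓ_η(x) dη`   (derivative of `η ℓ_η(x)` in `η`).
 (4) UNIMODAL LEMMA: `h` even-like (antitone on `x ≤ 0`, monotone on `x ≥ 0`), C¹: `h 0 ≤ df[h] ≤ h(-L) + h(L) - h 0`
     (`df_integral` + `count_interlace`).  Applied to `∫_0^{η0} ψ_η`, `∫_{η1}^∞ ψ_η`, `x²/η1 - ∫_{η1}^∞ ψ_η`: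
     `|d - df[x/2 + (1/π)∫_{η0}^{η1} ψ_η]| ≤ (2 η0 + df[x²]/η1)/π`,  `df[x²] = a² + 2 κ[1]`.
 (5) `‖F(iη)‖ ≥ η` (`F_im`);  `‖G(iη)‖ ≥ |Im G(iη)| = ρ[η/(x²+η²)] ≥ (3/4) η/(4 M + η²)` if `ρ[x²] ≤ M` (Chebyshev).
 (6) option `i`:  `(D.assign v i (80 τ_v)).F S v z = z + 80 a + D.Jf S i v z / D.G S v z`   (`assign_poly`, definition of `Jf`),
     `‖Jf‖ ≤ κ_i[1] / η²`.
The three theorems at the end are what `MG/Compare` consumes.

PROOFS (helper73): the statements of this blueprint are proved in `RecoverA` (real analysis, interlacing multisets), `RecoverB`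
(`mgs_rho_psi`, `mgs_df_log`, `mgs_df_one/id/sq`, unimodal lemma), `RecoverC` (`mgs_m_theta`, `mgs_rho_theta`, `mgs_d_theta`, `mgs_df_theta`,
`mgs_F_norm_ge`, `mgs_G_norm_le/ge`, `mgs_assign_F`, `mgs_Jf_norm_le`), all statements verbatim; this file has the three final theorems.
-/
import Claimed.Agent.R302.MG.RecoverC

set_option autoImplicit false

namespace Claimed.Agent.R302

open Finset Polynomial MeasureTheory
open scoped BigOperators ComplexConjugate

noncomputable section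

/-! ### continuity on the imaginary axis -/

theorem mgsr_I_continuous : Continuous mgsI := by unfold mgsI; fun_prop

theorem mgsr_eval_continuous (P : ℂ[X]) : Continuous fun η => P.eval (mgsI η) :=
  P.continuous.comp mgsr_I_continuous

theorem mgsr_im_pos {η0 η1 η : ℝ} (h0 : 0 < η0) (h1 : η0 ≤ η1) (hη : η ∈ Set.uIcc η0 η1) :
    0 < (mgsI η).im := by
  rw [Set.uIcc_of_le h1] at hη
  rw [mgsr_I_im]
  exact lt_of_lt_of_le h0 hη.1

theorem mgsr_abs_log_sub_le {c x y : ℝ} (hc : 0 < c) (hx : c ≤ x) (hy : c ≤ y) :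
    |Real.log x - Real.log y| ≤ |x - y| / c := by
  have hx0 : 0 < x := lt_of_lt_of_le hc hx
  have hy0 : 0 < y := lt_of_lt_of_le hc hy
  have key : ∀ a b : ℝ, 0 < a → c ≤ b → Real.log a - Real.log b ≤ |a - b| / c := by
    intro a b ha hb
    have hb0 : 0 < b := lt_of_lt_of_le hc hb
    rw [← Real.log_div ha.ne' hb0.ne']
    have h1 := Real.log_le_sub_one_of_pos (div_pos ha hb0)
    have h2 : a / b - 1 = (a - b) / b := by field_simp
    have h3 : (a - b) / b ≤ |a - b| / b := div_le_div_of_nonneg_right (le_abs_self _) hb0.le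
    have h4 : |a - b| / b ≤ |a - b| / c := div_le_div_of_nonneg_left (abs_nonneg _) hc hb
    linarith
  rw [abs_le]
  constructor
  · have := key y x hy0 hx
    rw [abs_sub_comm] at this
    linarith
  · exact key x y hx0 hy

namespace PvData

variable {V : Type*} [DecidableEq V] {r : ℕ}

theorem mgsr_G_continuousOn {D : PvData V r} (hD : D.Good) (hr : 0 < r) (S : Finset V) (v : V)
    {η0 η1 : ℝ} (h0 : 0 < η0) (h1 : η0 ≤ η1) :
    ContinuousOn (fun η => D.G S v (mgsI η)) (Set.uIcc η0 η1) := by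
  unfold G
  exact ContinuousOn.div (mgsr_eval_continuous _).continuousOn (mgsr_eval_continuous _).continuousOn
    fun η hη => poly_eval_ne_zero hD hr S (mgsr_im_pos h0 h1 hη)

theorem mgsr_F_continuousOn {D : PvData V r} (hD : D.Good) (hr : 0 < r) (S : Finset V) (v : V)
    {η0 η1 : ℝ} (h0 : 0 < η0) (h1 : η0 ≤ η1) :
    ContinuousOn (fun η => D.F S v (mgsI η)) (Set.uIcc η0 η1) := by
  unfold F
  exact ContinuousOn.div (mgsr_eval_continuous _).continuousOn (mgsr_eval_continuous _).continuousOn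
    fun η hη => poly_eval_ne_zero hD hr _ (mgsr_im_pos h0 h1 hη)

theorem mgsr_Jf_continuousOn {D : PvData V r} (hD : D.Good) (hr : 0 < r) (S : Finset V) (i : Fin r) (v : V)
    {η0 η1 : ℝ} (h0 : 0 < η0) (h1 : η0 ≤ η1) :
    ContinuousOn (fun η => D.Jf S i v (mgsI η)) (Set.uIcc η0 η1) := by
  unfold Jf
  exact (((mgsr_F_continuousOn (cond_good hD v i) hr S v h0 h1).sub
    mgsr_I_continuous.continuousOn).sub continuousOn_const).mul (mgsr_G_continuousOn hD hr S v h0 h1)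

theorem mgsr_logF_integrable {D : PvData V r} (hD : D.Good) (hr : 0 < r) (S : Finset V) (v : V)
    {η0 η1 : ℝ} (h0 : 0 < η0) (h1 : η0 ≤ η1) :
    IntervalIntegrable (fun η => Real.log ‖D.F S v (mgsI η)‖) volume η0 η1 :=
  (ContinuousOn.log (mgsr_F_continuousOn hD hr S v h0 h1).norm fun η hη =>
    norm_ne_zero_iff.2 (mgsr_F_ne hD hr S v (mgsr_im_pos h0 h1 hη))).intervalIntegrable

/-- the a priori bounds -/
theorem mgsr_apriori {w K t : ℝ} (hK : 1 ≤ K) (ht : 0 < t)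
    {D : PvData V r} (hD : D.Good) (hr : 0 < r) {S : Finset V} {v : V} (hv : v ∈ S)
    (hW : D.W v ≤ w) (hn : ∀ u ∈ S, D.T v u ≠ 0 → D.W u ≤ K * D.W v)
    (hτ : 0 ≤ D.τ v ∧ D.τ v ≤ 80 * t) :
    D.a v ^ 2 ≤ (80 * t * w) ^ 2 ∧ 0 ≤ D.kap S v (fun _ => 1) ∧ D.kap S v (fun _ => 1) ≤ K * w ^ 2 := by
  have hWv := hD.Wpos v
  have hK0 : 0 ≤ K := by linarith
  refine ⟨?_, ?_, ?_⟩
  · have h1 : 0 ≤ D.a v := mul_nonneg hτ.1 hWv.le
    have h2 : D.a v ≤ 80 * t * w := mul_le_mul hτ.2 hW hWv.le (by positivity)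
    exact pow_le_pow_left₀ h1 h2 2
  · unfold kap pvRho
    exact Finset.sum_nonneg fun μ _ => mul_nonneg ((kap_spec hD hr hv).1 μ) zero_le_one
  · refine (kap_one_le hD hr hv hK0 hn).trans ?_
    exact mul_le_mul_of_nonneg_left (pow_le_pow_left₀ hWv.le hW 2) hK0

/-- abstract form of the recovery of the deletion increment -/
theorem mgsr_recover_abs {D : PvData V r} (hD : D.Good) (hr : 0 < r) {S S' : Finset V} {v : V}
    (hv : v ∈ S) (hv' : v ∈ S') {η0 η1 M2 C : ℝ} (h0 : 0 < η0) (h1 : η0 ≤ η1)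
    (hM : D.a v ^ 2 + 2 * D.kap S v (fun _ => 1) ≤ M2)
    (hM' : D.a v ^ 2 + 2 * D.kap S' v (fun _ => 1) ≤ M2)
    {e : ℝ → ℝ} (he : IntervalIntegrable e volume η0 η1)
    (hL : ∀ η ∈ Set.Icc η0 η1,
      |Real.log ‖D.F S v (mgsI η)‖ - Real.log ‖D.F S' v (mgsI η)‖| ≤ C * e η) :
    |D.d S v - D.d S' v| ≤
      C * (η1 + 1) * (e η0 + e η1 + ∫ η in η0..η1, e η) + (2 * η0 + M2 / η1) := by
  have hη1 : 0 < η1 := lt_of_lt_of_le h0 h1
  have hpi := Real.pi_gt_three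
  have hpi0 := Real.pi_pos
  have t1 := mgs_d_theta hD hr hv h0 h1
  have t2 := mgs_d_theta hD hr hv' h0 h1
  have f1 := mgs_df_theta hD hr hv h0 h1
  have f2 := mgs_df_theta hD hr hv' h0 h1
  have i1 := mgsr_logF_integrable hD hr S v h0 h1
  have i2 := mgsr_logF_integrable hD hr S' v h0 h1
  set L := fun η => Real.log ‖D.F S v (mgsI η)‖ with hLdef
  set L' := fun η => Real.log ‖D.F S' v (mgsI η)‖ with hLdef'
  have a0 : |L η0 - L' η0| ≤ C * e η0 := hL η0 ⟨le_rfl, h1⟩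
  have a1 : |L η1 - L' η1| ≤ C * e η1 := hL η1 ⟨h1, le_rfl⟩
  have aI : |(∫ η in η0..η1, L η) - ∫ η in η0..η1, L' η| ≤ C * ∫ η in η0..η1, e η := by
    rw [← intervalIntegral.integral_sub i1 i2, ← intervalIntegral.integral_const_mul]
    refine (intervalIntegral.abs_integral_le_integral_abs h1).trans ?_
    exact intervalIntegral.integral_mono_on h1 (i1.sub i2).abs (he.const_mul C) hL
  have n0 := (abs_nonneg _).trans a0
  have n1 := (abs_nonneg _).trans a1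
  have nI := (abs_nonneg _).trans aI
  -- the middle term
  have hmid : |D.df S v (mgsTheta η0 η1) - D.df S' v (mgsTheta η0 η1)| ≤
      (η1 + 1) * (C * e η0 + C * e η1 + C * ∫ η in η0..η1, e η) := by
    have e1 : D.df S v (mgsTheta η0 η1) - D.df S' v (mgsTheta η0 η1) =
        (1 / Real.pi) * (-(η1 * (L η1 - L' η1)) + η0 * (L η0 - L' η0) +
          ((∫ η in η0..η1, L η) - ∫ η in η0..η1, L' η)) := by
      rw [f1, f2]; ring
    rw [e1, abs_mul, abs_of_pos (by positivity : 0 < 1 / Real.pi)]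
    have b1 : |-(η1 * (L η1 - L' η1)) + η0 * (L η0 - L' η0) +
        ((∫ η in η0..η1, L η) - ∫ η in η0..η1, L' η)| ≤
        η1 * (C * e η1) + η0 * (C * e η0) + C * ∫ η in η0..η1, e η := by
      refine (abs_add_le _ _).trans (add_le_add ((abs_add_le _ _).trans (add_le_add ?_ ?_)) aI)
      · rw [abs_neg, abs_mul, abs_of_pos hη1]
        exact mul_le_mul_of_nonneg_left a1 hη1.le
      · rw [abs_mul, abs_of_pos h0]
        exact mul_le_mul_of_nonneg_left a0 h0.le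
    have b2 : 1 / Real.pi ≤ 1 := by
      rw [div_le_one hpi0]; linarith
    calc 1 / Real.pi * |-(η1 * (L η1 - L' η1)) + η0 * (L η0 - L' η0) +
          ((∫ η in η0..η1, L η) - ∫ η in η0..η1, L' η)|
        ≤ 1 * (η1 * (C * e η1) + η0 * (C * e η0) + C * ∫ η in η0..η1, e η) :=
          mul_le_mul b2 b1 (abs_nonneg _) zero_le_one
      _ ≤ (η1 + 1) * (C * e η0 + C * e η1 + C * ∫ η in η0..η1, e η) := by
          nlinarith [mul_nonneg hη1.le n0, mul_nonneg hη1.le nI, mul_nonneg (sub_nonneg.2 h1) n0]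
  -- the tails
  have htail : ∀ κ : ℝ, D.a v ^ 2 + 2 * κ ≤ M2 →
      (2 * η0 + (D.a v ^ 2 + 2 * κ) / η1) / Real.pi ≤ (2 * η0 + M2 / η1) / 2 := by
    intro κ hκ
    have c1 : (D.a v ^ 2 + 2 * κ) / η1 ≤ M2 / η1 := div_le_div_of_nonneg_right hκ hη1.le
    have c2 : (2 * η0 + (D.a v ^ 2 + 2 * κ) / η1) / Real.pi ≤ (2 * η0 + M2 / η1) / Real.pi :=
      div_le_div_of_nonneg_right (by linarith) hpi0.le
    have c3 : 0 ≤ 2 * η0 + M2 / η1 := by
      have := (abs_nonneg _).trans t1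
      have h5 : 0 ≤ 2 * η0 + (D.a v ^ 2 + 2 * D.kap S v fun _ => 1) / η1 := by
        by_contra hcon
        rw [not_le] at hcon
        have := div_neg_of_neg_of_pos hcon hpi0
        linarith
      have c4 : (D.a v ^ 2 + 2 * D.kap S v fun _ => 1) / η1 ≤ M2 / η1 :=
        div_le_div_of_nonneg_right hM hη1.le
      linarith
    have c5 : (2 * η0 + M2 / η1) / Real.pi ≤ (2 * η0 + M2 / η1) / 2 :=
      div_le_div_of_nonneg_left c3 (by norm_num) (by linarith)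
    linarith
  have s1 := t1.trans (htail _ hM)
  have s2 := t2.trans (htail _ hM')
  have tri : |D.d S v - D.d S' v| ≤ |D.d S v - D.df S v (mgsTheta η0 η1)| +
      |D.df S v (mgsTheta η0 η1) - D.df S' v (mgsTheta η0 η1)| +
      |D.d S' v - D.df S' v (mgsTheta η0 η1)| := by
    have e2 : D.d S v - D.d S' v = (D.d S v - D.df S v (mgsTheta η0 η1)) +
        (D.df S v (mgsTheta η0 η1) - D.df S' v (mgsTheta η0 η1)) -
        (D.d S' v - D.df S' v (mgsTheta η0 η1)) := by ring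
    rw [e2]
    exact (abs_sub _ _).trans (add_le_add (abs_add_le _ _) le_rfl)
  have e3 : C * (η1 + 1) * (e η0 + e η1 + ∫ η in η0..η1, e η) =
      (η1 + 1) * (C * e η0 + C * e η1 + C * ∫ η in η0..η1, e η) := by ring
  rw [e3]
  linarith

end PvData

/-! ### what `MG/Compare` consumes -/

/-- tail of the truncation -/
def mgsTail (η0 η1 w K t : ℝ) : ℝ := 2 * η0 + ((80 * t * w) ^ 2 + 2 * K * w ^ 2) / η1

variable {V : Type*} [DecidableEq V] {r : ℕ}

open PvData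

/-- lower bound of `‖G(iη)‖` on the window -/
theorem mgsr_G_window {η0 η1 M : ℝ} (h0 : 0 < η0) (hM0 : 0 ≤ M)
    {D : PvData V r} (hD : D.Good) (hr : 0 < r) {S : Finset V} {v : V} (hv : v ∈ S)
    (hM : D.rho S v (fun x => x ^ 2) ≤ M) {η : ℝ} (hη : η ∈ Set.Icc η0 η1) :
    3 / 4 * η0 / (4 * M + η1 ^ 2) ≤ ‖D.G S v (mgsI η)‖ := by
  have hη0 : 0 < η := lt_of_lt_of_le h0 hη.1
  refine le_trans ?_ (mgs_G_norm_ge hD hr hv hη0 hM)
  refine div_le_div₀ (by positivity) (by linarith [hη.1]) (by positivity) ?_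
  have : η ^ 2 ≤ η1 ^ 2 := pow_le_pow_left₀ hη0.le hη.2 2
  linarith

/-- rooted cost: comparison of two finite principal sets through `G(iη)`, `η0 ≤ η ≤ η1` -/
theorem mgs_recover_m {η0 η1 w K t : ℝ} (h0 : 0 < η0) (h1 : η0 ≤ η1) (hw : 0 < w) (hK : 1 ≤ K) (ht : 0 < t)
    {D : PvData V r} (hD : D.Good) (hr : 0 < r) {S S' : Finset V} {v : V} (hv : v ∈ S) (hv' : v ∈ S')
    (hW : D.W v ≤ w) (hn : ∀ u ∈ S ∪ S', D.T v u ≠ 0 → D.W u ≤ K * D.W v)
    (hτ : 0 ≤ D.τ v ∧ D.τ v ≤ 80 * t) :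
    |D.m S v - D.m S' v| ≤
      η1 * (∫ η in η0..η1, ‖D.G S v (mgsI η) - D.G S' v (mgsI η)‖) + mgsTail η0 η1 w K t := by
  have hη1 : 0 < η1 := lt_of_lt_of_le h0 h1
  have hpi := Real.pi_gt_three
  have hpi0 := Real.pi_pos
  obtain ⟨a1, k0, k1⟩ := mgsr_apriori hK ht hD hr hv hW
    (fun u hu => hn u (Finset.mem_union_left _ hu)) hτ
  obtain ⟨-, k0', k1'⟩ := mgsr_apriori hK ht hD hr hv' hW
    (fun u hu => hn u (Finset.mem_union_right _ hu)) hτ
  have t1 := mgs_m_theta hD hr hv h0 h1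
  have t2 := mgs_m_theta hD hr hv' h0 h1
  rw [rho_sq hD hr hv] at t1
  rw [rho_sq hD hr hv'] at t2
  have f1 := mgs_rho_theta hD hr hv h0 h1
  have f2 := mgs_rho_theta hD hr hv' h0 h1
  have c1 := mgsr_G_continuousOn hD hr S v h0 h1
  have c2 := mgsr_G_continuousOn hD hr S' v h0 h1
  have i1 : IntervalIntegrable (fun η => 1 - (mgsI η * D.G S v (mgsI η)).re) volume η0 η1 :=
    (continuousOn_const.sub (Complex.continuous_re.comp_continuousOn
      (mgsr_I_continuous.continuousOn.mul c1))).intervalIntegrable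
  have i2 : IntervalIntegrable (fun η => 1 - (mgsI η * D.G S' v (mgsI η)).re) volume η0 η1 :=
    (continuousOn_const.sub (Complex.continuous_re.comp_continuousOn
      (mgsr_I_continuous.continuousOn.mul c2))).intervalIntegrable
  have iN : IntervalIntegrable (fun η => ‖D.G S v (mgsI η) - D.G S' v (mgsI η)‖) volume η0 η1 :=
    (c1.sub c2).norm.intervalIntegrable
  have hI0 : 0 ≤ ∫ η in η0..η1, ‖D.G S v (mgsI η) - D.G S' v (mgsI η)‖ :=
    intervalIntegral.integral_nonneg h1 fun _ _ => norm_nonneg _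
  have hmid : |D.rho S v (mgsTheta η0 η1) - D.rho S' v (mgsTheta η0 η1)| ≤
      η1 * ∫ η in η0..η1, ‖D.G S v (mgsI η) - D.G S' v (mgsI η)‖ := by
    have e1 : D.rho S v (mgsTheta η0 η1) - D.rho S' v (mgsTheta η0 η1) = (1 / Real.pi) *
        ((∫ η in η0..η1, (1 - (mgsI η * D.G S v (mgsI η)).re)) -
          ∫ η in η0..η1, (1 - (mgsI η * D.G S' v (mgsI η)).re)) := by
      rw [f1, f2]; ring
    rw [e1, ← intervalIntegral.integral_sub i1 i2, abs_mul, abs_of_pos (by positivity : 0 < 1 / Real.pi)]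
    have b1 : |∫ η in η0..η1, ((1 - (mgsI η * D.G S v (mgsI η)).re) -
        (1 - (mgsI η * D.G S' v (mgsI η)).re))| ≤
        ∫ η in η0..η1, η1 * ‖D.G S v (mgsI η) - D.G S' v (mgsI η)‖ := by
      refine (intervalIntegral.abs_integral_le_integral_abs h1).trans ?_
      refine intervalIntegral.integral_mono_on h1 (i1.sub i2).abs (iN.const_mul η1) fun η hη => ?_
      have hη0 : 0 < η := lt_of_lt_of_le h0 hη.1
      have e2 : (1 - (mgsI η * D.G S v (mgsI η)).re) - (1 - (mgsI η * D.G S' v (mgsI η)).re) =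
          -(mgsI η * (D.G S v (mgsI η) - D.G S' v (mgsI η))).re := by
        rw [mul_sub, Complex.sub_re]; ring
      rw [e2, abs_neg]
      refine (Complex.abs_re_le_norm _).trans ?_
      rw [norm_mul]
      have e3 : ‖mgsI η‖ = η := by
        unfold mgsI
        rw [norm_mul, Complex.norm_I, mul_one, Complex.norm_real, Real.norm_of_nonneg hη0.le]
      rw [e3]
      exact mul_le_mul_of_nonneg_right hη.2 (norm_nonneg _)
    rw [intervalIntegral.integral_const_mul] at b1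
    have b2 : 1 / Real.pi ≤ 1 := by
      rw [div_le_one hpi0]; linarith
    calc 1 / Real.pi * _ ≤ 1 * (η1 * ∫ η in η0..η1, ‖D.G S v (mgsI η) - D.G S' v (mgsI η)‖) :=
          mul_le_mul b2 b1 (abs_nonneg _) zero_le_one
      _ = _ := one_mul _
  have htail : ∀ κ : ℝ, 0 ≤ κ → κ ≤ K * w ^ 2 →
      (η0 + (D.a v ^ 2 + κ) / η1) / Real.pi ≤ mgsTail η0 η1 w K t / 2 := by
    intro κ hκ0 hκ
    unfold mgsTail
    have hKw : 0 ≤ K * w ^ 2 := hκ0.trans hκ
    have c1 : (D.a v ^ 2 + κ) / η1 ≤ ((80 * t * w) ^ 2 + 2 * K * w ^ 2) / η1 :=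
      div_le_div_of_nonneg_right (by linarith) hη1.le
    have c0 : 0 ≤ (D.a v ^ 2 + κ) / η1 := by positivity
    have c2 : (η0 + (D.a v ^ 2 + κ) / η1) / Real.pi ≤ (η0 + (D.a v ^ 2 + κ) / η1) / 2 :=
      div_le_div_of_nonneg_left (by positivity) (by norm_num) (by linarith)
    linarith
  have s1 := t1.trans (htail _ k0 k1)
  have s2 := t2.trans (htail _ k0' k1')
  have tri : |D.m S v - D.m S' v| ≤ |D.m S v - D.rho S v (mgsTheta η0 η1)| +
      |D.rho S v (mgsTheta η0 η1) - D.rho S' v (mgsTheta η0 η1)| +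
      |D.m S' v - D.rho S' v (mgsTheta η0 η1)| := by
    have e2 : D.m S v - D.m S' v = (D.m S v - D.rho S v (mgsTheta η0 η1)) +
        (D.rho S v (mgsTheta η0 η1) - D.rho S' v (mgsTheta η0 η1)) -
        (D.m S' v - D.rho S' v (mgsTheta η0 η1)) := by ring
    rw [e2]
    exact (abs_sub _ _).trans (add_le_add (abs_add_le _ _) le_rfl)
  linarith

/-- deletion increment -/
theorem mgs_recover_d.{u} {η0 η1 w K t : ℝ} (h0 : 0 < η0) (h1 : η0 ≤ η1) (hw : 0 < w) (hK : 1 ≤ K) (ht : 0 < t) :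
    ∃ A : ℝ, 0 ≤ A ∧ ∀ {V : Type u} [DecidableEq V] {r : ℕ} {D : PvData V r} (_ : D.Good) (_ : 0 < r)
      {S S' : Finset V} {v : V} (_ : v ∈ S)
      (_ : v ∈ S') (_ : D.W v ≤ w) (_ : ∀ u ∈ S ∪ S', D.T v u ≠ 0 → D.W u ≤ K * D.W v)
      (_ : 0 ≤ D.τ v ∧ D.τ v ≤ 80 * t),
      |D.d S v - D.d S' v| ≤
        A * (‖D.G S v (mgsI η0) - D.G S' v (mgsI η0)‖ + ‖D.G S v (mgsI η1) - D.G S' v (mgsI η1)‖ +
          ∫ η in η0..η1, ‖D.G S v (mgsI η) - D.G S' v (mgsI η)‖) + mgsTail η0 η1 w K t := by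
  have hη1 : 0 < η1 := lt_of_lt_of_le h0 h1
  have hK0 : 0 < K := by linarith
  set M := (80 * t * w) ^ 2 + K * w ^ 2 with hMdef
  have hM0 : 0 ≤ M := by positivity
  set g := 3 / 4 * η0 / (4 * M + η1 ^ 2) with hgdef
  have hg : 0 < g := by positivity
  refine ⟨1 / g * (η1 + 1), by positivity, ?_⟩
  intro V _ r D hD hr S S' v hv hv' hW hn hτ
  obtain ⟨a1, k0, k1⟩ := mgsr_apriori hK ht hD hr hv hW
    (fun u hu => hn u (Finset.mem_union_left _ hu)) hτ
  obtain ⟨-, k0', k1'⟩ := mgsr_apriori hK ht hD hr hv' hW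
    (fun u hu => hn u (Finset.mem_union_right _ hu)) hτ
  have c1 := mgsr_G_continuousOn hD hr S v h0 h1
  have c2 := mgsr_G_continuousOn hD hr S' v h0 h1
  have iN : IntervalIntegrable (fun η => ‖D.G S v (mgsI η) - D.G S' v (mgsI η)‖) volume η0 η1 :=
    (c1.sub c2).norm.intervalIntegrable
  have r1 : D.rho S v (fun x => x ^ 2) ≤ M := by rw [rho_sq hD hr hv]; linarith
  have r2 : D.rho S' v (fun x => x ^ 2) ≤ M := by rw [rho_sq hD hr hv']; linarith
  have hL : ∀ η ∈ Set.Icc η0 η1,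
      |Real.log ‖D.F S v (mgsI η)‖ - Real.log ‖D.F S' v (mgsI η)‖| ≤
        1 / g * ‖D.G S v (mgsI η) - D.G S' v (mgsI η)‖ := by
    intro η hη
    have g1 := mgsr_G_window (η1 := η1) h0 hM0 hD hr hv r1 hη
    have g2 := mgsr_G_window (η1 := η1) h0 hM0 hD hr hv' r2 hη
    rw [mgsr_F_inv, mgsr_F_inv, norm_inv, norm_inv, Real.log_inv, Real.log_inv]
    have e1 : -Real.log ‖D.G S v (mgsI η)‖ - -Real.log ‖D.G S' v (mgsI η)‖ =
        -(Real.log ‖D.G S v (mgsI η)‖ - Real.log ‖D.G S' v (mgsI η)‖) := by ring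
    rw [e1, abs_neg]
    refine (mgsr_abs_log_sub_le hg g1 g2).trans ?_
    rw [one_div, inv_mul_eq_div]
    exact div_le_div_of_nonneg_right (abs_norm_sub_norm_le _ _) hg.le
  have := mgsr_recover_abs hD hr hv hv' (M2 := (80 * t * w) ^ 2 + 2 * K * w ^ 2) h0 h1
    (by linarith) (by linarith) iN hL
  exact this

/-- virtual increment of the option `i` at an unassigned site -/
theorem mgs_recover_di.{u} {η0 η1 w K t : ℝ} (h0 : 0 < η0) (h1 : η0 ≤ η1) (hw : 0 < w) (hK : 1 ≤ K) (ht : 0 < t) :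
    ∃ A : ℝ, 0 ≤ A ∧ ∀ {V : Type u} [DecidableEq V] {r : ℕ} {D : PvData V r} (_ : D.Good) (_ : 0 < r)
      {S S' : Finset V} {v : V} (_ : v ∈ S)
      (_ : v ∈ S') (_ : D.W v ≤ w) (_ : ∀ u ∈ S ∪ S', D.T v u ≠ 0 → D.W u ≤ K * D.W v)
      (_ : D.τ v = t) (i : Fin r),
      |(D.assign v i (80 * t)).d S v - (D.assign v i (80 * t)).d S' v| ≤
        A * ((‖D.G S v (mgsI η0) - D.G S' v (mgsI η0)‖ + ‖D.Jf S i v (mgsI η0) - D.Jf S' i v (mgsI η0)‖) +
          (‖D.G S v (mgsI η1) - D.G S' v (mgsI η1)‖ + ‖D.Jf S i v (mgsI η1) - D.Jf S' i v (mgsI η1)‖) +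
          ∫ η in η0..η1, (‖D.G S v (mgsI η) - D.G S' v (mgsI η)‖ +
            ‖D.Jf S i v (mgsI η) - D.Jf S' i v (mgsI η)‖)) + mgsTail η0 η1 w K t := by
  have hη1 : 0 < η1 := lt_of_lt_of_le h0 h1
  have hK0 : 0 < K := by linarith
  set M := (80 * t * w) ^ 2 + K * w ^ 2 with hMdef
  have hM0 : 0 ≤ M := by positivity
  set g := 3 / 4 * η0 / (4 * M + η1 ^ 2) with hgdef
  have hg : 0 < g := by positivity
  set B := K * w ^ 2 / η0 ^ 2 with hBdef
  have hB : 0 ≤ B := by positivity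
  set C := 1 / η0 * (1 / g + B / g ^ 2) with hCdef
  have hC : 0 ≤ C := by positivity
  refine ⟨C * (η1 + 1), by positivity, ?_⟩
  intro V _ r D hD hr S S' v hv hv' hW hn hτ i
  have hτ1 : 0 ≤ D.τ v ∧ D.τ v ≤ 80 * t := by rw [hτ]; constructor <;> linarith
  obtain ⟨a1, k0, k1⟩ := mgsr_apriori hK ht hD hr hv hW
    (fun u hu => hn u (Finset.mem_union_left _ hu)) hτ1
  obtain ⟨-, k0', k1'⟩ := mgsr_apriori hK ht hD hr hv' hW
    (fun u hu => hn u (Finset.mem_union_right _ hu)) hτ1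
  -- the conditioned data
  obtain ⟨-, -, kc'⟩ := mgsr_apriori hK ht (cond_good hD v i) hr hv' (D := D.cond v i) hW
    (fun u hu => hn u (Finset.mem_union_right _ hu)) hτ1
  -- the assigned data
  have hD' := assign_good hD v i (80 * t)
  have hτ' : 0 ≤ (D.assign v i (80 * t)).τ v ∧ (D.assign v i (80 * t)).τ v ≤ 80 * t := by
    have : (D.assign v i (80 * t)).τ v = 80 * t := by simp [assign]
    rw [this]; constructor <;> linarith
  obtain ⟨b1, l0, l1⟩ := mgsr_apriori hK ht hD' hr hv (D := D.assign v i (80 * t)) hW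
    (fun u hu => hn u (Finset.mem_union_left _ hu)) hτ'
  obtain ⟨-, l0', l1'⟩ := mgsr_apriori hK ht hD' hr hv' (D := D.assign v i (80 * t)) hW
    (fun u hu => hn u (Finset.mem_union_right _ hu)) hτ'
  have c1 := mgsr_G_continuousOn hD hr S v h0 h1
  have c2 := mgsr_G_continuousOn hD hr S' v h0 h1
  have c3 := mgsr_Jf_continuousOn hD hr S i v h0 h1
  have c4 := mgsr_Jf_continuousOn hD hr S' i v h0 h1
  have iN : IntervalIntegrable (fun η => ‖D.G S v (mgsI η) - D.G S' v (mgsI η)‖ +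
      ‖D.Jf S i v (mgsI η) - D.Jf S' i v (mgsI η)‖) volume η0 η1 :=
    ((c1.sub c2).norm.add (c3.sub c4).norm).intervalIntegrable
  have r1 : D.rho S v (fun x => x ^ 2) ≤ M := by rw [rho_sq hD hr hv]; linarith
  have r2 : D.rho S' v (fun x => x ^ 2) ≤ M := by rw [rho_sq hD hr hv']; linarith
  have hL : ∀ η ∈ Set.Icc η0 η1,
      |Real.log ‖(D.assign v i (80 * t)).F S v (mgsI η)‖ -
        Real.log ‖(D.assign v i (80 * t)).F S' v (mgsI η)‖| ≤
        C * (‖D.G S v (mgsI η) - D.G S' v (mgsI η)‖ +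
          ‖D.Jf S i v (mgsI η) - D.Jf S' i v (mgsI η)‖) := by
    intro η hη
    have hη0 : 0 < η := lt_of_lt_of_le h0 hη.1
    have hz : 0 < (mgsI η).im := by rw [mgsr_I_im]; exact hη0
    have g1 := mgsr_G_window (η1 := η1) h0 hM0 hD hr hv r1 hη
    have g2 := mgsr_G_window (η1 := η1) h0 hM0 hD hr hv' r2 hη
    have F1 := mgs_assign_F hD hr hv i hz
    have F2 := mgs_assign_F hD hr hv' i hz
    rw [hτ] at F1 F2
    have n1 := hη.1.trans (mgs_F_norm_ge hD' hr hv hη0)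
    have n2 := hη.1.trans (mgs_F_norm_ge hD' hr hv' hη0)
    refine (mgsr_abs_log_sub_le h0 n1 n2).trans ?_
    have hG1 := mgsr_G_ne hD hr S v hz
    have hG2 := mgsr_G_ne hD hr S' v hz
    set G1 := D.G S v (mgsI η) with hG1def
    set G2 := D.G S' v (mgsI η) with hG2def
    set J1 := D.Jf S i v (mgsI η) with hJ1def
    set J2 := D.Jf S' i v (mgsI η) with hJ2def
    have hJ2 : ‖J2‖ ≤ B := by
      refine (mgs_Jf_norm_le hD hr hv' i hz).trans ?_
      rw [mgsr_I_im]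
      exact div_le_div₀ (by positivity) kc' (by positivity) (pow_le_pow_left₀ h0.le hη.1 2)
    have e1 : (D.assign v i (80 * t)).F S v (mgsI η) - (D.assign v i (80 * t)).F S' v (mgsI η) =
        (J1 - J2) / G1 + J2 * (G2 - G1) / (G1 * G2) := by
      rw [F1, F2]
      field_simp
      ring
    have e2 : ‖(J1 - J2) / G1‖ ≤ ‖J1 - J2‖ / g := by
      rw [norm_div]
      exact div_le_div_of_nonneg_left (norm_nonneg _) hg g1
    have e3 : ‖J2 * (G2 - G1) / (G1 * G2)‖ ≤ B * ‖G1 - G2‖ / g ^ 2 := by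
      rw [norm_div, norm_mul, norm_mul, norm_sub_rev G2 G1]
      refine div_le_div₀ (by positivity) (mul_le_mul_of_nonneg_right hJ2 (norm_nonneg _))
        (by positivity) ?_
      rw [sq]
      exact mul_le_mul g1 g2 hg.le (norm_nonneg _)
    have e4 : |‖(D.assign v i (80 * t)).F S v (mgsI η)‖ - ‖(D.assign v i (80 * t)).F S' v (mgsI η)‖| ≤
        ‖J1 - J2‖ / g + B * ‖G1 - G2‖ / g ^ 2 := by
      refine (abs_norm_sub_norm_le _ _).trans ?_
      rw [e1]
      exact (norm_add_le _ _).trans (add_le_add e2 e3)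
    have e5 : ‖J1 - J2‖ / g + B * ‖G1 - G2‖ / g ^ 2 ≤ (1 / g + B / g ^ 2) * (‖G1 - G2‖ + ‖J1 - J2‖) := by
      have p1 : 0 ≤ 1 / g * ‖G1 - G2‖ := by positivity
      have p2 : 0 ≤ B / g ^ 2 * ‖J1 - J2‖ := by positivity
      have q1 : ‖J1 - J2‖ / g = 1 / g * ‖J1 - J2‖ := by ring
      have q2 : B * ‖G1 - G2‖ / g ^ 2 = B / g ^ 2 * ‖G1 - G2‖ := by ring
      rw [q1, q2]
      nlinarith
    calc _ ≤ ((1 / g + B / g ^ 2) * (‖G1 - G2‖ + ‖J1 - J2‖)) / η0 :=
          div_le_div_of_nonneg_right (e4.trans e5) h0.le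
      _ = C * (‖G1 - G2‖ + ‖J1 - J2‖) := by rw [hCdef]; ring
  have := mgsr_recover_abs hD' hr hv hv' (M2 := (80 * t * w) ^ 2 + 2 * K * w ^ 2) h0 h1
    (by linarith) (by linarith) iN hL
  exact this

end

end Claimed.Agent.R302
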