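/-
R302 / MG / StarDefs   (owner: helper203)

Definitions for the STAR chain (window stability => coherent colour), on top of `MG/Defs` (helper244).

BLUEPRINT OF THE CHAIN (all statements are finitary; no infinite volume objects, no limits of measures).
  Recover  (finite)    costs m, d, d^i of two finite principal sets differ by at most
                       A * (field differences |ΔG| + |ΔJ_i| at z = iη, η0 ≤ η ≤ η1) + tail(η0, η1).
  Vitali   (analysis)  quantitative Vitali on a disc (Taylor coefficients + Cauchy estimates); holomorphy of parameter integrals.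
  Field    (measured)  RANK COMPARISON for an abstract local field Φ (= G or J_i):  for R large
                       ∫_U |Φ_{B(v,R) ∩ Q}(v, iη) - Φ_{B(v,R) ∩ (Q \ E)}(v, iη)| dν ≤ sd(η) ν(E) + ε.
  Compare  (measured)  ∫_U |g_Q - g_{Q \ E}| dν ≤ δ + C ε1 for the EXACTLY LOCAL polynomial costs g = M, Df, Dfi as soon as ν(E) ≤ κ(δ);
                       κ does not depend on the upper bound of the weights on Q.
  Window   (lift)      translation covariance; upper cut (Compare), lower cut (locality): phase averaged window stability.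
  Star     (lift)      one phase σ0 by Fubini + Lemma 4.7 at that phase  =>  (STAR).
-/
import Claimed.Agent.R302.MG.Lift
import Claimed.Agent.R302.MG.Cost

set_option autoImplicit false
set_option linter.unusedSectionVars false

namespace Claimed.Agent.R302

open MeasureTheory Finset Polynomial
open scoped BigOperators ComplexConjugate ENNReal

noncomputable section

namespace MgCtx

variable {Y : Type*} [DecidableEq Y] {D r : ℕ}

/-- invariant weighted system with edge ratio `K` -/
structure Inv [MeasurableSpace Y] (C : MgCtx Y D) (ν : Measure Y) (K : ℝ) : Prop where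
  meas : C.Meas
  sfin : SigmaFinite ν
  pres : ∀ k, MeasurePreserving (C.σ k) ν ν
  W_le : ∀ k y, C.W (C.σ k y) ≤ K * C.W y
  one_le : 1 ≤ K
  t_pos : 0 < C.t

/-- the same context with another computation radius -/
def withρ (C : MgCtx Y D) (R : ℕ) : MgCtx Y D := { C with ρ := R }

/-- present sites of the `R`-ball (`C.set Q y = C.setR Q C.ρ y`) -/
def setR (C : MgCtx Y D) (Q : Set Y) (R : ℕ) (y : Y) : Finset Y := (C.withρ R).set Q y

theorem set_eq_setR (C : MgCtx Y D) (Q : Set Y) (y : Y) : C.set Q y = C.setR Q C.ρ y := rfl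

theorem data_withρ (C : MgCtx Y D) (R : ℕ) (c : Y → Option (Fin r)) : (C.withρ R).data c = C.data c := rfl

theorem mem_setR {C : MgCtx Y D} {Q : Set Y} {R : ℕ} {y u : Y} :
    u ∈ C.setR Q R y ↔ u ∈ mgBall C.σ R y ∧ u ∈ Q := by
  classical
  simp [setR, withρ, MgCtx.set]

theorem setR_diff_singleton (C : MgCtx Y D) (Q : Set Y) (R : ℕ) (y u : Y) :
    C.setR (Q \ {u}) R y = (C.setR Q R y).erase u := by
  ext v
  simp only [mem_setR, Finset.mem_erase, Set.mem_diff, Set.mem_singleton_iff]
  tauto

theorem Meas.withρ [MeasurableSpace Y] {C : MgCtx Y D} (hC : C.Meas) (R : ℕ) : (C.withρ R).Meas :=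
  ⟨hC.inv, hC.ker, hC.W_meas, hC.W_pos⟩

theorem Inv.W_ball_le [MeasurableSpace Y] {C : MgCtx Y D} {ν : Measure Y} {K : ℝ} (hC : C.Inv ν K) {R : ℕ}
    {y u : Y} (hu : u ∈ mgBall C.σ R y) : C.W u ≤ K ^ R * C.W y := by
  obtain ⟨w, hw, rfl⟩ := mem_mgBall.1 hu
  have hK0 : 0 ≤ K := zero_le_one.trans hC.one_le
  have h1 : ∀ w : List (Fin D), C.W (mgAct C.σ w y) ≤ K ^ w.length * C.W y := by
    intro w
    induction w with
    | nil => simp [mgAct]
    | cons k w ih =>
      calc C.W (mgAct C.σ (k :: w) y) ≤ K * C.W (mgAct C.σ w y) := hC.W_le k _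
        _ ≤ K * (K ^ w.length * C.W y) := by gcongr
        _ = K ^ (k :: w).length * C.W y := by rw [List.length_cons, pow_succ]; ring
  refine (h1 w).trans ?_
  have := (hC.meas.W_pos y).le
  have h2 : K ^ w.length ≤ K ^ R := pow_le_pow_right₀ hC.one_le hw
  gcongr

theorem Inv.W_ball_ge [MeasurableSpace Y] {C : MgCtx Y D} {ν : Measure Y} {K : ℝ} (hC : C.Inv ν K) {R : ℕ}
    {y u : Y} (hu : u ∈ mgBall C.σ R y) : C.W y ≤ K ^ R * C.W u :=
  hC.W_ball_le (mgBall_symm hC.meas.inv.invol hu)

end MgCtx

/-- the window `a ≤ s ≤ b` in the lift -/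
def mgWin (X : Type*) (a b : ℝ) : Set (X × ℝ) := {y | a ≤ y.2 ∧ y.2 ≤ b}

theorem mgStrip_eq_mgWin (X : Type*) (n : ℝ) : mgStrip X n = mgWin X (-n) n := by
  ext y
  simp [mgStrip, mgWin, abs_le]

theorem mg_measurableSet_win (X : Type*) [MeasurableSpace X] (a b : ℝ) : MeasurableSet (mgWin X a b) := by
  unfold mgWin
  exact (measurableSet_le measurable_const measurable_snd).inter
    (measurableSet_le measurable_snd measurable_const)

theorem mglExp_Icc' {a b : ℝ} (hab : a ≤ b) :
    mglExp (Set.Icc a b) = ENNReal.ofReal (Real.exp b - Real.exp a) := by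
  unfold mglExp
  rw [withDensity_apply _ measurableSet_Icc]
  rw [← ofReal_integral_eq_lintegral_ofReal]
  · rw [integral_Icc_eq_integral_Ioc, ← intervalIntegral.integral_of_le hab, integral_exp]
  · exact (Real.continuous_exp.continuousOn).integrableOn_Icc
  · exact Filter.Eventually.of_forall fun s => (Real.exp_pos s).le

theorem mgLiftμ_win {X : Type*} [MeasurableSpace X] (μ : Measure X) [IsProbabilityMeasure μ] {a b : ℝ}
    (hab : a ≤ b) : mgLiftμ μ (mgWin X a b) = ENNReal.ofReal (Real.exp b - Real.exp a) := by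
  have h1 : mgWin X a b = Set.univ ×ˢ Set.Icc a b := by
    ext y
    simp [mgWin]
  rw [h1]
  change (μ.prod mglExp) _ = _
  rw [Measure.prod_prod, measure_univ, one_mul, mglExp_Icc' hab]

/-- the lift is an invariant weighted system -/
theorem MgBase.ctx_inv {X : Type*} [MeasurableSpace X] [DecidableEq X] {D : ℕ} {B : MgBase X D} {μ : Measure X}
    {K : ℝ} (hB : B.Good μ K) {t : ℝ} (ht : 0 < t) (ρ : ℕ) (p : ℝ[X]) :
    (B.ctx t ρ p).Inv (mgLiftμ μ) K := by
  have := hB.prob
  refine ⟨MgBase.ctx_meas hB t ρ p, ?_, MgBase.lift_mp hB, fun k y => ?_, hB.one_le, ht⟩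
  · unfold mgLiftμ
    have : SigmaFinite ((volume : Measure ℝ).withDensity fun s => ENNReal.ofReal (Real.exp s)) :=
      SigmaFinite.withDensity_ofReal _
    infer_instance
  · change Real.exp (-(y.2 - Real.log (B.δ k y.1))) ≤ K * Real.exp (-y.2)
    have h1 : -(y.2 - Real.log (B.δ k y.1)) = Real.log (B.δ k y.1) + -y.2 := by ring
    rw [h1, Real.exp_add, Real.exp_log (MgBase.δ_pos hB k y.1)]
    have := hB.δ_hi k y.1
    have h2 := (Real.exp_pos (-y.2)).le
    gcongr

end

end Claimed.Agent.R302
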