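/-
R302 / MG / Vitali   (blueprint: helper203; package MGS-Vitali; proofs: helper261)   Mathlib only.

(1) quantitative Vitali theorem on a disc.  Proof: Taylor series at `c` (`Complex.hasSum_taylorSeries_on_ball`), Cauchy estimates
    (`Complex.norm_iteratedDeriv_le_of_forall_mem_sphere_norm_le`) on spheres of radius `< ρ1` and `< ρ2`:
    `|a_j| ≤ min (δ / ρ1'^j) (M / ρ2'^j)`;  split the series at `J`.
(2) holomorphy of parameter integrals (`hasDerivAt_integral_of_dominated_loc_of_deriv_le`, derivative bounded by Cauchy,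
    measurability of the derivative as a limit of difference quotients).
-/
import Mathlib

set_option autoImplicit false
set_option linter.unusedVariables false

namespace Claimed.Agent.R302

open MeasureTheory Metric
open scoped ENNReal

/-- Taylor coefficients: Cauchy estimate for one term of the series -/
theorem mgs_taylor_term_le {c z : ℂ} {ρ ρ2 r C : ℝ} {f : ℂ → ℂ}
    (hf : DifferentiableOn ℂ f (ball c ρ2)) (hzc : ‖z - c‖ ≤ ρ) (hr : 0 < r) (hrρ : r < ρ2)
    (hC : ∀ w ∈ sphere c r, ‖f w‖ ≤ C) (n : ℕ) :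
    ‖(n.factorial : ℂ)⁻¹ • (z - c) ^ n • iteratedDeriv n f c‖ ≤ C * (ρ / r) ^ n := by
  have hd : DiffContOnCl ℂ f (ball c r) := hf.diffContOnCl_ball (closedBall_subset_ball hrρ)
  have hn := Complex.norm_iteratedDeriv_le_of_forall_mem_sphere_norm_le n hr hd hC
  have hfac : (0 : ℝ) < n.factorial := by exact_mod_cast n.factorial_pos
  have h1 : ‖(n.factorial : ℂ)⁻¹ • (z - c) ^ n • iteratedDeriv n f c‖ =
      (n.factorial : ℝ)⁻¹ * (‖z - c‖ ^ n * ‖iteratedDeriv n f c‖) := by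
    rw [norm_smul, norm_smul, norm_inv, norm_pow, Complex.norm_natCast]
  rw [h1]
  have h2 : ‖z - c‖ ^ n ≤ ρ ^ n := pow_le_pow_left₀ (norm_nonneg _) hzc n
  have hρ : 0 ≤ ρ := (norm_nonneg _).trans hzc
  calc (n.factorial : ℝ)⁻¹ * (‖z - c‖ ^ n * ‖iteratedDeriv n f c‖)
      ≤ (n.factorial : ℝ)⁻¹ * (ρ ^ n * (n.factorial * C / r ^ n)) :=
        mul_le_mul_of_nonneg_left (mul_le_mul h2 hn (norm_nonneg _) (pow_nonneg hρ n))
          (inv_nonneg.mpr hfac.le)
    _ = C * (ρ / r) ^ n := by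
        rw [div_pow]
        field_simp

/-- a series dominated by two geometric series, split at `J` -/
theorem mgs_series_le {t : ℕ → ℂ} {a : ℂ} (hsum : HasSum t a) {δ M s q : ℝ} (hq0 : 0 ≤ q)
    (hq1 : q < 1) (hb1 : ∀ n, ‖t n‖ ≤ δ * s ^ n) (hb2 : ∀ n, ‖t n‖ ≤ M * q ^ n) (J : ℕ) :
    ‖a‖ ≤ δ * ∑ j ∈ Finset.range J, s ^ j + M * q ^ J / (1 - q) := by
  have hgeo : Summable fun n : ℕ => M * q ^ n := (summable_geometric_of_lt_one hq0 hq1).mul_left M
  have hsummable : Summable fun n => ‖t n‖ :=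
    Summable.of_nonneg_of_le (fun n => norm_nonneg _) hb2 hgeo
  have htail : ∑' n, ‖t (n + J)‖ ≤ M * q ^ J / (1 - q) := by
    have h3 : ∑' n : ℕ, M * q ^ (n + J) = M * q ^ J / (1 - q) := by
      have : ∀ n : ℕ, M * q ^ (n + J) = (M * q ^ J) * q ^ n := fun n => by rw [pow_add]; ring
      simp_rw [this]
      rw [tsum_mul_left, tsum_geometric_of_lt_one hq0 hq1]
      exact (div_eq_mul_inv _ _).symm
    rw [← h3]
    exact Summable.tsum_le_tsum (fun n => hb2 (n + J)) ((summable_nat_add_iff J).mpr hsummable)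
      ((summable_nat_add_iff J).mpr hgeo)
  have hhead : ∑ n ∈ Finset.range J, ‖t n‖ ≤ δ * ∑ j ∈ Finset.range J, s ^ j := by
    rw [Finset.mul_sum]
    exact Finset.sum_le_sum fun n _ => hb1 n
  calc ‖a‖ = ‖∑' n, t n‖ := by rw [hsum.tsum_eq]
    _ ≤ ∑' n, ‖t n‖ := norm_tsum_le_tsum_norm hsummable
    _ = ∑ n ∈ Finset.range J, ‖t n‖ + ∑' n, ‖t (n + J)‖ := (hsummable.sum_add_tsum_nat_add J).symm
    _ ≤ _ := add_le_add hhead htail

/-- two radii estimate -/
theorem mgs_two_radii {c z : ℂ} {ρ ρ2 r1 r2 δ M : ℝ} {f : ℂ → ℂ}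
    (hf : DifferentiableOn ℂ f (ball c ρ2)) (hzc : ‖z - c‖ ≤ ρ) (hr1 : 0 < r1) (hr1ρ : r1 < ρ2)
    (hρr2 : ρ < r2) (hr2ρ : r2 < ρ2) (h1 : ∀ w ∈ sphere c r1, ‖f w‖ ≤ δ)
    (h2 : ∀ w ∈ sphere c r2, ‖f w‖ ≤ M) (J : ℕ) :
    ‖f z‖ ≤ δ * ∑ j ∈ Finset.range J, (ρ / r1) ^ j + M * (ρ / r2) ^ J / (1 - ρ / r2) := by
  have hρ : 0 ≤ ρ := (norm_nonneg _).trans hzc
  have hr2 : 0 < r2 := lt_of_le_of_lt hρ hρr2
  have hzb : z ∈ ball c ρ2 := by
    rw [mem_ball, dist_eq_norm]
    linarith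
  exact mgs_series_le (Complex.hasSum_taylorSeries_on_ball hf hzb) (div_nonneg hρ hr2.le)
    ((div_lt_one hr2).mpr hρr2) (mgs_taylor_term_le hf hzc hr1 hr1ρ h1)
    (mgs_taylor_term_le hf hzc hr2 hr2ρ h2) J

/-- quantitative Vitali -/
theorem mgs_vitali (c : ℂ) {ρ1 ρ ρ2 M ε : ℝ} (h1 : 0 < ρ1) (h2 : ρ < ρ2) (hM : 0 ≤ M) (hε : 0 < ε) :
    ∃ δ : ℝ, 0 < δ ∧ ∀ f : ℂ → ℂ, DifferentiableOn ℂ f (ball c ρ2) → (∀ z ∈ ball c ρ2, ‖f z‖ ≤ M) →
      (∀ z ∈ ball c ρ1, ‖f z‖ ≤ δ) → ∀ z ∈ closedBall c ρ, ‖f z‖ ≤ ε := by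
  rcases lt_or_ge ρ 0 with hρ | hρ
  · refine ⟨1, one_pos, fun f _ _ _ z hz => ?_⟩
    rw [closedBall_eq_empty.mpr hρ] at hz
    exact absurd hz (Set.notMem_empty z)
  obtain ⟨r2, hr2a, hr2b⟩ := exists_between h2
  have hr2pos : 0 < r2 := lt_of_le_of_lt hρ hr2a
  obtain ⟨r1, hr1pos, hr1m⟩ := exists_between (lt_min h1 hr2pos)
  have hr1a : r1 < ρ1 := hr1m.trans_le (min_le_left _ _)
  have hr1b : r1 < ρ2 := (hr1m.trans_le (min_le_right _ _)).trans hr2b
  have hq0 : 0 ≤ ρ / r2 := div_nonneg hρ hr2pos.le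
  have hq1 : ρ / r2 < 1 := (div_lt_one hr2pos).mpr hr2a
  have hs0 : 0 ≤ ρ / r1 := div_nonneg hρ hr1pos.le
  obtain ⟨J, hJ⟩ : ∃ J : ℕ, M * (ρ / r2) ^ J / (1 - ρ / r2) < ε / 2 := by
    have h : Filter.Tendsto (fun J : ℕ => M * (ρ / r2) ^ J / (1 - ρ / r2)) Filter.atTop
        (nhds (M * 0 / (1 - ρ / r2))) :=
      ((tendsto_pow_atTop_nhds_zero_of_lt_one hq0 hq1).const_mul M).div_const _
    rw [mul_zero, zero_div] at h
    exact (h.eventually (gt_mem_nhds (half_pos hε))).exists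
  have hK0 : 0 ≤ ∑ j ∈ Finset.range J, (ρ / r1) ^ j :=
    Finset.sum_nonneg fun j _ => pow_nonneg hs0 j
  refine ⟨ε / (2 * (∑ j ∈ Finset.range J, (ρ / r1) ^ j + 1)), by positivity, ?_⟩
  intro f hf hfM hfδ z hz
  have hzc : ‖z - c‖ ≤ ρ := by
    rw [mem_closedBall, dist_eq_norm] at hz
    exact hz
  have h := mgs_two_radii hf hzc hr1pos hr1b hr2a hr2b
    (fun w hw => hfδ w (sphere_subset_closedBall.trans (closedBall_subset_ball hr1a) hw))
    (fun w hw => hfM w (sphere_subset_closedBall.trans (closedBall_subset_ball hr2b) hw)) J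
  generalize (∑ j ∈ Finset.range J, (ρ / r1) ^ j) = K at hK0 h
  have hδK : ε / (2 * (K + 1)) * K ≤ ε / 2 := by
    rw [div_mul_eq_mul_div, div_le_iff₀ (by positivity)]
    nlinarith
  linarith

/-- holomorphy of parameter integrals -/
theorem mgs_differentiableOn_integral {Y : Type*} [MeasurableSpace Y] (ν : Measure Y) {Ω : Set ℂ}
    (hΩ : IsOpen Ω) (F : Y → ℂ → ℂ) (hmeas : ∀ z ∈ Ω, AEStronglyMeasurable (fun y => F y z) ν)
    (hdiff : ∀ y, DifferentiableOn ℂ (F y) Ω) (bound : Y → ℝ) (hb : Integrable bound ν)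
    (hle : ∀ y, ∀ z ∈ Ω, ‖F y z‖ ≤ bound y) :
    DifferentiableOn ℂ (fun z => ∫ y, F y z ∂ν) Ω := by
  intro z0 hz0
  obtain ⟨R, hR, hball⟩ := Metric.isOpen_iff.mp hΩ z0 hz0
  set r := R / 2 with hr
  have hrpos : 0 < r := by rw [hr]; linarith
  have hsub : ball z0 r ⊆ Ω := (ball_subset_ball (by rw [hr]; linarith)).trans hball
  have hderiv : ∀ y, ∀ z ∈ Ω, HasDerivAt (F y) (deriv (F y) z) z := fun y z hz =>
    ((hdiff y).differentiableAt (hΩ.mem_nhds hz)).hasDerivAt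
  -- measurability of the derivative
  have hF'meas : AEStronglyMeasurable (fun y => deriv (F y) z0) ν := by
    set h : ℕ → ℂ := fun n => ((r / (n + 2) : ℝ) : ℂ) with hh
    have hpos : ∀ n : ℕ, 0 < r / ((n : ℝ) + 2) := fun n => by positivity
    have hh0 : ∀ n, h n ≠ 0 := fun n => by
      simp only [hh, ne_eq, Complex.ofReal_eq_zero]
      exact (hpos n).ne'
    have hhmem : ∀ n, z0 + h n ∈ Ω := fun n => by
      apply hsub
      rw [mem_ball, dist_eq_norm, add_sub_cancel_left]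
      simp only [hh, Complex.norm_real, Real.norm_eq_abs, abs_of_pos (hpos n)]
      rw [div_lt_iff₀ (by positivity)]
      have : (0 : ℝ) ≤ n := Nat.cast_nonneg n
      nlinarith
    have hlim : Filter.Tendsto h Filter.atTop (nhdsWithin 0 {0}ᶜ) := by
      rw [tendsto_nhdsWithin_iff]
      refine ⟨?_, Filter.Eventually.of_forall fun n => hh0 n⟩
      have h1 : Filter.Tendsto (fun n : ℕ => r / ((n : ℝ) + 2)) Filter.atTop (nhds 0) :=
        Filter.Tendsto.div_atTop tendsto_const_nhds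
          (Filter.tendsto_atTop_add_const_right _ _ tendsto_natCast_atTop_atTop)
      have h2 : Filter.Tendsto (fun n : ℕ => ((r / ((n : ℝ) + 2) : ℝ) : ℂ)) Filter.atTop
          (nhds ((0 : ℝ) : ℂ)) := (Complex.continuous_ofReal.tendsto 0).comp h1
      rw [Complex.ofReal_zero] at h2
      exact h2
    refine aestronglyMeasurable_of_tendsto_ae Filter.atTop
      (f := fun n y => (h n)⁻¹ • (F y (z0 + h n) - F y z0)) (fun n => ?_)
      (Filter.Eventually.of_forall fun y => ?_)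
    · exact AEStronglyMeasurable.const_smul (f := fun y => F y (z0 + h n) - F y z0)
        ((hmeas _ (hhmem n)).sub (hmeas z0 hz0)) ((h n)⁻¹)
    · exact (hderiv y z0 hz0).tendsto_slope_zero.comp hlim
  have key := hasDerivAt_integral_of_dominated_loc_of_deriv_le (μ := ν) (F := fun z y => F y z)
    (F' := fun z y => deriv (F y) z) (x₀ := z0) (s := ball z0 r) (bound := fun y => bound y / r)
    (ball_mem_nhds z0 hrpos)
    (Filter.eventually_of_mem (hΩ.mem_nhds hz0) fun z hz => hmeas z hz)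
    (hb.mono' (hmeas z0 hz0) (Filter.Eventually.of_forall fun y => hle y z0 hz0))
    hF'meas
    (Filter.Eventually.of_forall fun y z hz => by
      have hcl : closedBall z r ⊆ Ω := by
        refine Set.Subset.trans (fun w hw => ?_) hball
        rw [mem_ball] at hz ⊢
        rw [mem_closedBall] at hw
        calc dist w z0 ≤ dist w z + dist z z0 := dist_triangle _ _ _
          _ < r + r := by linarith
          _ = R := by rw [hr]; ring
      exact Complex.norm_deriv_le_of_forall_mem_sphere_norm_le hrpos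
        ((hdiff y).diffContOnCl_ball hcl) fun w hw => hle y w (hcl (sphere_subset_closedBall hw)))
    (hb.div_const r)
    (Filter.Eventually.of_forall fun y z hz => hderiv y z (hsub hz))
  exact key.2.differentiableAt.differentiableWithinAt

end Claimed.Agent.R302
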