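/-
R302 / MG / Field   (blueprint: helper203; DEFINITIONS; the statements are in FieldTele, FieldFar, FieldBd, FieldMain, FieldG, FieldJ)

RANK COMPARISON (Q Lemma 5.3) for an abstract LOCAL FIELD `Φ S v z` (`S` finite principal set, `v ∈ S` root, `z` spectral parameter);
the two instances `Φ = G` and `Φ = J_i` are in `MG/FieldGJ`.

Setting: invariant weighted system `(C, ν, K)`, masks `E ⊆ Q`, targets `U ⊆ Q \ E`, `ν U, ν E < ∞`, `code : Y → ℝ` measurable, injective on orbits.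
  `Qlt u = {y ∈ Q | ¬ (y ∈ E ∧ code y < code u)}`  = the mask after the deletion of the sites of `E` which precede `u`.
  `A_R(λ,z) = ∫_U λ_v (Φ_{B(v,R) ∩ Q}(v,z) - Φ_{B(v,R) ∩ (Q \ E)}(v,z)) dν(v)`
  `B_R(λ,z) = ∫_E ∑_{v ∈ B(u,R) ∩ U} λ_v (Φ_{S_u}(v,z) - Φ_{S_u - u}(v,z)) dν(u)`,   `S_u = B(u,2R) ∩ Qlt u`.
PROOF.
 (a) [tele] finite telescoping: for a finite set `I`, `h I - h (I \ E) = ∑_{u ∈ I ∩ E} (h (I ∩ Qlt u) - h ((I ∩ Qlt u) - u))`.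
 (b) [coef] Laurent coefficients: for `k + 2 ≤ R` the `k`-th coefficients of `A_R` and `B_R` AGREE:
     locality reduces both to radius `k + 2`; (a) at the root `v`; mass transport `mg_mtp_integral` (real and imaginary parts).
     For `k + 2 > R`: `|coef A_R| ≤ 2 B L^k ν U`, `|coef B_R| ≤ 2 B L^k card(words R) ν E ≤ 2 B ((D+1) L)^k (D+1)^2 ν E`.
     Exchange of `∑_k` and `∫`: dominated (`hasSum_integral_of_summable_norm`).  So `|A_R - B_R| ≤ C0 / 2^R` for `|z| ≥ 2 (D+1) L`.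
 (c) [main] `|A_R(z)| ≤ 2 bd(Im z) ν U`, `|B_R(z)| ≤ sd(Im z) ν E` (single deletion bound), both holomorphic on the upper half plane
     (`mgs_differentiableOn_integral`).  Disc `c = i T`, `T = 2 (D+1) L + 1 + η1`, `ρ1 = 1`, `ρ2 = T - η0/2`, `ρ = T - η0`:
     `mgs_vitali` gives `|A_R - B_R| ≤ ε` on `i [η0, η1]` for `R ≥ R0`, UNIFORMLY in `λ` (measurable, `|λ| ≤ 1`).
     Take `λ_v` = conjugate phase of the integrand of `A_R` at `z = iη`.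
-/
import Claimed.Agent.R302.MG.StarDefs
import Claimed.Agent.R302.MG.Vitali
import Claimed.Agent.R302.MG.Recover

set_option autoImplicit false
set_option linter.unusedSectionVars false

namespace Claimed.Agent.R302

open MeasureTheory Finset Polynomial
open scoped BigOperators ComplexConjugate ENNReal

noncomputable section

variable {Y : Type*} [MeasurableSpace Y] [DecidableEq Y] {D r : ℕ}

/-- the mask after deletion of the sites of `E` preceding `u` -/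
def mgsQlt (Q E : Set Y) (code : Y → ℝ) (u : Y) : Set Y := {y | y ∈ Q ∧ ¬ (y ∈ E ∧ code y < code u)}

/-- An abstract local field on the mask `Q`, targets `U`, deleted sites in `E`. -/
structure MgsField (C : MgCtx Y D) (c : Y → Option (Fin r)) (Q E U : Set Y) (Φ : Finset Y → Y → ℂ → ℂ)
    (coef : Finset Y → Y → ℕ → ℂ) (L B : ℝ) (bd sd : ℝ → ℝ) : Prop where
  L_pos : 0 < L
  B_nonneg : 0 ≤ B
  hasSum : ∀ (S : Finset Y) (v : Y) (z : ℂ), (↑S : Set Y) ⊆ Q → v ∈ S → v ∈ U → L < ‖z‖ →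
    HasSum (fun k : ℕ => coef S v k / z ^ (k + 1)) (Φ S v z)
  coef_le : ∀ (S : Finset Y) (v : Y) (k : ℕ), (↑S : Set Y) ⊆ Q → v ∈ S → v ∈ U → ‖coef S v k‖ ≤ B * L ^ k
  loc : ∀ (S S' : Finset Y) (v : Y) (k : ℕ), (↑S : Set Y) ⊆ Q → (↑S' : Set Y) ⊆ Q → v ∈ S → v ∈ S' → v ∈ U →
    (∀ u ∈ mgBall C.σ (k + 2) v, (u ∈ S ↔ u ∈ S')) → coef S v k = coef S' v k
  diff : ∀ (S : Finset Y) (v : Y), (↑S : Set Y) ⊆ Q → v ∈ S → v ∈ U →
    DifferentiableOn ℂ (Φ S v) {z | 0 < z.im}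
  bound : ∀ (S : Finset Y) (v : Y) (z : ℂ), (↑S : Set Y) ⊆ Q → v ∈ S → v ∈ U → 0 < z.im → ‖Φ S v z‖ ≤ bd z.im
  single : ∀ (S A : Finset Y) (u : Y) (z : ℂ), (↑S : Set Y) ⊆ Q → u ∈ S → u ∈ E → A ⊆ S.erase u →
    (↑A : Set Y) ⊆ U → 0 < z.im → ∑ v ∈ A, ‖Φ S v z - Φ (S.erase u) v z‖ ≤ sd z.im
  bd_anti : AntitoneOn bd (Set.Ioi 0)
  sd_anti : AntitoneOn sd (Set.Ioi 0)
  meas : ∀ (R : ℕ) (root : Y → Y) (Qz : Y → Set Y), MgFam C.σ root (fun _ => c) Qz → ∀ (w₀ : List (Fin D)) (ζ : ℂ),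
    Measurable fun y => Φ (C.setR (Qz y) R (root y)) (mgAct C.σ w₀ (root y)) ζ
  meas_coef : ∀ (R : ℕ) (root : Y → Y) (Qz : Y → Set Y), MgFam C.σ root (fun _ => c) Qz →
    ∀ (w₀ : List (Fin D)) (k : ℕ), Measurable fun y =>
      if mgAct C.σ w₀ (root y) ∈ C.setR (Qz y) R (root y) then
        coef (C.setR (Qz y) R (root y)) (mgAct C.σ w₀ (root y)) k else 0

/-- `A_R(λ,z)` -/
def mgsA (C : MgCtx Y D) (ν : Measure Y) (Q E U : Set Y) (Φ : Finset Y → Y → ℂ → ℂ) (lam : Y → ℂ) (R : ℕ)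
    (z : ℂ) : ℂ :=
  ∫ v in U, lam v * (Φ (C.setR Q R v) v z - Φ (C.setR (Q \ E) R v) v z) ∂ν

open Classical in
/-- `B_R(λ,z)` -/
def mgsB (C : MgCtx Y D) (ν : Measure Y) (Q E U : Set Y) (code : Y → ℝ) (Φ : Finset Y → Y → ℂ → ℂ) (lam : Y → ℂ)
    (R : ℕ) (z : ℂ) : ℂ :=
  ∫ u in E, ∑ v ∈ (mgBall C.σ R u).filter (fun v => v ∈ U),
    lam v * (Φ (C.setR (mgsQlt Q E code u) (2 * R) u) v z -
      Φ ((C.setR (mgsQlt Q E code u) (2 * R) u).erase u) v z) ∂ν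

end

end Claimed.Agent.R302
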