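/-
R302 / MG / FieldBd   (blueprint: helper203; package MGS-FieldBd; proofs: helper261)
Steps (c1)-(c4) of the rank comparison: see the header of `MG/Field.lean`.
-/
import Claimed.Agent.R302.MG.Field

set_option autoImplicit false
set_option linter.unusedSectionVars false
set_option linter.unusedVariables false

namespace Claimed.Agent.R302

open MeasureTheory Finset Polynomial
open scoped BigOperators ComplexConjugate ENNReal

noncomputable section

variable {Y : Type*} [MeasurableSpace Y] [DecidableEq Y] {D r : ℕ}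

variable {C : MgCtx Y D} {ν : Measure Y} {K : ℝ} {c : Y → Option (Fin r)} {Q E U : Set Y}
  {Φ : Finset Y → Y → ℂ → ℂ} {coef : Finset Y → Y → ℕ → ℂ} {L B : ℝ} {bd sd : ℝ → ℝ} {code : Y → ℝ}

/-! ### elementary facts on the principal sets -/

omit [MeasurableSpace Y] in
theorem mgsb_setR_subset (C : MgCtx Y D) (Q : Set Y) (R : ℕ) (y : Y) : (↑(C.setR Q R y) : Set Y) ⊆ Q :=
  fun _ hu => (MgCtx.mem_setR.1 (Finset.mem_coe.1 hu)).2

omit [MeasurableSpace Y] in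
theorem mgsb_self_mem_setR (C : MgCtx Y D) {Q : Set Y} (R : ℕ) {y : Y} (hy : y ∈ Q) : y ∈ C.setR Q R y :=
  MgCtx.mem_setR.2 ⟨self_mem_mgBall _ _ _, hy⟩

omit [MeasurableSpace Y] [DecidableEq Y] in
theorem mgsb_Qlt_subset (Q E : Set Y) (code : Y → ℝ) (u : Y) : mgsQlt Q E code u ⊆ Q := fun _ h => h.1

omit [MeasurableSpace Y] [DecidableEq Y] in
theorem mgsb_self_mem_Qlt {Q : Set Y} (E : Set Y) (code : Y → ℝ) {u : Y} (hu : u ∈ Q) : u ∈ mgsQlt Q E code u :=
  ⟨hu, fun h => lt_irrefl _ h.2⟩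

omit [MeasurableSpace Y] [DecidableEq Y] in
theorem mgsb_mem_Qlt_of_notMem {Q E : Set Y} (code : Y → ℝ) (u : Y) {v : Y} (hv : v ∈ Q) (hvE : v ∉ E) :
    v ∈ mgsQlt Q E code u := ⟨hv, fun h => hvE h.1⟩

/-- the integrand of `A_R` -/
def mgsbA (C : MgCtx Y D) (Q E : Set Y) (Φ : Finset Y → Y → ℂ → ℂ) (lam : Y → ℂ) (R : ℕ) (v : Y) (z : ℂ) : ℂ :=
  lam v * (Φ (C.setR Q R v) v z - Φ (C.setR (Q \ E) R v) v z)

open Classical in
/-- the integrand of `B_R` -/
def mgsbB (C : MgCtx Y D) (Q E U : Set Y) (code : Y → ℝ) (Φ : Finset Y → Y → ℂ → ℂ) (lam : Y → ℂ) (R : ℕ)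
    (u : Y) (z : ℂ) : ℂ :=
  ∑ v ∈ (mgBall C.σ R u).filter (fun v => v ∈ U),
    lam v * (Φ (C.setR (mgsQlt Q E code u) (2 * R) u) v z -
      Φ ((C.setR (mgsQlt Q E code u) (2 * R) u).erase u) v z)

theorem mgsA_eq (C : MgCtx Y D) (ν : Measure Y) (Q E U : Set Y) (Φ : Finset Y → Y → ℂ → ℂ) (lam : Y → ℂ) (R : ℕ)
    (z : ℂ) : mgsA C ν Q E U Φ lam R z = ∫ v in U, mgsbA C Q E Φ lam R v z ∂ν := rfl

theorem mgsB_eq (C : MgCtx Y D) (ν : Measure Y) (Q E U : Set Y) (code : Y → ℝ) (Φ : Finset Y → Y → ℂ → ℂ)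
    (lam : Y → ℂ) (R : ℕ) (z : ℂ) :
    mgsB C ν Q E U code Φ lam R z = ∫ u in E, mgsbB C Q E U code Φ lam R u z ∂ν := rfl

/-- pointwise bound of the integrand of `A_R` -/
theorem mgsbA_norm_le (hUQ : U ⊆ Q \ E) (hΦ : MgsField C c Q E U Φ coef L B bd sd) (R : ℕ) {lam : Y → ℂ}
    (hlam1 : ∀ y, ‖lam y‖ ≤ 1) {z : ℂ} (hz : 0 < z.im) {v : Y} (hv : v ∈ U) :
    ‖mgsbA C Q E Φ lam R v z‖ ≤ 2 * bd z.im := by
  have h1 : ‖Φ (C.setR Q R v) v z‖ ≤ bd z.im :=
    hΦ.bound _ v z (mgsb_setR_subset C Q R v) (mgsb_self_mem_setR C R (hUQ hv).1) hv hz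
  have h2 : ‖Φ (C.setR (Q \ E) R v) v z‖ ≤ bd z.im :=
    hΦ.bound _ v z ((mgsb_setR_subset C (Q \ E) R v).trans Set.sdiff_subset)
      (mgsb_self_mem_setR C R (hUQ hv)) hv hz
  have h3 : ‖Φ (C.setR Q R v) v z - Φ (C.setR (Q \ E) R v) v z‖ ≤ 2 * bd z.im :=
    (norm_sub_le _ _).trans (by linarith)
  unfold mgsbA
  rw [norm_mul]
  calc ‖lam v‖ * ‖Φ (C.setR Q R v) v z - Φ (C.setR (Q \ E) R v) v z‖
      ≤ 1 * ‖Φ (C.setR Q R v) v z - Φ (C.setR (Q \ E) R v) v z‖ :=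
        mul_le_mul_of_nonneg_right (hlam1 v) (norm_nonneg _)
    _ ≤ 2 * bd z.im := by rw [one_mul]; exact h3

open Classical in
omit [MeasurableSpace Y] in
/-- the targets near `u` lie in the principal set of the computation at `u` -/
theorem mgsb_filter_subset (C : MgCtx Y D) (hUQ : U ⊆ Q \ E) (code : Y → ℝ) (R : ℕ) {u : Y} (hu : u ∈ E) :
    (mgBall C.σ R u).filter (fun v => v ∈ U) ⊆ (C.setR (mgsQlt Q E code u) (2 * R) u).erase u := by
  intro v hv
  obtain ⟨hv1, hv2⟩ := Finset.mem_filter.1 hv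
  refine Finset.mem_erase.2 ⟨?_, MgCtx.mem_setR.2 ⟨mgBall_mono _ (by omega) _ hv1, ?_⟩⟩
  · rintro rfl
    exact (hUQ hv2).2 hu
  · exact mgsb_mem_Qlt_of_notMem code u (hUQ hv2).1 (hUQ hv2).2

/-- pointwise bound of the integrand of `B_R` -/
theorem mgsbB_norm_le (hEQ : E ⊆ Q) (hUQ : U ⊆ Q \ E) (hΦ : MgsField C c Q E U Φ coef L B bd sd) (R : ℕ)
    {lam : Y → ℂ} (hlam1 : ∀ y, ‖lam y‖ ≤ 1) {z : ℂ} (hz : 0 < z.im) {u : Y} (hu : u ∈ E) :
    ‖mgsbB C Q E U code Φ lam R u z‖ ≤ sd z.im := by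
  classical
  have h1 := hΦ.single (C.setR (mgsQlt Q E code u) (2 * R) u) ((mgBall C.σ R u).filter (fun v => v ∈ U)) u z
    ((mgsb_setR_subset C _ _ u).trans (mgsb_Qlt_subset Q E code u))
    (mgsb_self_mem_setR C _ (mgsb_self_mem_Qlt E code (hEQ hu))) hu
    (mgsb_filter_subset C hUQ code R hu)
    (fun v hv => (Finset.mem_filter.1 (Finset.mem_coe.1 hv)).2) hz
  refine le_trans ?_ h1
  unfold mgsbB
  refine (norm_sum_le _ _).trans (Finset.sum_le_sum fun v _ => ?_)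
  rw [norm_mul]
  calc ‖lam v‖ * _ ≤ 1 * _ := mul_le_mul_of_nonneg_right (hlam1 v) (norm_nonneg _)
    _ = _ := one_mul _

/-- (c1) -/
theorem mgs_A_bound (hC : C.Inv ν K) (hc : MgMeasC c) (hQ : MeasurableSet Q) (hE : MeasurableSet E)
    (hU : MeasurableSet U) (hEQ : E ⊆ Q) (hUQ : U ⊆ Q \ E) (hνU : ν U ≠ ∞)
    (hΦ : MgsField C c Q E U Φ coef L B bd sd) (R : ℕ) {lam : Y → ℂ} (hlam : Measurable lam)
    (hlam1 : ∀ y, ‖lam y‖ ≤ 1) {z : ℂ} (hz : 0 < z.im) :
    ‖mgsA C ν Q E U Φ lam R z‖ ≤ 2 * bd z.im * (ν U).toReal := by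
  rw [mgsA_eq]
  exact norm_setIntegral_le_of_norm_le_const (lt_top_iff_ne_top.2 hνU)
    fun v hv => mgsbA_norm_le hUQ hΦ R hlam1 hz hv

/-- (c2) single deletion bound under the integral -/
theorem mgs_B_bound (hC : C.Inv ν K) (hc : MgMeasC c) (hQ : MeasurableSet Q) (hE : MeasurableSet E)
    (hU : MeasurableSet U) (hEQ : E ⊆ Q) (hUQ : U ⊆ Q \ E) (hνE : ν E ≠ ∞) (hcode : Measurable code)
    (hΦ : MgsField C c Q E U Φ coef L B bd sd) (R : ℕ) {lam : Y → ℂ} (hlam : Measurable lam)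
    (hlam1 : ∀ y, ‖lam y‖ ≤ 1) {z : ℂ} (hz : 0 < z.im) :
    ‖mgsB C ν Q E U code Φ lam R z‖ ≤ sd z.im * (ν E).toReal := by
  rw [mgsB_eq]
  exact norm_setIntegral_le_of_norm_le_const (lt_top_iff_ne_top.2 hνE)
    fun u hu => mgsbB_norm_le hEQ hUQ hΦ R hlam1 hz hu

/-! ### measurability of the integrands -/

/-- the masks `Qlt y` form a measurable family rooted at `y` -/
theorem mgsb_fam_Qlt (hC : C.Inv ν K) (hc : MgMeasC c) (hQ : MeasurableSet Q) (hE : MeasurableSet E)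
    (hcode : Measurable code) :
    MgFam C.σ (fun y : Y => y) (fun _ => c) (fun y => mgsQlt Q E code y) := by
  refine ⟨measurable_id, fun w o => measurable_mgAct hC.meas.inv.meas w (hc o), fun w => ?_⟩
  have hw := measurable_mgAct hC.meas.inv.meas w
  have h1 : MeasurableSet {y | code (mgAct C.σ w y) < code y} :=
    measurableSet_lt (hcode.comp hw) hcode
  have h2 : {y | mgAct C.σ w y ∈ mgsQlt Q E code y} =
      (mgAct C.σ w ⁻¹' Q) ∩ ((mgAct C.σ w ⁻¹' E) ∩ {y | code (mgAct C.σ w y) < code y})ᶜ := by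
    ext y
    simp [mgsQlt]
  rw [h2]
  exact (hw hQ).inter ((hw hE).inter h1).compl

theorem mgsbA_measurable (hC : C.Inv ν K) (hc : MgMeasC c) (hQ : MeasurableSet Q) (hE : MeasurableSet E)
    (hΦ : MgsField C c Q E U Φ coef L B bd sd) (R : ℕ) {lam : Y → ℂ} (hlam : Measurable lam) (z : ℂ) :
    Measurable fun v => mgsbA C Q E Φ lam R v z := by
  have h1 := hΦ.meas R (fun y => y) (fun _ => Q) (MgFam.const hC.meas.inv hc hQ) [] z
  have h2 := hΦ.meas R (fun y => y) (fun _ => Q \ E) (MgFam.const hC.meas.inv hc (hQ.diff hE)) [] z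
  simp only [mgAct_nil] at h1 h2
  exact hlam.mul (h1.sub h2)

theorem mgsbB_measurable (hC : C.Inv ν K) (hc : MgMeasC c) (hQ : MeasurableSet Q) (hE : MeasurableSet E)
    (hU : MeasurableSet U) (hcode : Measurable code)
    (hΦ : MgsField C c Q E U Φ coef L B bd sd) (R : ℕ) {lam : Y → ℂ} (hlam : Measurable lam) (z : ℂ) :
    Measurable fun u => mgsbB C Q E U code Φ lam R u z := by
  classical
  have hfam := mgsb_fam_Qlt (ν := ν) (K := K) hC hc hQ hE hcode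
  have hfam' := hfam.erase hC.meas.inv []
  simp only [mgAct_nil] at hfam'
  let F : Y → Y → ℂ := fun u v => if v ∈ U then
    lam v * (Φ (C.setR (mgsQlt Q E code u) (2 * R) u) v z -
      Φ ((C.setR (mgsQlt Q E code u) (2 * R) u).erase u) v z) else 0
  have hF : ∀ w, Measurable fun u => F u (mgAct C.σ w u) := by
    intro w
    have hw := measurable_mgAct hC.meas.inv.meas w
    have h1 := hΦ.meas (2 * R) (fun y => y) _ hfam w z
    have h2 := hΦ.meas (2 * R) (fun y => y) _ hfam' w z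
    simp only [MgCtx.setR_diff_singleton] at h2
    exact Measurable.ite (hw hU) ((hlam.comp hw).mul (h1.sub h2)) measurable_const
  have hsum := mg_measurable_sum_ball hC.meas.inv R (measurable_id (α := Y)) F hF
  have h3 : (fun u => mgsbB C Q E U code Φ lam R u z) = fun u => ∑ v ∈ mgBall C.σ R (id u), F u v := by
    funext u
    simp only [mgsbB, F, id, Finset.sum_filter]
  rw [h3]
  exact hsum

/-! ### holomorphy -/

theorem mgsbA_diff (hUQ : U ⊆ Q \ E) (hΦ : MgsField C c Q E U Φ coef L B bd sd) (R : ℕ) (lam : Y → ℂ)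
    {v : Y} (hv : v ∈ U) : DifferentiableOn ℂ (mgsbA C Q E Φ lam R v) {z | 0 < z.im} := by
  have h1 := hΦ.diff _ v (mgsb_setR_subset C Q R v) (mgsb_self_mem_setR C R (hUQ hv).1) hv
  have h2 := hΦ.diff _ v ((mgsb_setR_subset C (Q \ E) R v).trans Set.sdiff_subset)
      (mgsb_self_mem_setR C R (hUQ hv)) hv
  exact (h1.sub h2).const_mul (lam v)

theorem mgsbB_diff (hEQ : E ⊆ Q) (hUQ : U ⊆ Q \ E) (hΦ : MgsField C c Q E U Φ coef L B bd sd) (R : ℕ)
    (lam : Y → ℂ) {u : Y} (hu : u ∈ E) :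
    DifferentiableOn ℂ (mgsbB C Q E U code Φ lam R u) {z | 0 < z.im} := by
  classical
  have hsub := mgsb_filter_subset C hUQ code R hu
  have hSQ : (↑(C.setR (mgsQlt Q E code u) (2 * R) u) : Set Y) ⊆ Q :=
    (mgsb_setR_subset C _ _ u).trans (mgsb_Qlt_subset Q E code u)
  have h0 : mgsbB C Q E U code Φ lam R u = fun z => ∑ v ∈ (mgBall C.σ R u).filter (fun v => v ∈ U),
    lam v * (Φ (C.setR (mgsQlt Q E code u) (2 * R) u) v z -
      Φ ((C.setR (mgsQlt Q E code u) (2 * R) u).erase u) v z) := rfl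
  rw [h0]
  refine DifferentiableOn.fun_sum fun v hv => ?_
  have hvU : v ∈ U := (Finset.mem_filter.1 hv).2
  have hv' := hsub hv
  have h1 := hΦ.diff _ v hSQ (Finset.mem_of_mem_erase hv') hvU
  have h2 := hΦ.diff ((C.setR (mgsQlt Q E code u) (2 * R) u).erase u) v
    (fun x hx => hSQ (Finset.mem_coe.2 (Finset.mem_of_mem_erase (Finset.mem_coe.1 hx)))) hv' hvU
  exact (h1.sub h2).const_mul (lam v)

/-- holomorphy on the upper half plane of a set integral whose integrand is bounded by an antitone function of `Im z` -/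
theorem mgsb_diff_setIntegral {A : Set Y} (hA : MeasurableSet A) (hνA : ν A ≠ ∞) (F : Y → ℂ → ℂ)
    (hmeas : ∀ z, Measurable fun y => F y z)
    (hdiff : ∀ y ∈ A, DifferentiableOn ℂ (F y) {z | 0 < z.im}) {b : ℝ → ℝ} (hb : AntitoneOn b (Set.Ioi 0))
    (hle : ∀ y ∈ A, ∀ z : ℂ, 0 < z.im → ‖F y z‖ ≤ b z.im) :
    DifferentiableOn ℂ (fun z => ∫ y in A, F y z ∂ν) {z | 0 < z.im} := by
  intro z0 hz0
  have hz0' : 0 < z0.im := hz0
  set δ : ℝ := z0.im / 2 with hδ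
  have hδpos : 0 < δ := by rw [hδ]; linarith
  have hΩ : IsOpen {z : ℂ | δ < z.im} := isOpen_lt continuous_const Complex.continuous_im
  have hsub : {z : ℂ | δ < z.im} ⊆ {z : ℂ | 0 < z.im} := fun z hz => lt_trans hδpos hz
  have key := mgs_differentiableOn_integral ν hΩ (fun y z => A.indicator (fun y => F y z) y)
    (fun z _ => ((hmeas z).indicator hA).aestronglyMeasurable)
    (fun y => by
      by_cases hy : y ∈ A
      · simp only [Set.indicator_of_mem hy]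
        exact (hdiff y hy).mono hsub
      · simp only [Set.indicator_of_notMem hy]
        exact differentiableOn_const _)
    (A.indicator fun _ => b δ)
    ((integrable_indicator_iff hA).2 (integrableOn_const hνA))
    (fun y z hz => by
      by_cases hy : y ∈ A
      · simp only [Set.indicator_of_mem hy]
        exact (hle y hy z (hsub hz)).trans (hb hδpos (hsub hz) (le_of_lt hz))
      · simp only [Set.indicator_of_notMem hy, norm_zero, le_refl])
  have h1 : (fun z => ∫ y, A.indicator (fun y => F y z) y ∂ν) = fun z => ∫ y in A, F y z ∂ν := by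
    funext z
    exact integral_indicator hA
  rw [h1] at key
  have hz0Ω : z0 ∈ {z : ℂ | δ < z.im} := by
    show δ < z0.im
    rw [hδ]; linarith
  exact (key.differentiableAt (hΩ.mem_nhds hz0Ω)).differentiableWithinAt

/-- (c3) -/
theorem mgs_A_diff (hC : C.Inv ν K) (hc : MgMeasC c) (hQ : MeasurableSet Q) (hE : MeasurableSet E)
    (hU : MeasurableSet U) (hEQ : E ⊆ Q) (hUQ : U ⊆ Q \ E) (hνU : ν U ≠ ∞)
    (hΦ : MgsField C c Q E U Φ coef L B bd sd) (R : ℕ) {lam : Y → ℂ} (hlam : Measurable lam)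
    (hlam1 : ∀ y, ‖lam y‖ ≤ 1) :
    DifferentiableOn ℂ (mgsA C ν Q E U Φ lam R) {z | 0 < z.im} := by
  have hb : AntitoneOn (fun x => 2 * bd x) (Set.Ioi 0) := fun x hx y hy hxy =>
    mul_le_mul_of_nonneg_left (hΦ.bd_anti hx hy hxy) (by norm_num)
  exact mgsb_diff_setIntegral hU hνU (mgsbA C Q E Φ lam R) (mgsbA_measurable hC hc hQ hE hΦ R hlam)
    (fun v hv => mgsbA_diff hUQ hΦ R lam hv) hb (fun v hv z hz => mgsbA_norm_le hUQ hΦ R hlam1 hz hv)

/-- (c4) -/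
theorem mgs_B_diff (hC : C.Inv ν K) (hc : MgMeasC c) (hQ : MeasurableSet Q) (hE : MeasurableSet E)
    (hU : MeasurableSet U) (hEQ : E ⊆ Q) (hUQ : U ⊆ Q \ E) (hνE : ν E ≠ ∞) (hcode : Measurable code)
    (hΦ : MgsField C c Q E U Φ coef L B bd sd) (R : ℕ) {lam : Y → ℂ} (hlam : Measurable lam)
    (hlam1 : ∀ y, ‖lam y‖ ≤ 1) :
    DifferentiableOn ℂ (mgsB C ν Q E U code Φ lam R) {z | 0 < z.im} :=
  mgsb_diff_setIntegral hE hνE (mgsbB C Q E U code Φ lam R) (mgsbB_measurable hC hc hQ hE hU hcode hΦ R hlam)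
    (fun u hu => mgsbB_diff hEQ hUQ hΦ R lam hu) hΦ.sd_anti
    (fun u hu z hz => mgsbB_norm_le hEQ hUQ hΦ R hlam1 hz hu)

end

end Claimed.Agent.R302
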