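/-
R302 / MG / FieldTele   (blueprint: helper203; package MGS-FieldTele; proofs: helper107)
Steps (a), (b1) of the rank comparison: see the header of `MG/Field.lean`.
-/
import Claimed.Agent.R302.MG.Field

set_option autoImplicit false
set_option linter.unusedSectionVars false
set_option linter.unusedVariables false

namespace Claimed.Agent.R302

open MeasureTheory Finset Polynomial
open scoped BigOperators ComplexConjugate ENNReal

noncomputable section

variable {Y : Type*} [MeasurableSpace Y] [DecidableEq Y] {D r : ℕ}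

theorem mgs_exists_code {σ : Fin D → Y → Y} (hσ : MgInv σ) :
    ∃ code : Y → ℝ, Measurable code ∧ ∀ (y : Y) (w : List (Fin D)), mgAct σ w y ≠ y → code (mgAct σ w y) ≠ code y := by
  classical
  choose E hE h1 h2 using hσ.sep
  let S : ℕ → Set Y := fun n => match (Encodable.decode n : Option (List (Fin D) × Fin 3)) with
    | some q => E q.1 q.2
    | none => ∅
  have hS : ∀ n, MeasurableSet (S n) := by
    intro n
    simp only [S]
    cases (Encodable.decode n : Option (List (Fin D) × Fin 3)) with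
    | none => exact MeasurableSet.empty
    | some q => exact hE q.1 q.2
  have hSe : ∀ w i, S (Encodable.encode (w, i)) = E w i := by
    intro w i
    simp only [S, Encodable.encodek]
  refine ⟨fun y => Cardinal.cantorFunction (1 / 3) (fun n => decide (y ∈ S n)), ?_, ?_⟩
  · have hm : ∀ n, Measurable fun y => Cardinal.cantorFunctionAux (1 / 3) (fun n => decide (y ∈ S n)) n := by
      intro n
      have : (fun y => Cardinal.cantorFunctionAux (1 / 3) (fun n => decide (y ∈ S n)) n) =
          fun y => if y ∈ S n then (1 / 3 : ℝ) ^ n else 0 := by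
        funext y
        by_cases hy : y ∈ S n <;> simp [Cardinal.cantorFunctionAux, hy]
      rw [this]
      exact Measurable.ite (hS n) measurable_const measurable_const
    refine measurable_of_tendsto_metrizable (f := fun (N : ℕ) (y : Y) => ∑ n ∈ Finset.range N,
      Cardinal.cantorFunctionAux (1 / 3) (fun n => decide (y ∈ S n)) n)
      (fun N => Finset.measurable_sum _ fun n _ => hm n) ?_
    refine tendsto_pi_nhds.2 fun y => ?_
    exact (Cardinal.summable_cantor_function _ (by norm_num) (by norm_num)).hasSum.tendsto_sum_nat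
  · intro y w hne heq
    have h3 := Cardinal.cantorFunction_injective (c := 1 / 3) (by norm_num) (by norm_num) heq
    obtain ⟨i, hi⟩ := h1 w y hne
    have h4 := congrFun h3 (Encodable.encode (w, i))
    simp only [hSe, hi, h2 w i y hi, decide_false, decide_true] at h4
    exact absurd h4 (by simp)


omit [MeasurableSpace Y] in
theorem mgs_telescope_aux {M : Type*} [AddCommGroup M] (h : Finset Y → M) (I : Finset Y) (code : Y → ℝ)
    (F : Finset Y) (hinj : Set.InjOn code (F : Set Y)) :
    h I - h (I \ F) =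
      ∑ u ∈ F, (h (I \ F.filter fun y => code y < code u) -
          h ((I \ F.filter fun y => code y < code u).erase u)) := by
  induction F using Finset.induction_on_max_value code with
  | empty => simp
  | insert a F ha hmax ih =>
    have hlt : ∀ x ∈ F, code x < code a := by
      intro x hx
      refine lt_of_le_of_ne (hmax x hx) fun heq => ?_
      have := hinj (by simp [hx]) (by simp) heq
      exact ha (this ▸ hx)
    have ih' := ih (hinj.mono (by simp))
    rw [Finset.sum_insert ha]
    have e1 : (insert a F).filter (fun y => code y < code a) = F := by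
      ext y
      simp only [Finset.mem_filter, Finset.mem_insert]
      constructor
      · rintro ⟨rfl | hy, h2⟩
        · exact absurd h2 (lt_irrefl _)
        · exact hy
      · intro hy
        exact ⟨Or.inr hy, hlt y hy⟩
    have e2 : ∀ u ∈ F, (insert a F).filter (fun y => code y < code u) = F.filter fun y => code y < code u := by
      intro u hu
      ext y
      simp only [Finset.mem_filter, Finset.mem_insert]
      constructor
      · rintro ⟨rfl | hy, h2⟩
        · exact absurd h2 (not_lt.2 (hlt u hu).le)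
        · exact ⟨hy, h2⟩
      · rintro ⟨hy, h2⟩
        exact ⟨Or.inr hy, h2⟩
    have e3 : (I \ F).erase a = I \ insert a F := by
      ext y
      simp only [Finset.mem_erase, Finset.mem_sdiff, Finset.mem_insert]
      tauto
    rw [e1, e3, Finset.sum_congr rfl fun u hu => by rw [e2 u hu], ← ih']
    abel

open Classical in
/-- (a) finite telescoping along an injective code -/
theorem mgs_telescope {M : Type*} [AddCommGroup M] (h : Finset Y → M) (I : Finset Y) (E : Set Y) (code : Y → ℝ)
    (hinj : Set.InjOn code (I : Set Y)) :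
    h I - h (I.filter fun y => y ∉ E) =
      ∑ u ∈ I.filter (fun y => y ∈ E),
        (h (I.filter fun y => ¬ (y ∈ E ∧ code y < code u)) -
          h ((I.filter fun y => ¬ (y ∈ E ∧ code y < code u)).erase u)) := by
  have h1 := mgs_telescope_aux h I code (I.filter fun y => y ∈ E)
    (hinj.mono (by intro y hy; exact Finset.mem_coe.2 (Finset.mem_filter.1 (Finset.mem_coe.1 hy)).1))
  have e1 : I \ (I.filter fun y => y ∈ E) = I.filter fun y => y ∉ E := by
    ext y
    simp only [Finset.mem_sdiff, Finset.mem_filter]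
    tauto
  have e2 : ∀ u, I \ ((I.filter fun y => y ∈ E).filter fun y => code y < code u) =
      I.filter fun y => ¬ (y ∈ E ∧ code y < code u) := by
    intro u
    ext y
    simp only [Finset.mem_sdiff, Finset.mem_filter]
    tauto
  rw [e1] at h1
  simp only [e2] at h1
  exact h1


/-- complex valued mass transport: bounded, the first variable confined to a set of finite measure -/
theorem mgs_mtp_integral {σ : Fin D → Y → Y} (hσ : MgInv σ) {ν : Measure Y}
    (hν : ∀ k, MeasurePreserving (σ k) ν ν) (R : ℕ) (h : Y → Y → ℂ)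
    (hm : ∀ w, Measurable fun y => h y (mgAct σ w y)) {Q : Set Y} (hQ : MeasurableSet Q) (hQν : ν Q ≠ ∞)
    {c₀ : ℝ} (hb : ∀ y u, ‖h y u‖ ≤ c₀) (hs : ∀ y u, y ∉ Q → h y u = 0) :
    Integrable (fun y => ∑ u ∈ mgBall σ R y, h y u) ν ∧ Integrable (fun u => ∑ y ∈ mgBall σ R u, h y u) ν ∧
      ∫ y, ∑ u ∈ mgBall σ R y, h y u ∂ν = ∫ u, ∑ y ∈ mgBall σ R u, h y u ∂ν := by
  classical
  have hg : ∀ w, Measurable fun y => if mgIsRep σ R y w then h y (mgAct σ w y) else 0 := fun w =>
    Measurable.ite (mg_measurableSet_isRep hσ R w) (hm w) measurable_const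
  have hgi : ∀ w, Integrable (fun y => if mgIsRep σ R y w then h y (mgAct σ w y) else 0) ν := by
    intro w
    refine IntegrableOn.integrable_of_forall_notMem_eq_zero (s := Q) ?_ ?_
    · refine Measure.integrableOn_of_bounded (M := c₀) hQν (hg w).aestronglyMeasurable ?_
      refine Filter.Eventually.of_forall fun y => ?_
      have hc : 0 ≤ c₀ := (norm_nonneg _).trans (hb y y)
      split_ifs
      · exact hb _ _
      · simpa using hc
    · intro y hy
      rw [hs y _ hy]
      simp
  have hgi' : ∀ w, Integrable (fun u => if mgIsRep σ R (mgAct σ w.reverse u) w then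
      h (mgAct σ w.reverse u) u else 0) ν := by
    intro w
    have := (mg_measurePreserving_act hν w.reverse).integrable_comp_of_integrable (hgi w)
    simp only [Function.comp_def, mgAct_reverse' hσ.invol] at this
    exact this
  have E1 : (fun y => ∑ u ∈ mgBall σ R y, h y u) = fun y => ∑ w ∈ mgWords D R,
      if mgIsRep σ R y w then h y (mgAct σ w y) else 0 := funext fun y => mg_sum_ball σ R y (h y)
  have E2 : (fun u => ∑ y ∈ mgBall σ R u, h y u) = fun u => ∑ w ∈ mgWords D R,
      if mgIsRep σ R (mgAct σ w.reverse u) w then h (mgAct σ w.reverse u) u else 0 :=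
    funext fun u => (mg_sum_rev hσ.invol R u fun y => h y u).symm
  rw [E1, E2]
  refine ⟨integrable_finsetSum _ fun w _ => hgi w, integrable_finsetSum _ fun w _ => hgi' w, ?_⟩
  rw [integral_finsetSum _ fun w _ => hgi w, integral_finsetSum _ fun w _ => hgi' w]
  refine Finset.sum_congr rfl fun w _ => ?_
  have hmp := mg_measurePreserving_act hν w.reverse
  rw [← hmp.map_eq, integral_map hmp.measurable.aemeasurable (hg w).aestronglyMeasurable]
  simp_rw [mgAct_reverse' hσ.invol]
  rw [hmp.map_eq]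

variable {C : MgCtx Y D} {ν : Measure Y} {K : ℝ} {c : Y → Option (Fin r)} {Q E U : Set Y}
  {Φ : Finset Y → Y → ℂ → ℂ} {coef : Finset Y → Y → ℕ → ℂ} {L B : ℝ} {bd sd : ℝ → ℝ} {code : Y → ℝ}

/-- the masks `Qlt (w₁ y)` form a measurable family -/
theorem mgs_fam_Qlt (hC : C.Inv ν K) (hc : MgMeasC c) (hQ : MeasurableSet Q) (hE : MeasurableSet E)
    (hcode : Measurable code) (w₀ w₁ : List (Fin D)) :
    MgFam C.σ (fun y => mgAct C.σ w₀ y) (fun _ => c) (fun y => mgsQlt Q E code (mgAct C.σ w₁ y)) := by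
  have hm := fun w => measurable_mgAct hC.meas.inv.meas w
  refine ⟨hm w₀, fun w o => (hm w₀) ((hm w) (hc o)), fun w => ?_⟩
  have h1 : Measurable fun y => mgAct C.σ w (mgAct C.σ w₀ y) := (hm w).comp (hm w₀)
  have h2 : {y | mgAct C.σ w (mgAct C.σ w₀ y) ∈ mgsQlt Q E code (mgAct C.σ w₁ y)} =
      (fun y => mgAct C.σ w (mgAct C.σ w₀ y)) ⁻¹' Q ∩
        ((fun y => mgAct C.σ w (mgAct C.σ w₀ y)) ⁻¹' E ∩
          {y | code (mgAct C.σ w (mgAct C.σ w₀ y)) < code (mgAct C.σ w₁ y)})ᶜ := by
    ext y
    simp [mgsQlt]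
  rw [h2]
  exact (h1 hQ).inter ((h1 hE).inter (measurableSet_lt (hcode.comp h1) (hcode.comp (hm w₁)))).compl

omit [MeasurableSpace Y] in
theorem mgsQlt_subset (Q E : Set Y) (code : Y → ℝ) (u : Y) : mgsQlt Q E code u ⊆ Q := fun _ h => h.1

omit [MeasurableSpace Y] in
theorem mgsQlt_of_diff {Q E : Set Y} (code : Y → ℝ) (u : Y) {v : Y} (hv : v ∈ Q \ E) : v ∈ mgsQlt Q E code u :=
  ⟨hv.1, fun h => hv.2 h.1⟩

omit [MeasurableSpace Y] in
theorem mgs_code_injOn {σ : Fin D → Y → Y} (hσ : ∀ k y, σ k (σ k y) = y) {code : Y → ℝ}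
    (hinj : ∀ (y : Y) (w : List (Fin D)), mgAct σ w y ≠ y → code (mgAct σ w y) ≠ code y) (R : ℕ) (v : Y) :
    Set.InjOn code (mgBall σ R v : Set Y) := by
  intro y1 h1 y2 h2 heq
  obtain ⟨w1, -, rfl⟩ := mem_mgBall.1 (Finset.mem_coe.1 h1)
  obtain ⟨w2, -, rfl⟩ := mem_mgBall.1 (Finset.mem_coe.1 h2)
  by_contra hne
  have h3 : mgAct σ (w2 ++ w1.reverse) (mgAct σ w1 v) = mgAct σ w2 v := by
    rw [mgAct_append, mgAct_reverse hσ]
  have h4 := hinj (mgAct σ w1 v) (w2 ++ w1.reverse) (by rw [h3]; exact fun h => hne h.symm)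
  rw [h3] at h4
  exact h4 heq.symm


open Classical in
/-- (b1) coefficient identity: telescoping + mass transport, at the exact locality radius -/
theorem mgs_coef_transport (hC : C.Inv ν K) (hc : MgMeasC c) (hQ : MeasurableSet Q) (hE : MeasurableSet E)
    (hU : MeasurableSet U) (hEQ : E ⊆ Q) (hUQ : U ⊆ Q \ E) (hνU : ν U ≠ ∞) (hνE : ν E ≠ ∞)
    (hcode : Measurable code)
    (hinj : ∀ (y : Y) (w : List (Fin D)), mgAct C.σ w y ≠ y → code (mgAct C.σ w y) ≠ code y)
    (hΦ : MgsField C c Q E U Φ coef L B bd sd) {lam : Y → ℂ} (hlam : Measurable lam) (hlam1 : ∀ y, ‖lam y‖ ≤ 1)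
    (k : ℕ) :
    ∫ v in U, lam v * (coef (C.setR Q (k + 2) v) v k - coef (C.setR (Q \ E) (k + 2) v) v k) ∂ν =
      ∫ u in E, ∑ v ∈ (mgBall C.σ (k + 2) u).filter (fun v => v ∈ U),
        lam v * (coef (C.setR (mgsQlt Q E code u) (k + 2) v) v k -
          coef ((C.setR (mgsQlt Q E code u) (k + 2) v).erase u) v k) ∂ν := by
  have hσ := hC.meas.inv
  let X : Y → Y → ℂ := fun v u => if v ∈ U ∧ u ∈ E then
      lam v * (coef (C.setR (mgsQlt Q E code u) (k + 2) v) v k -
        coef ((C.setR (mgsQlt Q E code u) (k + 2) v).erase u) v k) else 0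
  have hne : ∀ {v u : Y}, v ∈ U → u ∈ E → v ≠ u := by
    rintro v u hv hu rfl
    exact (hUQ hv).2 hu
  have hmem : ∀ {v : Y} (u : Y), v ∈ U → v ∈ C.setR (mgsQlt Q E code u) (k + 2) v := fun u hv =>
    MgCtx.mem_setR.2 ⟨self_mem_mgBall _ _ _, mgsQlt_of_diff code u (hUQ hv)⟩
  have hsub : ∀ (u v : Y), (↑(C.setR (mgsQlt Q E code u) (k + 2) v) : Set Y) ⊆ Q := fun u v y hy =>
    mgsQlt_subset Q E code u (MgCtx.mem_setR.1 (Finset.mem_coe.1 hy)).2
  have hXm : ∀ w, Measurable fun v => X v (mgAct C.σ w v) := by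
    intro w
    have f1 := mgs_fam_Qlt hC hc hQ hE hcode [] w
    have f2 := f1.erase hσ w
    have m1 := hΦ.meas_coef (k + 2) _ _ f1 [] k
    have m2 := hΦ.meas_coef (k + 2) _ _ f2 [] k
    simp only [mgAct_nil, MgCtx.setR_diff_singleton] at m1 m2
    have hS : MeasurableSet {v | v ∈ U ∧ mgAct C.σ w v ∈ E} := hU.inter (measurable_mgAct hσ.meas w hE)
    have e : (fun v => X v (mgAct C.σ w v)) = fun v => if v ∈ U ∧ mgAct C.σ w v ∈ E then
        lam v * ((if v ∈ C.setR (mgsQlt Q E code (mgAct C.σ w v)) (k + 2) v then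
          coef (C.setR (mgsQlt Q E code (mgAct C.σ w v)) (k + 2) v) v k else 0) -
          (if v ∈ (C.setR (mgsQlt Q E code (mgAct C.σ w v)) (k + 2) v).erase (mgAct C.σ w v) then
          coef ((C.setR (mgsQlt Q E code (mgAct C.σ w v)) (k + 2) v).erase (mgAct C.σ w v)) v k else 0))
        else 0 := by
      funext v
      by_cases hv : v ∈ U ∧ mgAct C.σ w v ∈ E
      · simp only [X, if_pos hv, if_pos (hmem _ hv.1),
          if_pos (Finset.mem_erase.2 ⟨hne hv.1 hv.2, hmem _ hv.1⟩)]
      · simp only [X, if_neg hv]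
    rw [e]
    exact Measurable.ite hS (hlam.mul (m1.sub m2)) measurable_const
  have hBL : 0 ≤ B * L ^ k := mul_nonneg hΦ.B_nonneg (pow_nonneg hΦ.L_pos.le k)
  have hXb : ∀ v u, ‖X v u‖ ≤ 2 * (B * L ^ k) := by
    intro v u
    by_cases hv : v ∈ U ∧ u ∈ E
    · simp only [X, if_pos hv]
      have b1 := hΦ.coef_le _ v k (hsub u v) (hmem u hv.1) hv.1
      have b2 := hΦ.coef_le ((C.setR (mgsQlt Q E code u) (k + 2) v).erase u) v k
        (fun y hy => hsub u v (Finset.mem_coe.2 (Finset.mem_of_mem_erase (Finset.mem_coe.1 hy))))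
        (Finset.mem_erase.2 ⟨hne hv.1 hv.2, hmem u hv.1⟩) hv.1
      calc _ ≤ ‖lam v‖ * (‖coef (C.setR (mgsQlt Q E code u) (k + 2) v) v k‖ +
            ‖coef ((C.setR (mgsQlt Q E code u) (k + 2) v).erase u) v k‖) := by
            rw [norm_mul]
            exact mul_le_mul_of_nonneg_left (norm_sub_le _ _) (norm_nonneg _)
        _ ≤ 1 * (B * L ^ k + B * L ^ k) :=
            mul_le_mul (hlam1 v) (add_le_add b1 b2) (by positivity) zero_le_one
        _ = 2 * (B * L ^ k) := by ring
    · simp only [X, if_neg hv, norm_zero]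
      positivity
  have hXs : ∀ v u, v ∉ U → X v u = 0 := fun v u hv => if_neg fun h => hv h.1
  obtain ⟨-, -, hmtp⟩ := mgs_mtp_integral hσ hC.pres (k + 2) X hXm hU hνU hXb hXs
  have hLe : ∫ v in U, lam v * (coef (C.setR Q (k + 2) v) v k - coef (C.setR (Q \ E) (k + 2) v) v k) ∂ν =
      ∫ v, ∑ u ∈ mgBall C.σ (k + 2) v, X v u ∂ν := by
    rw [← setIntegral_eq_integral_of_forall_compl_eq_zero (μ := ν) (s := U)
      (f := fun v => ∑ u ∈ mgBall C.σ (k + 2) v, X v u)
      (fun v hv => Finset.sum_eq_zero fun u _ => hXs v u hv)]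
    refine setIntegral_congr_fun hU fun v hv => ?_
    have ht := mgs_telescope (fun S => coef S v k) (C.setR Q (k + 2) v) E code
      ((mgs_code_injOn hσ.invol hinj (k + 2) v).mono fun y hy =>
        Finset.mem_coe.2 (MgCtx.mem_setR.1 (Finset.mem_coe.1 hy)).1)
    have e1 : (C.setR Q (k + 2) v).filter (fun y => y ∉ E) = C.setR (Q \ E) (k + 2) v := by
      ext y
      simp only [Finset.mem_filter, MgCtx.mem_setR, Set.mem_sdiff]
      tauto
    have e2 : (C.setR Q (k + 2) v).filter (fun y => y ∈ E) = (mgBall C.σ (k + 2) v).filter fun y => y ∈ E := by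
      ext y
      simp only [Finset.mem_filter, MgCtx.mem_setR]
      constructor
      · rintro ⟨⟨h1, -⟩, h2⟩
        exact ⟨h1, h2⟩
      · rintro ⟨h1, h2⟩
        exact ⟨⟨h1, hEQ h2⟩, h2⟩
    have e3 : ∀ u, (C.setR Q (k + 2) v).filter (fun y => ¬ (y ∈ E ∧ code y < code u)) =
        C.setR (mgsQlt Q E code u) (k + 2) v := by
      intro u
      ext y
      simp only [Finset.mem_filter, MgCtx.mem_setR, mgsQlt, Set.mem_ofPred_eq]
      tauto
    rw [e1, e2] at ht
    simp only [e3] at ht
    rw [ht, Finset.mul_sum, Finset.sum_filter]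
    refine Finset.sum_congr rfl fun u _ => ?_
    by_cases hu : u ∈ E
    · simp only [X, if_pos hu, if_pos (And.intro hv hu)]
    · simp only [X, if_neg hu, if_neg (fun h : v ∈ U ∧ u ∈ E => hu h.2)]
  have hRe : ∫ u in E, ∑ v ∈ (mgBall C.σ (k + 2) u).filter (fun v => v ∈ U),
        lam v * (coef (C.setR (mgsQlt Q E code u) (k + 2) v) v k -
          coef ((C.setR (mgsQlt Q E code u) (k + 2) v).erase u) v k) ∂ν =
      ∫ u, ∑ v ∈ mgBall C.σ (k + 2) u, X v u ∂ν := by
    rw [← setIntegral_eq_integral_of_forall_compl_eq_zero (μ := ν) (s := E)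
      (f := fun u => ∑ v ∈ mgBall C.σ (k + 2) u, X v u)
      (fun u hu => Finset.sum_eq_zero fun v _ => if_neg fun h : v ∈ U ∧ u ∈ E => hu h.2)]
    refine setIntegral_congr_fun hE fun u hu => ?_
    rw [Finset.sum_filter]
    refine Finset.sum_congr rfl fun v _ => ?_
    by_cases hv : v ∈ U
    · simp only [X, if_pos hv, if_pos (And.intro hv hu)]
    · simp only [X, if_neg hv, if_neg (fun h : v ∈ U ∧ u ∈ E => hv h.1)]
  rw [hLe, hRe, hmtp]

end

end Claimed.Agent.R302
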