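/-
R302 / MG / FieldFar   (blueprint: helper203; package MGS-FieldFar; proofs: helper107)
Step (b2) of the rank comparison: see the header of `MG/Field.lean`.
-/
import Claimed.Agent.R302.MG.FieldTele

set_option autoImplicit false
set_option linter.unusedSectionVars false
set_option linter.unusedVariables false

namespace Claimed.Agent.R302

open MeasureTheory Finset Polynomial
open scoped BigOperators ComplexConjugate ENNReal

noncomputable section

variable {Y : Type*} [MeasurableSpace Y] [DecidableEq Y] {D r : ℕ}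

omit [DecidableEq Y] in
/-- Laurent series under the integral sign -/
theorem mgs_hasSum_setIntegral {ν : Measure Y} {S : Set Y} (hS : MeasurableSet S) (hνS : ν S ≠ ∞)
    (g : ℕ → Y → ℂ) (F : Y → ℂ) (hg : ∀ k, Measurable (g k)) {M L : ℝ} (hM : 0 ≤ M) (hL : 0 ≤ L)
    (hb : ∀ k, ∀ y ∈ S, ‖g k y‖ ≤ M * L ^ k) {z : ℂ} (hz : L < ‖z‖)
    (hs : ∀ y ∈ S, HasSum (fun k => g k y / z ^ (k + 1)) (F y)) :
    HasSum (fun k => (∫ y in S, g k y ∂ν) / z ^ (k + 1)) (∫ y in S, F y ∂ν) := by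
  have hz0 : 0 < ‖z‖ := lt_of_le_of_lt hL hz
  have h1 : HasSum (fun k => ∫ y in S, g k y / z ^ (k + 1) ∂ν) (∫ y in S, F y ∂ν) := by
    refine hasSum_integral_of_dominated_convergence (fun k _ => M / ‖z‖ * (L / ‖z‖) ^ k)
      (fun k => ((hg k).div_const _).aestronglyMeasurable) (fun k => ?_) ?_ ?_ ?_
    · refine ae_restrict_of_forall_mem hS fun y hy => ?_
      rw [norm_div, norm_pow, div_pow, pow_succ]
      have := hb k y hy
      calc ‖g k y‖ / (‖z‖ ^ k * ‖z‖) ≤ M * L ^ k / (‖z‖ ^ k * ‖z‖) := by gcongr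
        _ = M / ‖z‖ * (L ^ k / ‖z‖ ^ k) := by field_simp
    · exact Filter.Eventually.of_forall fun _ =>
        (summable_geometric_of_lt_one (div_nonneg hL hz0.le) ((div_lt_one hz0).2 hz)).mul_left _
    · exact integrableOn_const hνS
    · exact ae_restrict_of_forall_mem hS hs
  simpa only [integral_div] using h1

omit [MeasurableSpace Y] [DecidableEq Y] in
theorem mgs_tail_le {f : ℕ → ℂ} {s : ℂ} (hf : HasSum f s) {M : ℝ} (hM : 0 ≤ M) (R : ℕ)
    (h0 : ∀ k, k + 2 ≤ R → f k = 0) (h1 : ∀ k, ‖f k‖ ≤ M / 2 ^ (k + 1)) : ‖s‖ ≤ 2 * M / 2 ^ R := by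
  have h2 := (hasSum_nat_add_iff' (R - 1)).2 hf
  rw [Finset.sum_eq_zero (fun i hi => h0 i (by have := Finset.mem_range.1 hi; omega)), sub_zero] at h2
  have h3 : HasSum (fun n : ℕ => M / 2 ^ R * (1 / 2 : ℝ) ^ n) (M / 2 ^ R * 2) := hasSum_geometric_two.mul_left _
  have h4 := h2.norm_le_of_bounded h3 fun n => ?_
  · calc ‖s‖ ≤ M / 2 ^ R * 2 := h4
      _ = 2 * M / 2 ^ R := by ring
  · refine (h1 _).trans ?_
    have : M / 2 ^ R * (1 / 2 : ℝ) ^ n = M / 2 ^ (n + R) := by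
      rw [one_div, inv_pow, pow_add]
      field_simp
    rw [this]
    have h5 : (2 : ℝ) ^ (n + R) ≤ 2 ^ (n + (R - 1) + 1) := pow_le_pow_right₀ one_le_two (by omega)
    gcongr

omit [MeasurableSpace Y] [DecidableEq Y] in
theorem mgs_card_words_le (D R : ℕ) : (mgWords D R).card ≤ (D + 1) ^ R := by
  induction R with
  | zero => simp [mgWords]
  | succ R ih =>
    have h1 : (mgWords D (R + 1)).card ≤ (mgWords D R).card + D * (mgWords D R).card := by
      refine (Finset.card_union_le _ _).trans (Nat.add_le_add_left (Finset.card_image_le.trans ?_) _)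
      simp [Finset.card_product]
    calc _ ≤ (mgWords D R).card + D * (mgWords D R).card := h1
      _ = (D + 1) * (mgWords D R).card := by ring
      _ ≤ (D + 1) * (D + 1) ^ R := Nat.mul_le_mul_left _ ih
      _ = (D + 1) ^ (R + 1) := by ring


variable {C : MgCtx Y D} {ν : Measure Y} {K : ℝ} {c : Y → Option (Fin r)} {Q E U : Set Y}
  {Φ : Finset Y → Y → ℂ → ℂ} {coef : Finset Y → Y → ℕ → ℂ} {L B : ℝ} {bd sd : ℝ → ℝ} {code : Y → ℝ}

/-- `k`-th Laurent coefficient of `A_R` -/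
def mgsAc (C : MgCtx Y D) (ν : Measure Y) (Q E U : Set Y) (coef : Finset Y → Y → ℕ → ℂ) (lam : Y → ℂ) (R k : ℕ) : ℂ :=
  ∫ v in U, lam v * (coef (C.setR Q R v) v k - coef (C.setR (Q \ E) R v) v k) ∂ν

open Classical in
/-- `k`-th Laurent coefficient of `B_R` -/
def mgsBc (C : MgCtx Y D) (ν : Measure Y) (Q E U : Set Y) (code : Y → ℝ) (coef : Finset Y → Y → ℕ → ℂ)
    (lam : Y → ℂ) (R k : ℕ) : ℂ :=
  ∫ u in E, ∑ v ∈ (mgBall C.σ R u).filter (fun v => v ∈ U),
    lam v * (coef (C.setR (mgsQlt Q E code u) (2 * R) u) v k -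
      coef ((C.setR (mgsQlt Q E code u) (2 * R) u).erase u) v k) ∂ν

omit [MeasurableSpace Y] in
theorem mgs_norm_lam_mul_sub_le {lam x y : ℂ} {b : ℝ} (hl : ‖lam‖ ≤ 1) (hx : ‖x‖ ≤ b) (hy : ‖y‖ ≤ b) :
    ‖lam * (x - y)‖ ≤ 2 * b := by
  have hb : 0 ≤ b := (norm_nonneg _).trans hx
  calc ‖lam * (x - y)‖ ≤ ‖lam‖ * (‖x‖ + ‖y‖) := by
        rw [norm_mul]
        exact mul_le_mul_of_nonneg_left (norm_sub_le _ _) (norm_nonneg _)
    _ ≤ 1 * (b + b) := mul_le_mul hl (add_le_add hx hy) (by positivity) zero_le_one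
    _ = 2 * b := by ring

theorem mgs_A_series (hC : C.Inv ν K) (hc : MgMeasC c) (hQ : MeasurableSet Q) (hE : MeasurableSet E)
    (hU : MeasurableSet U) (hUQ : U ⊆ Q \ E) (hνU : ν U ≠ ∞)
    (hΦ : MgsField C c Q E U Φ coef L B bd sd) (R : ℕ) {lam : Y → ℂ} (hlam : Measurable lam)
    (hlam1 : ∀ y, ‖lam y‖ ≤ 1) :
    (∀ z : ℂ, L < ‖z‖ → HasSum (fun k => mgsAc C ν Q E U coef lam R k / z ^ (k + 1)) (mgsA C ν Q E U Φ lam R z)) ∧
      ∀ k, ‖mgsAc C ν Q E U coef lam R k‖ ≤ 2 * B * L ^ k * (ν U).toReal := by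
  have hσ := hC.meas.inv
  have m1 : ∀ {v : Y}, v ∈ U → v ∈ C.setR Q R v := fun hv =>
    MgCtx.mem_setR.2 ⟨self_mem_mgBall _ _ _, (hUQ hv).1⟩
  have m2 : ∀ {v : Y}, v ∈ U → v ∈ C.setR (Q \ E) R v := fun hv =>
    MgCtx.mem_setR.2 ⟨self_mem_mgBall _ _ _, hUQ hv⟩
  have s1 : ∀ v : Y, (↑(C.setR Q R v) : Set Y) ⊆ Q := fun v y hy => (MgCtx.mem_setR.1 (Finset.mem_coe.1 hy)).2
  have s2 : ∀ v : Y, (↑(C.setR (Q \ E) R v) : Set Y) ⊆ Q := fun v y hy =>
    (MgCtx.mem_setR.1 (Finset.mem_coe.1 hy)).2.1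
  have hb : ∀ k, ∀ v ∈ U, ‖lam v * (coef (C.setR Q R v) v k - coef (C.setR (Q \ E) R v) v k)‖ ≤ 2 * B * L ^ k := by
    intro k v hv
    rw [mul_assoc]
    exact mgs_norm_lam_mul_sub_le (hlam1 v) (hΦ.coef_le _ v k (s1 v) (m1 hv) hv)
      (hΦ.coef_le _ v k (s2 v) (m2 hv) hv)
  refine ⟨fun z hz => ?_, fun k => ?_⟩
  · let g : ℕ → Y → ℂ := fun k v => lam v * ((if v ∈ C.setR Q R v then coef (C.setR Q R v) v k else 0) -
      (if v ∈ C.setR (Q \ E) R v then coef (C.setR (Q \ E) R v) v k else 0))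
    have hg : ∀ k, Measurable (g k) := by
      intro k
      have a1 := hΦ.meas_coef R _ _ (MgFam.const hσ hc hQ) [] k
      have a2 := hΦ.meas_coef R _ _ (MgFam.const hσ hc (hQ.diff hE)) [] k
      simp only [mgAct_nil] at a1 a2
      exact hlam.mul (a1.sub a2)
    have hge : ∀ k, ∀ v ∈ U, g k v = lam v * (coef (C.setR Q R v) v k - coef (C.setR (Q \ E) R v) v k) := by
      intro k v hv
      simp only [g, if_pos (m1 hv), if_pos (m2 hv)]
    have h1 := mgs_hasSum_setIntegral hU hνU g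
      (fun v => lam v * (Φ (C.setR Q R v) v z - Φ (C.setR (Q \ E) R v) v z)) hg
      (M := 2 * B) (L := L) (by have := hΦ.B_nonneg; positivity) hΦ.L_pos.le
      (fun k v hv => by rw [hge k v hv]; exact hb k v hv) hz (fun v hv => ?_)
    · have e : ∀ k, ∫ y in U, g k y ∂ν = mgsAc C ν Q E U coef lam R k := fun k =>
        setIntegral_congr_fun hU (hge k)
      simp only [e] at h1
      exact h1
    · have a1 := hΦ.hasSum _ v z (s1 v) (m1 hv) hv hz
      have a2 := hΦ.hasSum _ v z (s2 v) (m2 hv) hv hz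
      have a3 := (a1.sub a2).mul_left (lam v)
      have e : (fun k => g k v / z ^ (k + 1)) = fun k => lam v *
          (coef (C.setR Q R v) v k / z ^ (k + 1) - coef (C.setR (Q \ E) R v) v k / z ^ (k + 1)) := by
        funext k
        rw [hge k v hv]
        ring
      rw [e]
      exact a3
  · exact norm_setIntegral_le_of_norm_le_const hνU.lt_top (hb k)

theorem mgs_B_series (hC : C.Inv ν K) (hc : MgMeasC c) (hQ : MeasurableSet Q) (hE : MeasurableSet E)
    (hU : MeasurableSet U) (hUQ : U ⊆ Q \ E) (hνE : ν E ≠ ∞) (hcode : Measurable code)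
    (hΦ : MgsField C c Q E U Φ coef L B bd sd) (R : ℕ) {lam : Y → ℂ} (hlam : Measurable lam)
    (hlam1 : ∀ y, ‖lam y‖ ≤ 1) :
    (∀ z : ℂ, L < ‖z‖ →
      HasSum (fun k => mgsBc C ν Q E U code coef lam R k / z ^ (k + 1)) (mgsB C ν Q E U code Φ lam R z)) ∧
      ∀ k, ‖mgsBc C ν Q E U code coef lam R k‖ ≤ 2 * B * (D + 1) ^ R * L ^ k * (ν E).toReal := by
  classical
  have hσ := hC.meas.inv
  have hB := hΦ.B_nonneg
  have hL := hΦ.L_pos
  have m1 : ∀ {u v : Y}, v ∈ (mgBall C.σ R u).filter (fun v => v ∈ U) →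
      v ∈ C.setR (mgsQlt Q E code u) (2 * R) u := fun {u v} hv =>
    MgCtx.mem_setR.2 ⟨mgBall_mono _ (by omega) _ (Finset.mem_filter.1 hv).1,
      mgsQlt_of_diff code u (hUQ (Finset.mem_filter.1 hv).2)⟩
  have m2 : ∀ {u v : Y}, u ∈ E → v ∈ (mgBall C.σ R u).filter (fun v => v ∈ U) →
      v ∈ (C.setR (mgsQlt Q E code u) (2 * R) u).erase u := fun {u v} hu hv =>
    Finset.mem_erase.2 ⟨fun h => (hUQ (Finset.mem_filter.1 hv).2).2 (h ▸ hu), m1 hv⟩
  have s1 : ∀ u : Y, (↑(C.setR (mgsQlt Q E code u) (2 * R) u) : Set Y) ⊆ Q := fun u y hy =>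
    mgsQlt_subset Q E code u (MgCtx.mem_setR.1 (Finset.mem_coe.1 hy)).2
  have s2 : ∀ u : Y, (↑((C.setR (mgsQlt Q E code u) (2 * R) u).erase u) : Set Y) ⊆ Q := fun u y hy =>
    s1 u (Finset.mem_coe.2 (Finset.mem_of_mem_erase (Finset.mem_coe.1 hy)))
  have hb : ∀ k, ∀ u ∈ E, ‖∑ v ∈ (mgBall C.σ R u).filter (fun v => v ∈ U),
      lam v * (coef (C.setR (mgsQlt Q E code u) (2 * R) u) v k -
        coef ((C.setR (mgsQlt Q E code u) (2 * R) u).erase u) v k)‖ ≤ 2 * B * (D + 1) ^ R * L ^ k := by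
    intro k u hu
    have h1 : ∀ v ∈ (mgBall C.σ R u).filter (fun v => v ∈ U),
        ‖lam v * (coef (C.setR (mgsQlt Q E code u) (2 * R) u) v k -
          coef ((C.setR (mgsQlt Q E code u) (2 * R) u).erase u) v k)‖ ≤ 2 * (B * L ^ k) := fun v hv =>
      mgs_norm_lam_mul_sub_le (hlam1 v) (hΦ.coef_le _ v k (s1 u) (m1 hv) (Finset.mem_filter.1 hv).2)
        (hΦ.coef_le _ v k (s2 u) (m2 hu hv) (Finset.mem_filter.1 hv).2)
    have h2 : (((mgBall C.σ R u).filter (fun v => v ∈ U)).card : ℝ) ≤ ((D : ℝ) + 1) ^ R := by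
      have := ((Finset.card_filter_le (mgBall C.σ R u) (fun v => v ∈ U)).trans
        (card_mgBall_le C.σ R u)).trans (mgs_card_words_le D R)
      exact_mod_cast this
    calc _ ≤ ∑ v ∈ (mgBall C.σ R u).filter (fun v => v ∈ U), 2 * (B * L ^ k) :=
          (norm_sum_le _ _).trans (Finset.sum_le_sum h1)
      _ = ((mgBall C.σ R u).filter (fun v => v ∈ U)).card * (2 * (B * L ^ k)) := by
          rw [Finset.sum_const, nsmul_eq_mul]
      _ ≤ ((D : ℝ) + 1) ^ R * (2 * (B * L ^ k)) := mul_le_mul_of_nonneg_right h2 (by positivity)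
      _ = 2 * B * (D + 1) ^ R * L ^ k := by ring
  refine ⟨fun z hz => ?_, fun k => ?_⟩
  · let G : ℕ → Y → Y → ℂ := fun k u v => if v ∈ U then
      lam v * ((if v ∈ C.setR (mgsQlt Q E code u) (2 * R) u then
          coef (C.setR (mgsQlt Q E code u) (2 * R) u) v k else 0) -
        (if v ∈ (C.setR (mgsQlt Q E code u) (2 * R) u).erase u then
          coef ((C.setR (mgsQlt Q E code u) (2 * R) u).erase u) v k else 0)) else 0
    let g : ℕ → Y → ℂ := fun k u => ∑ v ∈ mgBall C.σ R u, G k u v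
    have hg : ∀ k, Measurable (g k) := by
      intro k
      refine mg_measurable_sum_ball hσ R (root := fun u : Y => u) measurable_id (G k) fun w => ?_
      have f1 := mgs_fam_Qlt hC hc hQ hE hcode [] []
      have f2 := f1.erase hσ []
      have a1 := hΦ.meas_coef (2 * R) _ _ f1 w k
      have a2 := hΦ.meas_coef (2 * R) _ _ f2 w k
      simp only [mgAct_nil, MgCtx.setR_diff_singleton] at a1 a2
      exact Measurable.ite (measurable_mgAct hσ.meas w hU)
        ((hlam.comp (measurable_mgAct hσ.meas w)).mul (a1.sub a2)) measurable_const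
    have hge : ∀ k, ∀ u ∈ E, g k u = ∑ v ∈ (mgBall C.σ R u).filter (fun v => v ∈ U),
      lam v * (coef (C.setR (mgsQlt Q E code u) (2 * R) u) v k -
        coef ((C.setR (mgsQlt Q E code u) (2 * R) u).erase u) v k) := by
      intro k u hu
      rw [Finset.sum_filter]
      refine Finset.sum_congr rfl fun v hv => ?_
      by_cases hvU : v ∈ U
      · have hv' := Finset.mem_filter.2 ⟨hv, hvU⟩
        simp only [G, if_pos hvU, if_pos (m1 hv'), if_pos (m2 hu hv')]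
      · simp only [G, if_neg hvU]
    have h1 := mgs_hasSum_setIntegral hE hνE g
      (fun u => ∑ v ∈ (mgBall C.σ R u).filter (fun v => v ∈ U),
        lam v * (Φ (C.setR (mgsQlt Q E code u) (2 * R) u) v z -
          Φ ((C.setR (mgsQlt Q E code u) (2 * R) u).erase u) v z)) hg
      (M := 2 * B * (D + 1) ^ R) (L := L) (by positivity) hL.le
      (fun k u hu => by rw [hge k u hu]; exact hb k u hu) hz (fun u hu => ?_)
    · have e : ∀ k, ∫ y in E, g k y ∂ν = mgsBc C ν Q E U code coef lam R k := fun k =>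
        setIntegral_congr_fun hE (hge k)
      simp only [e] at h1
      exact h1
    · have e : (fun k => g k u / z ^ (k + 1)) = fun k => ∑ v ∈ (mgBall C.σ R u).filter (fun v => v ∈ U),
          lam v * (coef (C.setR (mgsQlt Q E code u) (2 * R) u) v k / z ^ (k + 1) -
            coef ((C.setR (mgsQlt Q E code u) (2 * R) u).erase u) v k / z ^ (k + 1)) := by
        funext k
        rw [hge k u hu, Finset.sum_div]
        refine Finset.sum_congr rfl fun v _ => ?_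
        ring
      rw [e]
      refine hasSum_sum fun v hv => ?_
      have hvU := (Finset.mem_filter.1 hv).2
      exact ((hΦ.hasSum _ v z (s1 u) (m1 hv) hvU hz).sub
        (hΦ.hasSum _ v z (s2 u) (m2 hu hv) hvU hz)).mul_left (lam v)
  · exact norm_setIntegral_le_of_norm_le_const hνE.lt_top (hb k)

theorem mgs_Ac_eq_Bc (hC : C.Inv ν K) (hc : MgMeasC c) (hQ : MeasurableSet Q) (hE : MeasurableSet E)
    (hU : MeasurableSet U) (hEQ : E ⊆ Q) (hUQ : U ⊆ Q \ E) (hνU : ν U ≠ ∞) (hνE : ν E ≠ ∞)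
    (hcode : Measurable code)
    (hinj : ∀ (y : Y) (w : List (Fin D)), mgAct C.σ w y ≠ y → code (mgAct C.σ w y) ≠ code y)
    (hΦ : MgsField C c Q E U Φ coef L B bd sd) {lam : Y → ℂ} (hlam : Measurable lam) (hlam1 : ∀ y, ‖lam y‖ ≤ 1)
    {R k : ℕ} (hk : k + 2 ≤ R) :
    mgsAc C ν Q E U coef lam R k = mgsBc C ν Q E U code coef lam R k := by
  classical
  have hσ := hC.meas.inv
  have ht := mgs_coef_transport hC hc hQ hE hU hEQ hUQ hνU hνE hcode hinj hΦ hlam hlam1 k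
  have e1 : mgsAc C ν Q E U coef lam R k =
      ∫ v in U, lam v * (coef (C.setR Q (k + 2) v) v k - coef (C.setR (Q \ E) (k + 2) v) v k) ∂ν := by
    refine setIntegral_congr_fun hU fun v hv => ?_
    have a1 : coef (C.setR Q R v) v k = coef (C.setR Q (k + 2) v) v k := by
      refine hΦ.loc _ _ v k (fun y hy => (MgCtx.mem_setR.1 (Finset.mem_coe.1 hy)).2)
        (fun y hy => (MgCtx.mem_setR.1 (Finset.mem_coe.1 hy)).2)
        (MgCtx.mem_setR.2 ⟨self_mem_mgBall _ _ _, (hUQ hv).1⟩)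
        (MgCtx.mem_setR.2 ⟨self_mem_mgBall _ _ _, (hUQ hv).1⟩) hv fun y hy => ?_
      simp only [MgCtx.mem_setR, hy, mgBall_mono C.σ hk v hy]
    have a2 : coef (C.setR (Q \ E) R v) v k = coef (C.setR (Q \ E) (k + 2) v) v k := by
      refine hΦ.loc _ _ v k (fun y hy => (MgCtx.mem_setR.1 (Finset.mem_coe.1 hy)).2.1)
        (fun y hy => (MgCtx.mem_setR.1 (Finset.mem_coe.1 hy)).2.1)
        (MgCtx.mem_setR.2 ⟨self_mem_mgBall _ _ _, hUQ hv⟩)
        (MgCtx.mem_setR.2 ⟨self_mem_mgBall _ _ _, hUQ hv⟩) hv fun y hy => ?_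
      simp only [MgCtx.mem_setR, hy, mgBall_mono C.σ hk v hy]
    simp only [a1, a2]
  have e2 : mgsBc C ν Q E U code coef lam R k =
      ∫ u in E, ∑ v ∈ (mgBall C.σ (k + 2) u).filter (fun v => v ∈ U),
        lam v * (coef (C.setR (mgsQlt Q E code u) (k + 2) v) v k -
          coef ((C.setR (mgsQlt Q E code u) (k + 2) v).erase u) v k) ∂ν := by
    refine setIntegral_congr_fun hE fun u hu => ?_
    have key : ∀ v ∈ (mgBall C.σ R u).filter (fun v => v ∈ U),
        coef (C.setR (mgsQlt Q E code u) (2 * R) u) v k = coef (C.setR (mgsQlt Q E code u) (k + 2) v) v k ∧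
        coef ((C.setR (mgsQlt Q E code u) (2 * R) u).erase u) v k =
          coef ((C.setR (mgsQlt Q E code u) (k + 2) v).erase u) v k := by
      intro v hv
      obtain ⟨hvb, hvU⟩ := Finset.mem_filter.1 hv
      have hne : v ≠ u := fun h => (hUQ hvU).2 (h ▸ hu)
      have hq : v ∈ mgsQlt Q E code u := mgsQlt_of_diff code u (hUQ hvU)
      have m1 : v ∈ C.setR (mgsQlt Q E code u) (2 * R) u :=
        MgCtx.mem_setR.2 ⟨mgBall_mono _ (by omega) _ hvb, hq⟩
      have m2 : v ∈ C.setR (mgsQlt Q E code u) (k + 2) v := MgCtx.mem_setR.2 ⟨self_mem_mgBall _ _ _, hq⟩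
      have s1 : (↑(C.setR (mgsQlt Q E code u) (2 * R) u) : Set Y) ⊆ Q := fun y hy =>
        mgsQlt_subset Q E code u (MgCtx.mem_setR.1 (Finset.mem_coe.1 hy)).2
      have s2 : (↑(C.setR (mgsQlt Q E code u) (k + 2) v) : Set Y) ⊆ Q := fun y hy =>
        mgsQlt_subset Q E code u (MgCtx.mem_setR.1 (Finset.mem_coe.1 hy)).2
      have hball : ∀ y ∈ mgBall C.σ (k + 2) v, y ∈ mgBall C.σ (2 * R) u := fun y hy =>
        mgBall_mono _ (by omega) _ (mgBall_trans hvb hy)
      constructor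
      · refine hΦ.loc _ _ v k s1 s2 m1 m2 hvU fun y hy => ?_
        simp only [MgCtx.mem_setR, hy, hball y hy]
      · refine hΦ.loc _ _ v k
          (fun y hy => s1 (Finset.mem_coe.2 (Finset.mem_of_mem_erase (Finset.mem_coe.1 hy))))
          (fun y hy => s2 (Finset.mem_coe.2 (Finset.mem_of_mem_erase (Finset.mem_coe.1 hy))))
          (Finset.mem_erase.2 ⟨hne, m1⟩) (Finset.mem_erase.2 ⟨hne, m2⟩) hvU fun y hy => ?_
        simp only [Finset.mem_erase, MgCtx.mem_setR, hy, hball y hy]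
    symm
    refine Finset.sum_subset_zero_on_sdiff
      (Finset.filter_subset_filter _ (mgBall_mono C.σ hk u)) (fun v hv => ?_) (fun v hv => ?_)
    · obtain ⟨hv1, hv2⟩ := Finset.mem_sdiff.1 hv
      have hvb : v ∉ mgBall C.σ (k + 2) u := fun h =>
        hv2 (Finset.mem_filter.2 ⟨h, (Finset.mem_filter.1 hv1).2⟩)
      have hu' : u ∉ C.setR (mgsQlt Q E code u) (k + 2) v := fun h =>
        hvb (mgBall_symm hσ.invol (MgCtx.mem_setR.1 h).1)
      rw [(key v hv1).1, (key v hv1).2, Finset.erase_eq_of_notMem hu', sub_self, mul_zero]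
    · have hv1 := Finset.filter_subset_filter (fun v => v ∈ U) (mgBall_mono C.σ hk u) hv
      rw [(key v hv1).1, (key v hv1).2]
  rw [e1, e2, ht]

/-- (b2) `A_R - B_R` is small far from the spectrum, uniformly in `λ` -/
theorem mgs_A_sub_B_far (hC : C.Inv ν K) (hc : MgMeasC c) (hQ : MeasurableSet Q) (hE : MeasurableSet E)
    (hU : MeasurableSet U) (hEQ : E ⊆ Q) (hUQ : U ⊆ Q \ E) (hνU : ν U ≠ ∞) (hνE : ν E ≠ ∞)
    (hcode : Measurable code)
    (hinj : ∀ (y : Y) (w : List (Fin D)), mgAct C.σ w y ≠ y → code (mgAct C.σ w y) ≠ code y)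
    (hΦ : MgsField C c Q E U Φ coef L B bd sd) :
    ∃ C0 : ℝ, ∀ (R : ℕ) (lam : Y → ℂ), Measurable lam → (∀ y, ‖lam y‖ ≤ 1) → ∀ z : ℂ, 2 * (D + 1) * L ≤ ‖z‖ →
      ‖mgsA C ν Q E U Φ lam R z - mgsB C ν Q E U code Φ lam R z‖ ≤ C0 / 2 ^ R := by
  have hB := hΦ.B_nonneg
  have hL := hΦ.L_pos
  refine ⟨2 * (2 * B * ((ν U).toReal + (ν E).toReal) / L), fun R lam hlam hlam1 z hz => ?_⟩
  have hD : (1 : ℝ) ≤ (D : ℝ) + 1 := by
    have : (0 : ℝ) ≤ D := Nat.cast_nonneg D
    linarith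
  have hzL : L < ‖z‖ := by nlinarith
  have hz0 : 0 < ‖z‖ := hL.trans hzL
  obtain ⟨hA1, hA2⟩ := mgs_A_series hC hc hQ hE hU hUQ hνU hΦ R hlam hlam1
  obtain ⟨hB1, hB2⟩ := mgs_B_series hC hc hQ hE hU hUQ hνE hcode hΦ R hlam hlam1
  have hs := (hA1 z hzL).sub (hB1 z hzL)
  have ha : 0 ≤ (ν U).toReal := ENNReal.toReal_nonneg
  have hb : 0 ≤ (ν E).toReal := ENNReal.toReal_nonneg
  refine mgs_tail_le hs (by positivity) R (fun k hk => ?_) (fun k => ?_)
  · rw [mgs_Ac_eq_Bc hC hc hQ hE hU hEQ hUQ hνU hνE hcode hinj hΦ hlam hlam1 hk, sub_self]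
  · by_cases hk : k + 2 ≤ R
    · rw [mgs_Ac_eq_Bc hC hc hQ hE hU hEQ hUQ hνU hνE hcode hinj hΦ hlam hlam1 hk, sub_self, norm_zero]
      positivity
    · rw [← sub_div, norm_div, norm_pow]
      have h1 : ((D : ℝ) + 1) ^ R ≤ ((D : ℝ) + 1) ^ (k + 1) := pow_le_pow_right₀ hD (by omega)
      have h0 : (1 : ℝ) ≤ ((D : ℝ) + 1) ^ (k + 1) := one_le_pow₀ hD
      have h2 : ‖mgsAc C ν Q E U coef lam R k - mgsBc C ν Q E U code coef lam R k‖ ≤
          2 * B * ((ν U).toReal + (ν E).toReal) * (((D : ℝ) + 1) ^ (k + 1) * L ^ k) := by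
        calc _ ≤ 2 * B * L ^ k * (ν U).toReal + 2 * B * (D + 1) ^ R * L ^ k * (ν E).toReal :=
              (norm_sub_le _ _).trans (add_le_add (hA2 k) (hB2 k))
          _ ≤ 2 * B * ((D : ℝ) + 1) ^ (k + 1) * L ^ k * (ν U).toReal +
              2 * B * ((D : ℝ) + 1) ^ (k + 1) * L ^ k * (ν E).toReal := by
              refine add_le_add ?_ ?_
              · have : 2 * B * L ^ k * (ν U).toReal = 2 * B * 1 * L ^ k * (ν U).toReal := by ring
                rw [this]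
                gcongr
              · gcongr
          _ = _ := by ring
      have h3 : (2 * ((D : ℝ) + 1) * L) ^ (k + 1) ≤ ‖z‖ ^ (k + 1) := pow_le_pow_left₀ (by positivity) hz _
      calc _ ≤ 2 * B * ((ν U).toReal + (ν E).toReal) * (((D : ℝ) + 1) ^ (k + 1) * L ^ k) /
            (2 * ((D : ℝ) + 1) * L) ^ (k + 1) := by gcongr
        _ = 2 * B * ((ν U).toReal + (ν E).toReal) / L / 2 ^ (k + 1) := by
            rw [mul_pow, mul_pow, pow_succ L k]
            field_simp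

end

end Claimed.Agent.R302
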