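/-
R302 / MG / FieldMain   (blueprint: helper203; package MGS-FieldMain; proofs: helper107)
Step (c5) and the rank comparison: see the header of `MG/Field.lean`.
-/
import Claimed.Agent.R302.MG.FieldFar
import Claimed.Agent.R302.MG.FieldBd

set_option autoImplicit false
set_option linter.unusedSectionVars false

namespace Claimed.Agent.R302

open MeasureTheory Finset Polynomial
open scoped BigOperators ComplexConjugate ENNReal

noncomputable section

variable {Y : Type*} [MeasurableSpace Y] [DecidableEq Y] {D r : ℕ}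

variable {C : MgCtx Y D} {ν : Measure Y} {K : ℝ} {c : Y → Option (Fin r)} {Q E U : Set Y}
  {Φ : Finset Y → Y → ℂ → ℂ} {coef : Finset Y → Y → ℕ → ℂ} {L B : ℝ} {bd sd : ℝ → ℝ} {code : Y → ℝ}

/-- (c5) continuation to the imaginary axis, uniformly in `λ` -/
theorem mgs_A_sub_B_axis (hC : C.Inv ν K) (hc : MgMeasC c) (hQ : MeasurableSet Q) (hE : MeasurableSet E)
    (hU : MeasurableSet U) (hEQ : E ⊆ Q) (hUQ : U ⊆ Q \ E) (hνU : ν U ≠ ∞) (hνE : ν E ≠ ∞)
    (hcode : Measurable code)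
    (hinj : ∀ (y : Y) (w : List (Fin D)), mgAct C.σ w y ≠ y → code (mgAct C.σ w y) ≠ code y)
    (hΦ : MgsField C c Q E U Φ coef L B bd sd) {η0 η1 ε : ℝ} (h0 : 0 < η0) (h1 : η0 ≤ η1) (hε : 0 < ε) :
    ∃ R0 : ℕ, ∀ R ≥ R0, ∀ lam : Y → ℂ, Measurable lam → (∀ y, ‖lam y‖ ≤ 1) → ∀ η ∈ Set.Icc η0 η1,
      ‖mgsA C ν Q E U Φ lam R (mgsI η) - mgsB C ν Q E U code Φ lam R (mgsI η)‖ ≤ ε := by
  have hL := hΦ.L_pos
  have hD : (0 : ℝ) ≤ D := Nat.cast_nonneg D
  obtain ⟨C0, hC0⟩ := mgs_A_sub_B_far hC hc hQ hE hU hEQ hUQ hνU hνE hcode hinj hΦ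
  set T : ℝ := 2 * (D + 1) * L + 1 + η1 with hT
  have hDL : 0 ≤ 2 * ((D : ℝ) + 1) * L := by positivity
  set M : ℝ := max 0 (2 * bd (η0 / 2) * (ν U).toReal + sd (η0 / 2) * (ν E).toReal) with hM
  obtain ⟨δ, hδ, hvit⟩ := mgs_vitali (mgsI T) (ρ1 := 1) (ρ := T - η0) (ρ2 := T - η0 / 2) (M := M) (ε := ε)
    one_pos (by linarith) (le_max_left _ _) hε
  -- choice of `R0`
  have hlim : Filter.Tendsto (fun R : ℕ => C0 * (1 / 2 : ℝ) ^ R) Filter.atTop (nhds (C0 * 0)) :=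
    (tendsto_pow_atTop_nhds_zero_of_lt_one (by norm_num) (by norm_num)).const_mul C0
  rw [mul_zero] at hlim
  obtain ⟨R0, hR0⟩ := Filter.eventually_atTop.1 (hlim.eventually_lt_const hδ)
  refine ⟨R0, fun R hR lam hlam hlam1 η hη => ?_⟩
  have him : ∀ z ∈ Metric.ball (mgsI T) (T - η0 / 2), η0 / 2 < z.im := by
    intro z hz
    rw [Metric.mem_ball, dist_eq_norm] at hz
    have h2 := (Complex.abs_im_le_norm (z - mgsI T)).trans_lt hz
    rw [Complex.sub_im, mgsr_I_im] at h2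
    have := (abs_lt.1 h2).1
    linarith
  refine hvit (fun z => mgsA C ν Q E U Φ lam R z - mgsB C ν Q E U code Φ lam R z) ?_ ?_ ?_ (mgsI η) ?_
  · have hsub : Metric.ball (mgsI T) (T - η0 / 2) ⊆ {z : ℂ | 0 < z.im} := fun z hz => by
      have := him z hz
      exact (by linarith : 0 < z.im)
    exact ((mgs_A_diff hC hc hQ hE hU hEQ hUQ hνU hΦ R hlam hlam1).sub
      (mgs_B_diff hC hc hQ hE hU hEQ hUQ hνE hcode hΦ R hlam hlam1)).mono hsub
  · intro z hz
    have h2 := him z hz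
    have hz0 : 0 < z.im := by linarith
    have hη2 : (0 : ℝ) < η0 / 2 := by linarith
    have a1 := mgs_A_bound hC hc hQ hE hU hEQ hUQ hνU hΦ R hlam hlam1 hz0
    have a2 := mgs_B_bound hC hc hQ hE hU hEQ hUQ hνE hcode hΦ R hlam hlam1 hz0
    have b1 : bd z.im ≤ bd (η0 / 2) := hΦ.bd_anti hη2 hz0 h2.le
    have b2 : sd z.im ≤ sd (η0 / 2) := hΦ.sd_anti hη2 hz0 h2.le
    have c1 : (0 : ℝ) ≤ (ν U).toReal := ENNReal.toReal_nonneg
    have c2 : (0 : ℝ) ≤ (ν E).toReal := ENNReal.toReal_nonneg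
    refine le_trans ?_ (le_max_right _ _)
    calc _ ≤ 2 * bd z.im * (ν U).toReal + sd z.im * (ν E).toReal :=
          (norm_sub_le _ _).trans (add_le_add a1 a2)
      _ ≤ _ := by gcongr
  · intro z hz
    rw [Metric.mem_ball, dist_eq_norm] at hz
    have h2 : ‖mgsI T‖ = T := by
      have hT0 : 0 ≤ T := by rw [hT]; linarith
      simp [mgsI, abs_of_nonneg hT0]
    have h3 : 2 * ((D : ℝ) + 1) * L ≤ ‖z‖ := by
      have h4 : ‖mgsI T‖ ≤ ‖z‖ + ‖z - mgsI T‖ := by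
        have := norm_sub_le z (z - mgsI T)
        simpa using this
      rw [h2] at h4
      linarith
    refine (hC0 R lam hlam hlam1 z h3).trans ?_
    have h5 := hR0 R hR
    have h6 : C0 / 2 ^ R = C0 * (1 / 2 : ℝ) ^ R := by
      rw [one_div, inv_pow, div_eq_mul_inv]
    rw [h6]
    exact h5.le
  · rw [Metric.mem_closedBall, dist_eq_norm]
    have h2 : mgsI η - mgsI T = mgsI (η - T) := by
      simp only [mgsI]
      push_cast
      ring
    have h3 : η - T ≤ 0 := by have := hη.2; rw [hT]; linarith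
    rw [h2]
    have h4 : ‖mgsI (η - T)‖ = T - η := by
      simp only [mgsI, norm_mul, Complex.norm_I, mul_one, Complex.norm_real, Real.norm_eq_abs]
      rw [abs_of_nonpos h3]
      ring
    rw [h4]
    have := hη.1
    linarith

/-- **RANK COMPARISON** -/
theorem mgs_rank (hC : C.Inv ν K) (hc : MgMeasC c) (hQ : MeasurableSet Q) (hE : MeasurableSet E)
    (hU : MeasurableSet U) (hEQ : E ⊆ Q) (hUQ : U ⊆ Q \ E) (hνU : ν U ≠ ∞) (hνE : ν E ≠ ∞)
    (hΦ : MgsField C c Q E U Φ coef L B bd sd) {η0 η1 ε : ℝ} (h0 : 0 < η0) (h1 : η0 ≤ η1) (hε : 0 < ε) :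
    ∃ R0 : ℕ, ∀ R ≥ R0, ∀ η ∈ Set.Icc η0 η1,
      ∫ v in U, ‖Φ (C.setR Q R v) v (mgsI η) - Φ (C.setR (Q \ E) R v) v (mgsI η)‖ ∂ν ≤
        sd η * (ν E).toReal + ε := by
  obtain ⟨code, hcode, hinj⟩ := mgs_exists_code hC.meas.inv
  obtain ⟨R0, hR0⟩ := mgs_A_sub_B_axis hC hc hQ hE hU hEQ hUQ hνU hνE hcode hinj hΦ h0 h1 hε
  refine ⟨R0, fun R hR η hη => ?_⟩
  set z := mgsI η with hz
  have hzim : z.im = η := mgsr_I_im η
  have hz0 : 0 < z.im := by rw [hzim]; exact lt_of_lt_of_le h0 hη.1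
  let d : Y → ℂ := fun v => Φ (C.setR Q R v) v z - Φ (C.setR (Q \ E) R v) v z
  have hd : Measurable d := by
    have a1 := hΦ.meas R (fun y => y) (fun _ => Q) (MgFam.const hC.meas.inv hc hQ) [] z
    have a2 := hΦ.meas R (fun y => y) (fun _ => Q \ E) (MgFam.const hC.meas.inv hc (hQ.diff hE)) [] z
    simp only [mgAct_nil] at a1 a2
    exact a1.sub a2
  let lam : Y → ℂ := fun v => conj (d v) / (‖d v‖ : ℂ)
  have hlam : Measurable lam :=
    (Complex.continuous_conj.measurable.comp hd).div (Complex.measurable_ofReal.comp hd.norm)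
  have hlam1 : ∀ y, ‖lam y‖ ≤ 1 := by
    intro y
    simp only [lam, norm_div, RCLike.norm_conj, Complex.norm_real, norm_norm]
    exact div_self_le_one _
  have hmul : ∀ v, lam v * d v = ((‖d v‖ : ℝ) : ℂ) := by
    intro v
    by_cases h : d v = 0
    · simp [lam, h]
    · have h' : ((‖d v‖ : ℝ) : ℂ) ≠ 0 := by
        simpa using h
      simp only [lam]
      rw [div_mul_eq_mul_div, Complex.conj_mul', div_eq_iff h']
      ring
  have hA : mgsA C ν Q E U Φ lam R z = ((∫ v in U, ‖d v‖ ∂ν : ℝ) : ℂ) := by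
    rw [← integral_complex_ofReal]
    unfold mgsA
    exact integral_congr_ae (Filter.Eventually.of_forall fun v => hmul v)
  have hnn : 0 ≤ ∫ v in U, ‖d v‖ ∂ν := integral_nonneg fun _ => norm_nonneg _
  have h2 := hR0 R hR lam hlam hlam1 η hη
  have h3 := mgs_B_bound hC hc hQ hE hU hEQ hUQ hνE hcode hΦ R hlam hlam1 hz0
  rw [hzim] at h3
  have h4 : ‖mgsA C ν Q E U Φ lam R z‖ = ∫ v in U, ‖d v‖ ∂ν := by
    rw [hA, Complex.norm_real, Real.norm_eq_abs, abs_of_nonneg hnn]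
  have h5 : ‖mgsA C ν Q E U Φ lam R z‖ ≤ ‖mgsA C ν Q E U Φ lam R z - mgsB C ν Q E U code Φ lam R z‖ +
      ‖mgsB C ν Q E U code Φ lam R z‖ := by
    have := norm_add_le (mgsA C ν Q E U Φ lam R z - mgsB C ν Q E U code Φ lam R z)
      (mgsB C ν Q E U code Φ lam R z)
    simpa using this
  rw [h4] at h5
  linarith

end

end Claimed.Agent.R302
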