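/-
R302 / MG / CompareA   (helper255)   tools for `MG/Compare.lean` (package MGS-Compare).

* `mgq_majorant`: abstract Fubini step.  `Δ η v ≥ 0` jointly measurable, bounded, `∫ Δ η · dν' ≤ s` for `η0 ≤ η ≤ η1`:
  the majorant `g v = A (Δ η0 v + Δ η1 v + ∫_{η0}^{η1} Δ η v dη) + tail` is integrable with `∫ g dν' ≤ A (2 + η1 - η0) s + tail`.
* `mgsDel`: the field difference at `z = i max(η, η0)`, cut off outside the targets; joint measurability, bounds, integral (from `mgs_rank`).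
-/
import Claimed.Agent.R302.MG.FieldMain

set_option autoImplicit false
set_option linter.unusedSectionVars false

namespace Claimed.Agent.R302

open MeasureTheory Finset Polynomial
open scoped BigOperators ComplexConjugate ENNReal

noncomputable section

theorem mgq_majorant {Y : Type*} [MeasurableSpace Y] (ν' : Measure Y) [IsFiniteMeasure ν']
    (hν' : ν' Set.univ ≤ 1) {η0 η1 A s b tail : ℝ} (h01 : η0 ≤ η1) (hA : 0 ≤ A) (htail : 0 ≤ tail)
    (Δ : ℝ → Y → ℝ) (hm : Measurable (Function.uncurry Δ)) (h0 : ∀ η v, 0 ≤ Δ η v)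
    (hb : ∀ η v, Δ η v ≤ b) (hs : ∀ η ∈ Set.Icc η0 η1, ∫ v, Δ η v ∂ν' ≤ s) :
    Integrable (fun v => A * (Δ η0 v + Δ η1 v + ∫ η in η0..η1, Δ η v) + tail) ν' ∧
      ∫ v, (A * (Δ η0 v + Δ η1 v + ∫ η in η0..η1, Δ η v) + tail) ∂ν' ≤
        A * ((2 + (η1 - η0)) * s) + tail := by
  have hint : ∀ η, Integrable (Δ η) ν' := fun η =>
    Integrable.of_bound (hm.comp measurable_prodMk_left).aestronglyMeasurable b
      (Filter.Eventually.of_forall fun v => by
        rw [Real.norm_eq_abs, abs_of_nonneg (h0 η v)]; exact hb η v)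
  -- integrability on the product
  have hprod : Integrable (Function.uncurry fun (v : Y) (η : ℝ) => Δ η v)
      (ν'.prod (volume.restrict (Set.Ioc η0 η1))) := by
    refine Integrable.of_bound (hm.comp measurable_swap).aestronglyMeasurable b
      (Filter.Eventually.of_forall fun q => ?_)
    rw [Real.norm_eq_abs]
    simp only [Function.uncurry]
    rw [abs_of_nonneg (h0 _ _)]
    exact hb _ _
  have hI : Integrable (fun v => ∫ η in η0..η1, Δ η v) ν' := by
    simp_rw [intervalIntegral.integral_of_le h01]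
    exact hprod.integral_prod_left
  have hswap : ∫ v, (∫ η in η0..η1, Δ η v) ∂ν' ≤ (η1 - η0) * s := by
    simp_rw [intervalIntegral.integral_of_le h01]
    rw [integral_integral_swap hprod]
    have h1 : ∫ η in Set.Ioc η0 η1, (∫ v, Δ η v ∂ν') ≤ ∫ _η in Set.Ioc η0 η1, s := by
      refine integral_mono_of_nonneg (Filter.Eventually.of_forall fun η => integral_nonneg (h0 η))
        (integrable_const _) ?_
      refine (ae_restrict_iff' measurableSet_Ioc).2 (Filter.Eventually.of_forall fun η hη => ?_)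
      exact hs η ⟨hη.1.le, hη.2⟩
    refine h1.trans (le_of_eq ?_)
    rw [setIntegral_const]
    simp [Measure.real, h01]
  have hg : Integrable (fun v => A * (Δ η0 v + Δ η1 v + ∫ η in η0..η1, Δ η v) + tail) ν' :=
    ((((hint η0).add (hint η1)).add hI).const_mul A).add (integrable_const _)
  refine ⟨hg, ?_⟩
  have e1 : ∫ v, (A * (Δ η0 v + Δ η1 v + ∫ η in η0..η1, Δ η v) + tail) ∂ν' =
      A * (∫ v, Δ η0 v ∂ν' + ∫ v, Δ η1 v ∂ν' + ∫ v, (∫ η in η0..η1, Δ η v) ∂ν') +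
        tail * ν'.real Set.univ := by
    have i1 : Integrable (fun v => Δ η0 v + Δ η1 v) ν' := (hint η0).add (hint η1)
    have i2 : Integrable (fun v => Δ η0 v + Δ η1 v + ∫ η in η0..η1, Δ η v) ν' := i1.add hI
    have i3 : Integrable (fun v => A * (Δ η0 v + Δ η1 v + ∫ η in η0..η1, Δ η v)) ν' :=
      i2.const_mul A
    rw [integral_add i3 (integrable_const _), integral_const_mul, integral_add i1 hI,
      integral_add (hint η0) (hint η1), integral_const]
    simp [mul_comm]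
  rw [e1]
  have h2 : ν'.real Set.univ ≤ 1 := by
    have := ENNReal.toReal_mono ENNReal.one_ne_top hν'
    simpa [Measure.real] using this
  have h3 := hs η0 ⟨le_refl _, h01⟩
  have h4 := hs η1 ⟨h01, le_refl _⟩
  have h5 : tail * ν'.real Set.univ ≤ tail := by nlinarith
  have h6 : ∫ v, Δ η0 v ∂ν' + ∫ v, Δ η1 v ∂ν' + ∫ v, (∫ η in η0..η1, Δ η v) ∂ν' ≤
      (2 + (η1 - η0)) * s := by linarith
  nlinarith [mul_le_mul_of_nonneg_left h6 hA]

/-- integration of a pointwise estimate against the majorant -/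
theorem mgq_cost_le {Y : Type*} [MeasurableSpace Y] {ν : Measure Y} {U : Set Y} (hU : MeasurableSet U)
    (hνU : ν U ≤ 1) {η0 η1 A s b tail ε₁ : ℝ} (h01 : η0 ≤ η1) (hA : 0 ≤ A) (htail : 0 ≤ tail)
    (hε : 0 ≤ ε₁) (Δ : ℝ → Y → ℝ) (hm : Measurable (Function.uncurry Δ)) (h0 : ∀ η v, 0 ≤ Δ η v)
    (hb : ∀ η v, Δ η v ≤ b) (hs : ∀ η ∈ Set.Icc η0 η1, ∫ v in U, Δ η v ∂ν ≤ s) (f : Y → ℝ)
    (hf : ∀ v ∈ U, |f v| ≤ A * (Δ η0 v + Δ η1 v + ∫ η in η0..η1, Δ η v) + tail + 2 * ε₁) :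
    ∫ v in U, |f v| ∂ν ≤ A * ((2 + (η1 - η0)) * s) + tail + 2 * ε₁ := by
  have hfin : IsFiniteMeasure (ν.restrict U) :=
    ⟨by rw [Measure.restrict_apply_univ]; exact hνU.trans_lt ENNReal.one_lt_top⟩
  have huniv : (ν.restrict U) Set.univ ≤ 1 := by rw [Measure.restrict_apply_univ]; exact hνU
  obtain ⟨hg, hgi⟩ := mgq_majorant (ν.restrict U) huniv h01 hA htail Δ hm h0 hb hs
  have h1 : ∫ v in U, |f v| ∂ν ≤
      ∫ v in U, ((A * (Δ η0 v + Δ η1 v + ∫ η in η0..η1, Δ η v) + tail) + 2 * ε₁) ∂ν := by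
    refine integral_mono_of_nonneg (Filter.Eventually.of_forall fun v => abs_nonneg _)
      (hg.add (integrable_const _)) ?_
    exact (ae_restrict_iff' hU).2 (Filter.Eventually.of_forall fun v hv => hf v hv)
  refine h1.trans ?_
  rw [integral_add hg (integrable_const _), integral_const]
  have h2 : (ν.restrict U).real Set.univ ≤ 1 := by
    have := ENNReal.toReal_mono ENNReal.one_ne_top huniv
    simpa [Measure.real] using this
  have h3 : (ν.restrict U).real Set.univ • (2 * ε₁) ≤ 2 * ε₁ := by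
    rw [smul_eq_mul]; nlinarith
  linarith

section Del

variable {Y : Type*} [MeasurableSpace Y] [DecidableEq Y] {D r : ℕ}
variable {C : MgCtx Y D} {ν : Measure Y} {K : ℝ} {c : Y → Option (Fin r)} {Q E U : Set Y}
  {Φ : Finset Y → Y → ℂ → ℂ} {coef : Finset Y → Y → ℕ → ℂ} {L B : ℝ} {bd sd : ℝ → ℝ}

open Classical in
/-- the field difference at `z = i max(η, η0)`, cut off outside the targets -/
def mgsDel (C : MgCtx Y D) (Q E U : Set Y) (Φ : Finset Y → Y → ℂ → ℂ) (R : ℕ) (η0 η : ℝ) (v : Y) : ℝ :=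
  if v ∈ U then ‖Φ (C.setR Q R v) v (mgsI (max η η0)) - Φ (C.setR (Q \ E) R v) v (mgsI (max η η0))‖
  else 0

theorem mgsI_im (η : ℝ) : (mgsI η).im = η := by simp [mgsI]

theorem mgsDel_nonneg (C : MgCtx Y D) (Q E U : Set Y) (Φ : Finset Y → Y → ℂ → ℂ) (R : ℕ) (η0 η : ℝ)
    (v : Y) : 0 ≤ mgsDel C Q E U Φ R η0 η v := by
  unfold mgsDel
  split_ifs
  · exact norm_nonneg _
  · exact le_refl _

theorem mgsDel_eq {R : ℕ} {η0 η : ℝ} (hη : η0 ≤ η) {v : Y} (hv : v ∈ U) :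
    mgsDel C Q E U Φ R η0 η v =
      ‖Φ (C.setR Q R v) v (mgsI η) - Φ (C.setR (Q \ E) R v) v (mgsI η)‖ := by
  unfold mgsDel
  rw [if_pos hv, max_eq_left hη]

theorem mgq_setR_subset (C : MgCtx Y D) (Q : Set Y) (R : ℕ) (v : Y) : (↑(C.setR Q R v) : Set Y) ⊆ Q :=
  fun _ hu => (MgCtx.mem_setR.1 (Finset.mem_coe.1 hu)).2

theorem mgq_self_mem_setR (C : MgCtx Y D) {Q : Set Y} (R : ℕ) {v : Y} (hv : v ∈ Q) : v ∈ C.setR Q R v :=
  MgCtx.mem_setR.2 ⟨self_mem_mgBall _ _ _, hv⟩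

theorem mgsDel_le (hΦ : MgsField C c Q E U Φ coef L B bd sd) (hUQ : U ⊆ Q \ E) (R : ℕ) {η0 : ℝ}
    (h0 : 0 < η0) (η : ℝ) (v : Y) : mgsDel C Q E U Φ R η0 η v ≤ max (2 * bd η0) 0 := by
  unfold mgsDel
  split_ifs with hv
  · refine le_trans ?_ (le_max_left _ _)
    have hpos : 0 < max η η0 := lt_of_lt_of_le h0 (le_max_right _ _)
    have him : 0 < (mgsI (max η η0)).im := by rw [mgsI_im]; exact hpos
    have hbd : bd (max η η0) ≤ bd η0 := hΦ.bd_anti (Set.mem_Ioi.2 h0) (Set.mem_Ioi.2 hpos) (le_max_right _ _)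
    have h1 := hΦ.bound (C.setR Q R v) v _ (mgq_setR_subset C Q R v) (mgq_self_mem_setR C R (hUQ hv).1) hv him
    have h2 := hΦ.bound (C.setR (Q \ E) R v) v _
      ((mgq_setR_subset C (Q \ E) R v).trans Set.sdiff_subset) (mgq_self_mem_setR C R (hUQ hv)) hv him
    rw [mgsI_im] at h1 h2
    calc _ ≤ ‖Φ (C.setR Q R v) v (mgsI (max η η0))‖ + ‖Φ (C.setR (Q \ E) R v) v (mgsI (max η η0))‖ :=
          norm_sub_le _ _
      _ ≤ 2 * bd η0 := by linarith
  · exact le_max_right _ _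

theorem mgsDel_meas (hC : C.Inv ν K) (hc : MgMeasC c) (hQ : MeasurableSet Q) (hE : MeasurableSet E)
    (hU : MeasurableSet U) (hUQ : U ⊆ Q \ E) (hΦ : MgsField C c Q E U Φ coef L B bd sd) (R : ℕ) {η0 : ℝ}
    (h0 : 0 < η0) : Measurable (Function.uncurry (mgsDel C Q E U Φ R η0)) := by
  classical
  refine measurable_uncurry_of_continuous_of_measurable (fun v => ?_) (fun η => ?_)
  · unfold mgsDel
    by_cases hv : v ∈ U
    · simp only [if_pos hv]
      have hmap : Continuous fun η : ℝ => mgsI (max η η0) := by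
        unfold mgsI
        fun_prop
      have hmem : ∀ η : ℝ, mgsI (max η η0) ∈ {z : ℂ | 0 < z.im} := fun η => by
        show 0 < (mgsI (max η η0)).im
        rw [mgsI_im]; exact lt_of_lt_of_le h0 (le_max_right _ _)
      have h1 := (hΦ.diff (C.setR Q R v) v (mgq_setR_subset C Q R v)
        (mgq_self_mem_setR C R (hUQ hv).1) hv).continuousOn.comp_continuous hmap hmem
      have h2 := (hΦ.diff (C.setR (Q \ E) R v) v
        ((mgq_setR_subset C (Q \ E) R v).trans Set.sdiff_subset)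
        (mgq_self_mem_setR C R (hUQ hv)) hv).continuousOn.comp_continuous hmap hmem
      exact (h1.sub h2).norm
    · simp only [if_neg hv]
      exact continuous_const
  · unfold mgsDel
    have h1 := hΦ.meas R (fun y => y) (fun _ => Q) (MgFam.const hC.meas.inv hc hQ) [] (mgsI (max η η0))
    have h2 := hΦ.meas R (fun y => y) (fun _ => Q \ E) (MgFam.const hC.meas.inv hc (hQ.diff hE)) []
      (mgsI (max η η0))
    simp only [mgAct_nil] at h1 h2
    exact Measurable.ite hU (h1.sub h2).norm measurable_const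

theorem mgsDel_integral (hU : MeasurableSet U) {R : ℕ} {η0 η : ℝ} (hη : η0 ≤ η) :
    ∫ v in U, mgsDel C Q E U Φ R η0 η v ∂ν =
      ∫ v in U, ‖Φ (C.setR Q R v) v (mgsI η) - Φ (C.setR (Q \ E) R v) v (mgsI η)‖ ∂ν :=
  setIntegral_congr_fun hU fun _ hv => mgsDel_eq hη hv

theorem mgsDel_interval {R : ℕ} {η0 η1 : ℝ} (h01 : η0 ≤ η1) {v : Y} (hv : v ∈ U) :
    ∫ η in η0..η1, mgsDel C Q E U Φ R η0 η v =
      ∫ η in η0..η1, ‖Φ (C.setR Q R v) v (mgsI η) - Φ (C.setR (Q \ E) R v) v (mgsI η)‖ := by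
  refine intervalIntegral.integral_congr fun η hη => ?_
  rw [Set.uIcc_of_le h01] at hη
  exact mgsDel_eq hη.1 hv

theorem mgsDel_integrable (hC : C.Inv ν K) (hc : MgMeasC c) (hQ : MeasurableSet Q) (hE : MeasurableSet E)
    (hU : MeasurableSet U) (hUQ : U ⊆ Q \ E) (hνU : ν U ≠ ∞) (hΦ : MgsField C c Q E U Φ coef L B bd sd)
    (R : ℕ) {η0 : ℝ} (h0 : 0 < η0) (η : ℝ) : Integrable (mgsDel C Q E U Φ R η0 η) (ν.restrict U) := by
  have hfin : IsFiniteMeasure (ν.restrict U) :=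
    ⟨by rw [Measure.restrict_apply_univ]; exact lt_top_iff_ne_top.2 hνU⟩
  refine Integrable.of_bound
    ((mgsDel_meas hC hc hQ hE hU hUQ hΦ R h0).comp measurable_prodMk_left).aestronglyMeasurable
    (max (2 * bd η0) 0) (Filter.Eventually.of_forall fun v => ?_)
  rw [Real.norm_eq_abs, abs_of_nonneg (mgsDel_nonneg _ _ _ _ _ _ _ _ _)]
  exact mgsDel_le hΦ hUQ R h0 η v

/-- the rank comparison in terms of `mgsDel`, with constants which do not depend on `η` -/
theorem mgsDel_rank (hC : C.Inv ν K) (hc : MgMeasC c) (hQ : MeasurableSet Q) (hE : MeasurableSet E)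
    (hU : MeasurableSet U) (hEQ : E ⊆ Q) (hUQ : U ⊆ Q \ E) (hνU : ν U ≠ ∞) (hνE : ν E ≠ ∞)
    (hΦ : MgsField C c Q E U Φ coef L B bd sd) {η0 η1 ε κ : ℝ} (h0 : 0 < η0) (h1 : η0 ≤ η1) (hε : 0 < ε)
    (hsd : 0 ≤ sd η0) (hκ : (ν E).toReal ≤ κ) :
    ∃ R0 : ℕ, ∀ R ≥ R0, ∀ η ∈ Set.Icc η0 η1,
      ∫ v in U, mgsDel C Q E U Φ R η0 η v ∂ν ≤ sd η0 * κ + ε := by
  obtain ⟨R0, hR0⟩ := mgs_rank hC hc hQ hE hU hEQ hUQ hνU hνE hΦ h0 h1 hε
  refine ⟨R0, fun R hR η hη => ?_⟩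
  rw [mgsDel_integral hU hη.1]
  refine (hR0 R hR η hη).trans ?_
  have h2 : sd η ≤ sd η0 := hΦ.sd_anti (Set.mem_Ioi.2 h0) (Set.mem_Ioi.2 (lt_of_lt_of_le h0 hη.1)) hη.1
  have h3 : (0 : ℝ) ≤ (ν E).toReal := ENNReal.toReal_nonneg
  nlinarith [mul_le_mul_of_nonneg_right h2 h3, mul_le_mul_of_nonneg_left hκ hsd]

end Del

end

end Claimed.Agent.R302
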