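/-
R302 / MG / FieldJ   (blueprint: helper203; package MGS-FieldJ; proofs: helper165)

The two local fields of Q Lemma 5.3: `G` and `J_i`.

`G`:   coef S v k = ρ_{S,v}[x^k] (`G_hasSum`, `rho_pow_local` + `mgGraph_edist_le`, `roots_bdd`, `single_G`, `mgs_G_norm_le`);
       `L = (1 + 80 t) H`, `B = 1`, `bd y = 1 / y`, `sd y = 8 π / y`.
       Holomorphy: quotient of polynomials, denominator `≠ 0` on the upper half plane (`poly_eval_ne_zero`).
       Measurability: `mg_meas_poly` for `C.withρ R` and the masks `Qz y`, `Qz y \ {w₀ (root y)}` (`MgFam.erase`, `setR_diff_singleton`); `mg_meas_rho_pow`.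
`J_i`: `J = (F⁰_i - z - a) G = - (∑_j κ^i_j z^{-j-1}) (∑_k ρ_k z^{-k-1})`  (`F_hasSum` for `D.cond v i`, `G_hasSum`, Cauchy product):
       coef S v 0 = 0, coef S v (n+1) = - ∑_{j+k=n} κ^i_j ρ_k;  `|coef (n+1)| ≤ (n+1) K w² L^n`, so the field has radius `2 L`;
       locality: `kap_pow_of_rho_pow` (κ^i_j is determined by the moments of order `≤ j + 2` of the rooted measure of `D.cond v i`);
       targets: unassigned sites of weight `≤ w`;  `single_J` with `b₂ = w`;  `mgs_Jf_norm_le`, `kap_one_le`.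
       Measurability of `(D.cond v i).poly`: the family with the colour of `w₀ (root y)` updated (`MgFam.update`); note `D.cond v i` and
       `C.data (update c v (some i))` differ only by the shift at `v`: use `assign_poly`, or `Jf_eq` together with `mgs_assign_F`.
-/
import Claimed.Agent.R302.MG.Field

set_option autoImplicit false
set_option linter.unusedSectionVars false

namespace Claimed.Agent.R302

open MeasureTheory Finset Polynomial
open scoped BigOperators ComplexConjugate ENNReal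

noncomputable section

theorem mgj_abs_pvRho_pow_le {P N : ℂ[X]} (h : IsResW P N (pvResW P N)) {L : ℝ}
    (hL : ∀ x ∈ P.roots, |x.re| ≤ L) (k : ℕ) :
    |pvRho P N fun x => x ^ k| ≤ pvRho P N (fun _ => 1) * L ^ k := by
  unfold pvRho
  rw [Finset.sum_mul]
  refine (Finset.abs_sum_le_sum_abs _ _).trans (Finset.sum_le_sum fun μ hμ => ?_)
  rw [abs_mul, abs_of_nonneg (h.1 μ), mul_one, abs_pow]
  exact mul_le_mul_of_nonneg_left
    (pow_le_pow_left₀ (abs_nonneg _) (hL μ (Multiset.mem_toFinset.1 hμ)) k) (h.1 μ)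

namespace PvData

variable {V : Type*} [DecidableEq V] {r : ℕ}

/-- Laurent coefficients of `J_i` -/
def jco (D : PvData V r) (i : Fin r) (S : Finset V) (v : V) : ℕ → ℂ
  | 0 => 0
  | n + 1 => - ∑ p ∈ Finset.HasAntidiagonal.antidiagonal n,
      (((D.cond v i).kap S v fun x => x ^ p.1 : ℝ) : ℂ) * ((D.rho S v fun x => x ^ p.2 : ℝ) : ℂ)

theorem mgj_abs_rho_pow_le {D : PvData V r} (hD : D.Good) (hr : 0 < r) {S : Finset V} {v : V} (hv : v ∈ S)
    {L : ℝ} (hL : ∀ x ∈ (D.poly S).roots, |x.re| ≤ L) (k : ℕ) :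
    |D.rho S v fun x => x ^ k| ≤ L ^ k := by
  have := mgj_abs_pvRho_pow_le (rho_spec hD hr hv) hL k
  have h1 : pvRho (D.poly S) (D.poly (S.erase v)) (fun _ => 1) = 1 := rho_one hD hr hv
  rw [h1, one_mul] at this
  exact this

theorem mgj_abs_kap_pow_le {D : PvData V r} (hD : D.Good) (hr : 0 < r) {S : Finset V} {v : V} (hv : v ∈ S)
    {L : ℝ} (hL : ∀ x ∈ (D.poly S).roots, |x.re| ≤ L) (k : ℕ) :
    |D.kap S v fun x => x ^ k| ≤ D.kap S v (fun _ => 1) * L ^ k :=
  mgj_abs_pvRho_pow_le (kap_spec hD hr hv) (roots_erase_abs_le hD hr hv hL) k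

theorem mgj_hasSum {D : PvData V r} (hD : D.Good) (hr : 0 < r) {S : Finset V} {v : V} (hv : v ∈ S)
    (i : Fin r) {L : ℝ} (hL : ∀ x ∈ (D.poly S).roots, |x.re| ≤ L)
    (hL' : ∀ x ∈ ((D.cond v i).poly S).roots, |x.re| ≤ L) {z : ℂ} (hz : L < ‖z‖) :
    HasSum (fun k : ℕ => D.jco i S v k / z ^ (k + 1)) (D.Jf S i v z) := by
  have hf := F_hasSum (cond_good hD v i) hr hv hL' hz
  have hg := G_hasSum hD hr hv hL hz
  have hfn := hf.summable.norm
  have hgn := hg.summable.norm
  have h1 := (summable_norm_sum_mul_antidiagonal_of_summable_norm hfn hgn).of_norm.hasSum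
  rw [← tsum_mul_tsum_eq_tsum_sum_antidiagonal_of_summable_norm hfn hgn, hf.tsum_eq, hg.tsum_eq] at h1
  have h2 := h1.neg
  rw [← hasSum_nat_add_iff' 1]
  simp only [Finset.sum_range_one, jco, zero_div, sub_zero]
  have e1 : D.Jf S i v z = -((z + ((D.cond v i).a v : ℂ) - (D.cond v i).F S v z) * D.G S v z) := by
    have : (D.cond v i).a v = D.a v := rfl
    rw [this]
    unfold Jf
    ring
  rw [e1]
  convert h2 using 1
  funext n
  rw [neg_div, Finset.sum_div]
  congr 1
  refine Finset.sum_congr rfl fun p hp => ?_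
  have hp' : p.1 + p.2 = n := Finset.HasAntidiagonal.mem_antidiagonal.1 hp
  rw [div_mul_div_comm, ← pow_add, show p.1 + 1 + (p.2 + 1) = n + 1 + 1 by omega]

theorem mgj_jco_le {D : PvData V r} (hD : D.Good) (hr : 0 < r) {S : Finset V} {v : V} (hv : v ∈ S)
    (i : Fin r) {L κ : ℝ} (hL0 : 0 < L) (hL : ∀ x ∈ (D.poly S).roots, |x.re| ≤ L)
    (hL' : ∀ x ∈ ((D.cond v i).poly S).roots, |x.re| ≤ L)
    (hκ : (D.cond v i).kap S v (fun _ => 1) ≤ κ) (k : ℕ) :
    ‖D.jco i S v k‖ ≤ κ / (2 * L) * (2 * L) ^ k := by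
  have hκ0 : 0 ≤ κ := by
    have := mgj_abs_kap_pow_le (cond_good hD v i) hr hv hL' 0
    simp only [pow_zero, mul_one] at this
    exact ((abs_nonneg _).trans this).trans hκ
  cases k with
  | zero => 
    simp only [jco, norm_zero]
    positivity
  | succ n =>
    simp only [jco, norm_neg]
    have h1 : ∀ p ∈ Finset.HasAntidiagonal.antidiagonal n,
        ‖(((D.cond v i).kap S v fun x => x ^ p.1 : ℝ) : ℂ) * ((D.rho S v fun x => x ^ p.2 : ℝ) : ℂ)‖ ≤
          κ * L ^ n := by
      intro p hp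
      have hp' : p.1 + p.2 = n := Finset.HasAntidiagonal.mem_antidiagonal.1 hp
      rw [norm_mul, Complex.norm_real, Complex.norm_real, Real.norm_eq_abs, Real.norm_eq_abs, ← hp', pow_add,
        ← mul_assoc]
      refine mul_le_mul ((mgj_abs_kap_pow_le (cond_good hD v i) hr hv hL' p.1).trans ?_)
        (mgj_abs_rho_pow_le hD hr hv hL p.2) (abs_nonneg _) (by positivity)
      exact mul_le_mul_of_nonneg_right hκ (by positivity)
    refine (norm_sum_le_of_le _ h1).trans ?_
    rw [Finset.sum_const, Finset.Nat.card_antidiagonal, nsmul_eq_mul]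
    have h2 : ((n + 1 : ℕ) : ℝ) ≤ 2 ^ n := by exact_mod_cast Nat.lt_two_pow_self
    have h3 : κ / (2 * L) * (2 * L) ^ (n + 1) = 2 ^ n * (κ * L ^ n) := by
      rw [pow_succ, mul_pow]
      field_simp
    rw [h3]
    exact mul_le_mul_of_nonneg_right h2 (by positivity)

theorem mgj_jco_local {D : PvData V r} (hD : D.Good) (hr : 0 < r) {Γ : SimpleGraph V} (hΓ : D.Supp Γ)
    {S S' : Finset V} {v : V} (hv : v ∈ S) (hv' : v ∈ S') (i : Fin r) (k : ℕ)
    (hS : ∀ u, Γ.edist v u ≤ ((k + 1 : ℕ) : ℕ∞) → (u ∈ S ↔ u ∈ S')) :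
    D.jco i S v k = D.jco i S' v k := by
  cases k with
  | zero => rfl
  | succ n =>
    simp only [jco]
    congr 1
    refine Finset.sum_congr rfl fun p hp => ?_
    have hp' : p.1 + p.2 = n := Finset.HasAntidiagonal.mem_antidiagonal.1 hp
    have hΓ' : (D.cond v i).Supp Γ := hΓ
    have e1 : (D.rho S v fun x => x ^ p.2) = D.rho S' v fun x => x ^ p.2 :=
      rho_pow_local hD hD hr hΓ hΓ p.2 hv
        (fun u hu => hS u (hu.trans (by exact_mod_cast (by omega : p.2 ≤ n + 1 + 1))))
        (fun _ _ _ => rfl) (fun _ _ _ => rfl) (fun _ _ _ => rfl) (fun _ _ _ _ _ _ => rfl)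
    have e2 : ((D.cond v i).kap S v fun x => x ^ p.1) = (D.cond v i).kap S' v fun x => x ^ p.1 :=
      kap_pow_of_rho_pow (cond_good hD v i) (cond_good hD v i) hr hv hv' n
        (fun j hj => rho_pow_local (cond_good hD v i) (cond_good hD v i) hr hΓ' hΓ' j hv
          (fun u hu => hS u (hu.trans (by exact_mod_cast (by omega : j ≤ n + 1 + 1))))
          (fun _ _ _ => rfl) (fun _ _ _ => rfl) (fun _ _ _ => rfl) (fun _ _ _ _ _ _ => rfl)) p.1 (by omega)
    rw [e1, e2]

theorem mgj_differentiableOn {D : PvData V r} (hD : D.Good) (hr : 0 < r) (S : Finset V) (i : Fin r) (v : V) :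
    DifferentiableOn ℂ (D.Jf S i v) {z | 0 < z.im} := by
  have h1 : DifferentiableOn ℂ (fun z : ℂ => (((D.cond v i).poly S).eval z -
      (z + D.a v) * (D.poly (S.erase v)).eval z) / (D.poly S).eval z) {z | 0 < z.im} := by
    refine DifferentiableOn.div ?_ (Polynomial.differentiable _).differentiableOn
      (fun z hz => poly_eval_ne_zero hD hr S hz)
    exact ((Polynomial.differentiable _).sub
      ((differentiable_id.add_const _).mul (Polynomial.differentiable _))).differentiableOn
  exact h1.congr fun z hz => Jf_eq hD hr S i v hz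


theorem mgj_kap_pow_cast {D : PvData V r} (hD : D.Good) (hr : 0 < r) (S : Finset V) (v : V) (k : ℕ) :
    ((D.kap S v fun x => x ^ k : ℝ) : ℂ) = ∑ μ ∈ (D.poly (S.erase v)).roots.toFinset,
      (pvResW (D.poly (S.erase v)) ((X + C (D.a v : ℂ)) * D.poly (S.erase v) - D.poly S) μ : ℂ) * μ ^ k := by
  unfold kap pvRho
  push_cast
  refine Finset.sum_congr rfl fun μ hμ => ?_
  have : ((μ.re : ℝ) : ℂ) = μ :=
    Complex.ext rfl (by simp [poly_roots_real hD hr (S.erase v) μ (Multiset.mem_toFinset.1 hμ)])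
  rw [this]

/-- the moments of the residue measure are limits of finitely many evaluations -/
theorem mgj_kap_pow_tendsto {D : PvData V r} (hD : D.Good) (hr : 0 < r) {S : Finset V} {v : V}
    (hv : v ∈ S) (k : ℕ) :
    Filter.Tendsto (fun n : ℕ => (n : ℂ) ^ (k + 1) *
        ((((n : ℂ) + D.a v) * (D.poly (S.erase v)).eval (n : ℂ) - (D.poly S).eval (n : ℂ)) /
            (D.poly (S.erase v)).eval (n : ℂ) -
          ∑ j ∈ range k, ((D.kap S v fun x => x ^ j : ℝ) : ℂ) / (n : ℂ) ^ (j + 1)))
      Filter.atTop (nhds ((D.kap S v fun x => x ^ k : ℝ) : ℂ)) := by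
  simp_rw [mgj_kap_pow_cast hD hr]
  have := isResW_pow_tendsto (kap_spec hD hr hv) (D.poly_monic hr (S.erase v)).ne_zero k
  simpa only [eval_sub, eval_mul, eval_add, eval_X, eval_C] using this

end PvData

section Meas

variable {Y : Type*} [MeasurableSpace Y] [DecidableEq Y] {D r : ℕ}

omit [MeasurableSpace Y] in
theorem MgCtx.data_update_assign (C : MgCtx Y D) (c : Y → Option (Fin r)) (y : Y) (i : Fin r) :
    C.data (Function.update c y (some i)) = (C.data c).assign y i (80 * C.t) := by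
  unfold MgCtx.data PvData.assign
  congr 1
  funext u
  by_cases h : u = y
  · subst h
    simp [mgTau]
  · simp [Function.update_of_ne h]

variable {C : MgCtx Y D} {Z : Type*} [MeasurableSpace Z] {root : Z → Y}
    {cz : Z → Y → Option (Fin r)} {Qz : Z → Set Y}

theorem mgj_meas_W (hC : C.Meas) (h : MgFam C.σ root cz Qz) (w₀ : List (Fin D)) :
    Measurable fun z => C.W (mgAct C.σ w₀ (root z)) :=
  hC.W_meas.comp ((measurable_mgAct hC.inv.meas w₀).comp h.root_meas)

theorem mgj_meas_a (hC : C.Meas) (h : MgFam C.σ root cz Qz) (w₀ : List (Fin D)) :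
    Measurable fun z => (C.data (cz z)).a (mgAct C.σ w₀ (root z)) := by
  unfold PvData.a MgCtx.data
  simp only
  refine Measurable.mul ?_ (mgj_meas_W hC h w₀)
  have : (fun z => mgTau C.t (cz z (mgAct C.σ w₀ (root z)))) =
      fun z => if cz z (mgAct C.σ w₀ (root z)) = none then C.t else 80 * C.t := by
    funext z
    unfold mgTau
    simp [Option.isNone_iff_eq_none]
  rw [this]
  exact Measurable.ite (h.col w₀ none) measurable_const measurable_const

theorem mgj_meas_cond_poly (hC : C.Meas) (hr : 0 < r) (h : MgFam C.σ root cz Qz) (w₀ : List (Fin D))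
    (i : Fin r) {ζ : Z → ℂ} (hζ : Measurable ζ) :
    Measurable fun z => (((C.data (cz z)).cond (mgAct C.σ w₀ (root z)) i).poly
      (C.set (Qz z) (root z))).eval (ζ z) := by
  classical
  have hA := mg_measurableSet_mem_set hC h w₀
  have h1 := mg_meas_poly hC h hζ
  have h2 := mg_meas_poly hC (h.erase hC.inv w₀) hζ
  have h3 := mg_meas_poly hC (h.update hC.inv w₀ (fun _ => some i) (fun o => by
    by_cases ho : some i = o <;> simp [ho])) hζ
  have h4 := mgj_meas_a hC h w₀
  have h5 := mgj_meas_W hC h w₀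
  have e : (fun z => (((C.data (cz z)).cond (mgAct C.σ w₀ (root z)) i).poly
      (C.set (Qz z) (root z))).eval (ζ z)) = fun z =>
      if mgAct C.σ w₀ (root z) ∈ C.set (Qz z) (root z) then
        ((C.data (Function.update (cz z) (mgAct C.σ w₀ (root z)) (some i))).poly
          (C.set (Qz z) (root z))).eval (ζ z) -
        ((80 * C.t * C.W (mgAct C.σ w₀ (root z)) - (C.data (cz z)).a (mgAct C.σ w₀ (root z)) : ℝ) : ℂ) *
          ((C.data (cz z)).poly (C.set (Qz z \ {mgAct C.σ w₀ (root z)}) (root z))).eval (ζ z)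
      else ((C.data (cz z)).poly (C.set (Qz z) (root z))).eval (ζ z) := by
    funext z
    by_cases hz : mgAct C.σ w₀ (root z) ∈ C.set (Qz z) (root z)
    · rw [if_pos hz, C.data_update_assign, PvData.assign_poly _ hr hz, ← MgCtx.set_erase]
      simp only [eval_add, eval_mul, eval_C, PvData.a]
      have : (C.data (cz z)).W (mgAct C.σ w₀ (root z)) = C.W (mgAct C.σ w₀ (root z)) := rfl
      rw [this]
      push_cast
      ring
    · rw [if_neg hz]
      have e0 : ((C.data (cz z)).cond (mgAct C.σ w₀ (root z)) i).poly (C.set (Qz z) (root z)) =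
          (C.data (cz z)).poly (C.set (Qz z) (root z)) := by
        refine PvData.poly_congr (fun _ _ _ _ => rfl) (fun _ _ => rfl) (fun u hu => ?_) (fun _ _ => rfl)
        have hne : u ≠ mgAct C.σ w₀ (root z) := fun h0 => hz (h0 ▸ hu)
        simp [PvData.cond, Function.update_of_ne hne]
      rw [e0]
  rw [e]
  exact Measurable.ite hA
    (h3.sub ((Complex.measurable_ofReal.comp ((h5.const_mul _).sub h4)).mul h2)) h1

theorem mgj_meas_Jf (hC : C.Meas) (hr : 0 < r) (h : MgFam C.σ root cz Qz) (w₀ : List (Fin D))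
    (i : Fin r) {ζ : Z → ℂ} (hζ : Measurable ζ) :
    Measurable fun z => (C.data (cz z)).Jf (C.set (Qz z) (root z)) i (mgAct C.σ w₀ (root z)) (ζ z) := by
  unfold PvData.Jf PvData.F
  simp_rw [PvData.cond_poly_erase, MgCtx.set_erase]
  exact ((((mgj_meas_cond_poly hC hr h w₀ i hζ).div (mg_meas_poly hC (h.erase hC.inv w₀) hζ)).sub hζ).sub
    (Complex.measurable_ofReal.comp (mgj_meas_a hC h w₀))).mul (mg_meas_G hC h w₀ hζ)

open Classical in
/-- moments of the residue measure of the option `i` at the site `w₀ (root z)` -/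
theorem mgj_meas_kap_pow (hC : C.Meas) (hr : 0 < r) (h : MgFam C.σ root cz Qz) (w₀ : List (Fin D))
    (i : Fin r) (k : ℕ) :
    Measurable fun z => if mgAct C.σ w₀ (root z) ∈ C.set (Qz z) (root z) then
      ((C.data (cz z)).cond (mgAct C.σ w₀ (root z)) i).kap (C.set (Qz z) (root z)) (mgAct C.σ w₀ (root z))
        (fun x => x ^ k) else 0 := by
  have hAm := mg_measurableSet_mem_set hC h w₀
  induction k using Nat.strong_induction_on with
  | _ k ih =>
    have hmeas : ∀ n : ℕ, Measurable fun z => if mgAct C.σ w₀ (root z) ∈ C.set (Qz z) (root z) then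
        (n : ℂ) ^ (k + 1) * ((((n : ℂ) + (C.data (cz z)).a (mgAct C.σ w₀ (root z))) *
            ((C.data (cz z)).poly (C.set (Qz z \ {mgAct C.σ w₀ (root z)}) (root z))).eval (n : ℂ) -
            (((C.data (cz z)).cond (mgAct C.σ w₀ (root z)) i).poly (C.set (Qz z) (root z))).eval (n : ℂ)) /
            ((C.data (cz z)).poly (C.set (Qz z \ {mgAct C.σ w₀ (root z)}) (root z))).eval (n : ℂ) -
          ∑ j ∈ Finset.range k, (((if mgAct C.σ w₀ (root z) ∈ C.set (Qz z) (root z) then
            ((C.data (cz z)).cond (mgAct C.σ w₀ (root z)) i).kap (C.set (Qz z) (root z))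
              (mgAct C.σ w₀ (root z)) (fun x => x ^ j)
              else 0 : ℝ) : ℝ) : ℂ) / (n : ℂ) ^ (j + 1)) else 0 := by
      intro n
      have h2 := mg_meas_poly hC (h.erase hC.inv w₀) (measurable_const (a := (n : ℂ)))
      refine Measurable.ite hAm (measurable_const.mul (Measurable.sub
        (((((Complex.measurable_ofReal.comp (mgj_meas_a hC h w₀)).const_add _).mul h2).sub
          (mgj_meas_cond_poly hC hr h w₀ i measurable_const)).div h2)
        (Finset.measurable_sum _ fun j hj => ?_))) measurable_const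
      exact (Complex.measurable_ofReal.comp (ih j (Finset.mem_range.1 hj))).div_const _
    have hlim : Filter.Tendsto (fun (n : ℕ) (z : Z) =>
        if mgAct C.σ w₀ (root z) ∈ C.set (Qz z) (root z) then
        (n : ℂ) ^ (k + 1) * ((((n : ℂ) + (C.data (cz z)).a (mgAct C.σ w₀ (root z))) *
            ((C.data (cz z)).poly (C.set (Qz z \ {mgAct C.σ w₀ (root z)}) (root z))).eval (n : ℂ) -
            (((C.data (cz z)).cond (mgAct C.σ w₀ (root z)) i).poly (C.set (Qz z) (root z))).eval (n : ℂ)) /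
            ((C.data (cz z)).poly (C.set (Qz z \ {mgAct C.σ w₀ (root z)}) (root z))).eval (n : ℂ) -
          ∑ j ∈ Finset.range k, (((if mgAct C.σ w₀ (root z) ∈ C.set (Qz z) (root z) then
            ((C.data (cz z)).cond (mgAct C.σ w₀ (root z)) i).kap (C.set (Qz z) (root z))
              (mgAct C.σ w₀ (root z)) (fun x => x ^ j)
              else 0 : ℝ) : ℝ) : ℂ) / (n : ℂ) ^ (j + 1)) else 0) Filter.atTop
        (nhds fun z => (((if mgAct C.σ w₀ (root z) ∈ C.set (Qz z) (root z) then
          ((C.data (cz z)).cond (mgAct C.σ w₀ (root z)) i).kap (C.set (Qz z) (root z))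
            (mgAct C.σ w₀ (root z)) (fun x => x ^ k)
            else 0 : ℝ) : ℝ) : ℂ)) := by
      refine tendsto_pi_nhds.2 fun z => ?_
      by_cases hz : mgAct C.σ w₀ (root z) ∈ C.set (Qz z) (root z)
      · simp only [if_pos hz]
        have := PvData.mgj_kap_pow_tendsto
          (PvData.cond_good (C.data_good hC (cz z)) (mgAct C.σ w₀ (root z)) i) hr hz k
        rw [PvData.cond_poly_erase, MgCtx.set_erase] at this
        exact this
      · simp only [if_neg hz]
        simp
    have h3 := Complex.measurable_re.comp (measurable_of_tendsto_metrizable hmeas hlim)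
    simpa [Function.comp_def] using h3

open Classical in
theorem mgj_meas_jco (hC : C.Meas) (hr : 0 < r) (h : MgFam C.σ root cz Qz) (w₀ : List (Fin D))
    (i : Fin r) (k : ℕ) :
    Measurable fun z => if mgAct C.σ w₀ (root z) ∈ C.set (Qz z) (root z) then
      (C.data (cz z)).jco i (C.set (Qz z) (root z)) (mgAct C.σ w₀ (root z)) k else 0 := by
  cases k with
  | zero => simp [PvData.jco]
  | succ n =>
    have e : (fun z => if mgAct C.σ w₀ (root z) ∈ C.set (Qz z) (root z) then
        (C.data (cz z)).jco i (C.set (Qz z) (root z)) (mgAct C.σ w₀ (root z)) (n + 1) else 0) =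
        fun z => - ∑ p ∈ Finset.HasAntidiagonal.antidiagonal n,
          (((if mgAct C.σ w₀ (root z) ∈ C.set (Qz z) (root z) then
            ((C.data (cz z)).cond (mgAct C.σ w₀ (root z)) i).kap (C.set (Qz z) (root z))
              (mgAct C.σ w₀ (root z)) (fun x => x ^ p.1) else 0 : ℝ) : ℝ) : ℂ) *
          (((if mgAct C.σ w₀ (root z) ∈ C.set (Qz z) (root z) then
            (C.data (cz z)).rho (C.set (Qz z) (root z)) (mgAct C.σ w₀ (root z)) (fun x => x ^ p.2)
              else 0 : ℝ) : ℝ) : ℂ) := by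
      funext z
      by_cases hz : mgAct C.σ w₀ (root z) ∈ C.set (Qz z) (root z)
      · simp only [if_pos hz, PvData.jco]
      · simp [if_neg hz]
    rw [e]
    exact (Finset.measurable_sum _ fun p _ =>
      (Complex.measurable_ofReal.comp (mgj_meas_kap_pow hC hr h w₀ i p.1)).mul
        (Complex.measurable_ofReal.comp (mg_meas_rho_pow hC hr h w₀ p.2))).neg

end Meas

variable {Y : Type*} [MeasurableSpace Y] [DecidableEq Y] {D r : ℕ}
  {C : MgCtx Y D} {ν : Measure Y} {K : ℝ} {c : Y → Option (Fin r)} {Q E U : Set Y}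

theorem mgs_field_J (hC : C.Inv ν K) (hr : 0 < r) (hc : MgMeasC c) {H w : ℝ} (hH : 0 < H) (hw : 0 < w)
    (hQH : ∀ y ∈ Q, C.W y ≤ H) (hUE : Disjoint U E) (hUc : ∀ y ∈ U, c y = none) (hUw : ∀ y ∈ U, C.W y ≤ w)
    (i : Fin r) :
    ∃ (coef : Finset Y → Y → ℕ → ℂ) (B : ℝ),
      MgsField C c Q E U (fun S v z => (C.data c).Jf S i v z) coef (2 * ((1 + 80 * C.t) * H)) B
        (fun y => K * w ^ 2 / y ^ 2) (fun y => 2 * Real.pi * r * (8 * Real.sqrt K * w / y + 4)) := by
  have hD := C.data_good hC.meas c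
  have ht := hC.t_pos
  have hK := hC.one_le
  have hK0 : 0 ≤ K := by linarith
  have hL0 : 0 < (1 + 80 * C.t) * H := by positivity
  -- neighbours
  have hnb : ∀ v u, (C.data c).T v u ≠ 0 → C.W u ≤ K * C.W v := by
    intro v u huv
    obtain ⟨k, rfl⟩ := hC.meas.ker.supp v u huv
    exact hC.W_le k v
  -- root bounds
  have hroots : ∀ S : Finset Y, (↑S : Set Y) ⊆ Q →
      ∀ x ∈ ((C.data c).poly S).roots, |x.re| ≤ (1 + 80 * C.t) * H := fun S hS =>
    PvData.roots_bdd hD hr (fun v hv => hQH v (hS hv)) (fun v _ => MgCtx.mgTau_abs_le ht (c v))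
  have hroots' : ∀ (S : Finset Y) (v : Y), (↑S : Set Y) ⊆ Q →
      ∀ x ∈ (((C.data c).cond v i).poly S).roots, |x.re| ≤ (1 + 80 * C.t) * H := fun S v hS =>
    PvData.roots_bdd (PvData.cond_good hD v i) hr (fun v hv => hQH v (hS hv))
      (fun v _ => MgCtx.mgTau_abs_le ht (c v))
  have hkap : ∀ (S : Finset Y) (v : Y), v ∈ S → v ∈ U →
      ((C.data c).cond v i).kap S v (fun _ => 1) ≤ K * w ^ 2 := by
    intro S v hv hvU
    refine (PvData.kap_one_le (PvData.cond_good hD v i) hr hv hK0 (fun u _ hu => hnb v u hu)).trans ?_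
    have h1 : ((C.data c).cond v i).W v = C.W v := rfl
    rw [h1]
    have h2 := hUw v hvU
    have h3 := hC.meas.W_pos v
    gcongr
  refine ⟨fun S v k => (C.data c).jco i S v k, K * w ^ 2 / (2 * ((1 + 80 * C.t) * H)), ?_⟩
  refine ⟨by positivity, by positivity, ?_, ?_, ?_, ?_, ?_, ?_, ?_, ?_, ?_, ?_⟩
  · intro S v z hS hv hvU hz
    exact PvData.mgj_hasSum hD hr hv i (hroots S hS) (hroots' S v hS) (by linarith)
  · intro S v k hS hv hvU
    exact PvData.mgj_jco_le hD hr hv i hL0 (hroots S hS) (hroots' S v hS) (hkap S v hv hvU) k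
  · intro S S' v k hS hS' hv hv' hvU hb
    refine PvData.mgj_jco_local hD hr (C.data_supp hC.meas c) hv hv' i k fun u hu => ?_
    exact hb u (mgBall_mono C.σ (by omega) v ((mgGraph_edist_le hC.meas.inv.invol).1 hu))
  · intro S v hS hv hvU
    exact PvData.mgj_differentiableOn hD hr S i v
  · intro S v z hS hv hvU hz
    refine (PvData.mgs_Jf_norm_le hD hr hv i hz).trans ?_
    have := hkap S v hv hvU
    gcongr
  · intro S A u z hS hu huE hA hAU hz
    exact PvData.single_J hD hr hu i hw hK A hA (fun v hv => hUc v (hAU hv)) (fun v hv => hUw v (hAU hv))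
      (fun v hv u' _ hu' => (hnb v u' hu').trans (mul_le_mul_of_nonneg_left (hUw v (hAU hv)) hK0)) hz
  · intro a ha b hb hab
    have ha' : (0 : ℝ) < a := ha
    simp only
    gcongr
  · intro a ha b hb hab
    have ha' : (0 : ℝ) < a := ha
    simp only
    gcongr
  · intro R root Qz h w₀ ζ
    exact mgj_meas_Jf (hC.meas.withρ R) hr h w₀ i measurable_const
  · intro R root Qz h w₀ k
    exact mgj_meas_jco (hC.meas.withρ R) hr h w₀ i k

end

end Claimed.Agent.R302
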