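/-
R302 / MG / FieldG   (blueprint: helper203; package MGS-FieldG; proofs: helper107)

The two local fields of Q Lemma 5.3: `G` and `J_i`.

`G`:   coef S v k = ρ_{S,v}[x^k] (`G_hasSum`, `rho_pow_local` + `mgGraph_edist_le`, `roots_bdd`, `single_G`, `mgs_G_norm_le`);
       `L = (1 + 80 t) H`, `B = 1`, `bd y = 1 / y`, `sd y = 8 π / y`.
       Holomorphy: quotient of polynomials, denominator `≠ 0` on the upper half plane (`poly_eval_ne_zero`).
       Measurability: `mg_meas_poly` for `C.withρ R` and the masks `Qz y`, `Qz y \ {w₀ (root y)}` (`MgFam.erase`, `setR_diff_singleton`); `mg_meas_rho_pow`.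
`J_i`: `J = (F⁰_i - z - a) G = - (∑_j κ^i_j z^{-j-1}) (∑_k ρ_k z^{-k-1})`  (`F_hasSum` for `D.cond v i`, `G_hasSum`, Cauchy product):
       coef S v 0 = 0, coef S v (n+1) = - ∑_{j+k=n} κ^i_j ρ_k;  `|coef (n+1)| ≤ (n+1) K w² L^n`, so the field has radius `2 L`;
       locality: `kap_pow_of_rho_pow` (κ^i_j is determined by the moments of order `≤ j + 2` of the rooted measure of `D.cond v i`);
       targets: unassigned sites of weight `≤ w`;  `single_J` with `b₂ = w`;  `mgs_Jf_norm_le`, `kap_one_le`.
       Measurability of `(D.cond v i).poly`: the family with the colour of `w₀ (root y)` updated (`MgFam.update`); note `D.cond v i` and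
       `C.data (update c v (some i))` differ only by the shift at `v`: use `assign_poly`, or `Jf_eq` together with `mgs_assign_F`.
-/
import Claimed.Agent.R302.MG.FieldJ

set_option autoImplicit false
set_option linter.unusedSectionVars false

namespace Claimed.Agent.R302

open MeasureTheory Finset Polynomial
open scoped BigOperators ComplexConjugate ENNReal

noncomputable section

variable {Y : Type*} [MeasurableSpace Y] [DecidableEq Y] {D r : ℕ}
  {C : MgCtx Y D} {ν : Measure Y} {K : ℝ} {c : Y → Option (Fin r)} {Q E U : Set Y}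

theorem mgs_field_G (hC : C.Inv ν K) (hr : 0 < r) (hc : MgMeasC c) {H : ℝ} (hH : 0 < H)
    (hQH : ∀ y ∈ Q, C.W y ≤ H) :
    MgsField C c Q E U (fun S v z => (C.data c).G S v z)
      (fun S v k => (((C.data c).rho S v fun x => x ^ k : ℝ) : ℂ)) ((1 + 80 * C.t) * H) 1
      (fun y => 1 / y) (fun y => 8 * Real.pi / y) := by
  have hD := C.data_good hC.meas c
  have ht := hC.t_pos
  have hL0 : 0 < (1 + 80 * C.t) * H := by positivity
  have hroots : ∀ S : Finset Y, (↑S : Set Y) ⊆ Q →
      ∀ x ∈ ((C.data c).poly S).roots, |x.re| ≤ (1 + 80 * C.t) * H := fun S hS =>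
    PvData.roots_bdd hD hr (fun v hv => hQH v (hS hv)) (fun v _ => MgCtx.mgTau_abs_le ht (c v))
  refine ⟨hL0, zero_le_one, ?_, ?_, ?_, ?_, ?_, ?_, ?_, ?_, ?_, ?_⟩
  · intro S v z hS hv hvU hz
    exact PvData.G_hasSum hD hr hv (hroots S hS) hz
  · intro S v k hS hv hvU
    rw [Complex.norm_real, Real.norm_eq_abs, one_mul]
    exact PvData.mgj_abs_rho_pow_le hD hr hv (hroots S hS) k
  · intro S S' v k hS hS' hv hv' hvU hb
    have : ((C.data c).rho S v fun x => x ^ k) = (C.data c).rho S' v fun x => x ^ k :=
      PvData.rho_pow_local hD hD hr (C.data_supp hC.meas c) (C.data_supp hC.meas c) k hv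
        (fun u hu => hb u (mgBall_mono C.σ (by omega) v ((mgGraph_edist_le hC.meas.inv.invol).1 hu)))
        (fun _ _ _ => rfl) (fun _ _ _ => rfl) (fun _ _ _ => rfl) (fun _ _ _ _ _ _ => rfl)
    simp only [this]
  · intro S v hS hv hvU
    unfold PvData.G
    exact DifferentiableOn.div (Polynomial.differentiable _).differentiableOn
      (Polynomial.differentiable _).differentiableOn (fun z hz => PvData.poly_eval_ne_zero hD hr S hz)
  · intro S v z hS hv hvU hz
    exact PvData.mgs_G_norm_le hD hr hv hz
  · intro S A u z hS hu huE hA hAU hz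
    have h1 := PvData.single_G hD hr hu hz
    have h2 : ∑ v ∈ A, ‖(C.data c).G S v z - (C.data c).G (S.erase u) v z‖ ≤
        ∑ v ∈ S.erase u, ‖(C.data c).G S v z - (C.data c).G (S.erase u) v z‖ :=
      Finset.sum_le_sum_of_subset_of_nonneg hA fun _ _ _ => norm_nonneg _
    have h3 := norm_nonneg ((C.data c).G S u z)
    linarith
  · intro a ha b hb hab
    have ha' : (0 : ℝ) < a := ha
    simp only
    gcongr
  · intro a ha b hb hab
    have ha' : (0 : ℝ) < a := ha
    simp only
    gcongr
  · intro R root Qz h w₀ ζ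
    exact mg_meas_G (hC.meas.withρ R) h w₀ measurable_const
  · intro R root Qz h w₀ k
    have h1 := Complex.measurable_ofReal.comp (mg_meas_rho_pow (hC.meas.withρ R) hr h w₀ k)
    have e : (fun y => if mgAct C.σ w₀ (root y) ∈ C.setR (Qz y) R (root y) then
        (((C.data c).rho (C.setR (Qz y) R (root y)) (mgAct C.σ w₀ (root y)) fun x => x ^ k : ℝ) : ℂ) else 0) =
        Complex.ofReal ∘ fun z => if mgAct (C.withρ R).σ w₀ (root z) ∈ (C.withρ R).set (Qz z) (root z) then
          ((C.withρ R).data c).rho ((C.withρ R).set (Qz z) (root z)) (mgAct (C.withρ R).σ w₀ (root z))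
            (fun x => x ^ k) else 0 := by
      funext y
      by_cases hz : mgAct C.σ w₀ (root y) ∈ C.setR (Qz y) R (root y)
      · have hz' : mgAct (C.withρ R).σ w₀ (root y) ∈ (C.withρ R).set (Qz y) (root y) := hz
        simp only [Function.comp, if_pos hz, if_pos hz']
        rfl
      · have hz' : ¬ mgAct (C.withρ R).σ w₀ (root y) ∈ (C.withρ R).set (Qz y) (root y) := hz
        simp only [Function.comp, if_neg hz, if_neg hz']
        simp
    rw [e]
    exact h1

end

end Claimed.Agent.R302
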