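/-
R302 / MG / Compare   (blueprint: helper203; proofs: helper255; package MGS-Compare)

Deleting a set `E` of SMALL MEASURE (arbitrarily heavy sites!) changes the costs at the targets `U` (weights `≤ w`) by little in `L¹(U)`.
`κ` depends on `(w, K, t, r, D, δ)` only: NOT on the bound `H` of the weights on `Q`, not on the configuration,
not on the context `C` (radius, polynomial).

PROOF.  Choose `η0, η1` with `mgsTail η0 η1 w K t ≤ δ/2`, `A` from `MG/Recover`.  Pointwise (`mgs_recover_m/d/di` with `S = C.setR Q R v`, `S' = C.setR (Q \ E) R v`,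
  and `abs_M_sub_m_le`, `abs_Df_sub_d_le`: the polynomial costs are within `ε₁` of the exact costs of BOTH finite sets, `R ≥ 2 deg p`):
  `|Δcost(v)| ≤ A (Δ(v,η0) + Δ(v,η1) + ∫_{η0}^{η1} Δ(v,η) dη) + tail + 2 ε₁`,  `Δ(v,η) = |ΔG(v,iη)| + |ΔJ_i(v,iη)|`.
  Integrate the MAJORANT over `U` (`mgq_cost_le`: Fubini for the jointly measurable `mgsDel`; the exact costs themselves are never integrated),
  `mgs_rank` for the fields `G`, `J_i` with `ε` small:  `∫_U Δ(·,η) dν ≤ (sd_G(η0) + sd_J(η0)) ν E + 2 ε`.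
  `C.Dfi c Q i v = C.Df (update c v (some i)) Q v` and `C.data (update c v (some i)) = (C.data c).assign v i (80 t)`.
-/
import Claimed.Agent.R302.MG.CompareA
import Claimed.Agent.R302.MG.FieldG
import Claimed.Agent.R302.MG.FieldJ

set_option autoImplicit false
set_option linter.unusedSectionVars false

namespace Claimed.Agent.R302

open MeasureTheory Finset Polynomial
open scoped BigOperators ComplexConjugate ENNReal

noncomputable section

theorem MgCtx.data_update {Y : Type*} [DecidableEq Y] {D r : ℕ} (C : MgCtx Y D) (c : Y → Option (Fin r)) (v : Y)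
    (i : Fin r) : C.data (Function.update c v (some i)) = (C.data c).assign v i (80 * C.t) := by
  unfold MgCtx.data PvData.assign
  simp only [PvData.mk.injEq, true_and]
  funext y
  by_cases hy : y = v
  · subst hy; simp [mgTau]
  · simp [hy]

/-- choice of the truncation -/
theorem mgq_tail_le {w K t δ : ℝ} (hw : 0 < w) (hK : 1 ≤ K) (ht : 0 < t) (hδ : 0 < δ) :
    ∃ η0 η1 : ℝ, 0 < η0 ∧ η0 ≤ η1 ∧ 0 ≤ mgsTail η0 η1 w K t ∧ mgsTail η0 η1 w K t ≤ δ / 2 := by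
  set Mw : ℝ := (80 * t * w) ^ 2 + 2 * K * w ^ 2 with hMw
  have hMpos : 0 < Mw := by positivity
  have h1 : 0 < max (δ / 8) (4 * Mw / δ) := lt_of_lt_of_le (by positivity) (le_max_left _ _)
  refine ⟨δ / 8, max (δ / 8) (4 * Mw / δ), by positivity, le_max_left _ _, ?_, ?_⟩
  · unfold mgsTail
    rw [← hMw]
    positivity
  · unfold mgsTail
    rw [← hMw]
    have h2 : Mw / max (δ / 8) (4 * Mw / δ) ≤ δ / 4 := by
      rw [div_le_iff₀ h1]
      have h3 : 4 * Mw / δ ≤ max (δ / 8) (4 * Mw / δ) := le_max_right _ _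
      have h4 : δ / 4 * (4 * Mw / δ) = Mw := by field_simp
      nlinarith
    linarith

section Point

variable {Y : Type*} [MeasurableSpace Y] [DecidableEq Y] {D r : ℕ}
  {C : MgCtx Y D} {ν : Measure Y} {K : ℝ} {Q E U : Set Y} {H ε₁ w t η0 η1 : ℝ}

theorem mgq_nbr (hC : C.Inv ν K) (c : Y → Option (Fin r)) (v : Y) (S : Finset Y) :
    ∀ u ∈ S, (C.data c).T v u ≠ 0 → (C.data c).W u ≤ K * (C.data c).W v := by
  intro u _ hT
  obtain ⟨k, rfl⟩ := hC.meas.ker.supp v u hT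
  exact hC.W_le k v

theorem mgq_tau (C : MgCtx Y D) (ht : 0 < C.t) (c : Y → Option (Fin r)) (v : Y) :
    0 ≤ (C.data c).τ v ∧ (C.data c).τ v ≤ 80 * C.t := by
  show 0 ≤ mgTau C.t (c v) ∧ mgTau C.t (c v) ≤ 80 * C.t
  unfold mgTau
  split_ifs
  · constructor <;> linarith
  · constructor <;> linarith

theorem mgq_ball_setR (C : MgCtx Y D) (Q : Set Y) {k R : ℕ} (hkR : k ≤ R) (v : Y) :
    ∀ u ∈ mgBall C.σ k v, u ∈ Q → u ∈ C.setR Q R v :=
  fun _ hu hQ => MgCtx.mem_setR.2 ⟨mgBall_mono C.σ hkR v hu, hQ⟩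

theorem mgq_point_M (hC : C.Inv ν K) (hG : C.Good r H ε₁) (c : Y → Option (Fin r))
    (hQH : ∀ y ∈ Q, C.W y ≤ H) (hUQ : U ⊆ Q \ E) (hUw : ∀ y ∈ U, C.W y ≤ w) (h0 : 0 < η0) (h01 : η0 ≤ η1)
    (hw : 0 < w) {R : ℕ} (hR : C.p.natDegree ≤ R) {v : Y} (hv : v ∈ U) :
    |C.M c Q v - C.M c (Q \ E) v| ≤
      η1 * (∫ η in η0..η1, ‖(C.data c).G (C.setR Q R v) v (mgsI η) -
        (C.data c).G (C.setR (Q \ E) R v) v (mgsI η)‖) + mgsTail η0 η1 w K C.t + 2 * ε₁ := by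
  have hvQ := hUQ hv
  have h1 := MgCtx.abs_M_sub_m_le hG c hQH hvQ.1 (C.setR Q R v)
    (fun u hu => (MgCtx.mem_setR.1 hu).2) (mgq_ball_setR C Q hR v)
  have h2 := MgCtx.abs_M_sub_m_le hG c (Q := Q \ E) (fun y hy => hQH y hy.1) hvQ (C.setR (Q \ E) R v)
    (fun u hu => (MgCtx.mem_setR.1 hu).2) (mgq_ball_setR C (Q \ E) hR v)
  have h3 := mgs_recover_m h0 h01 hw hC.one_le hC.t_pos (C.data_good hC.meas c) hG.r_pos
    (mgq_self_mem_setR C R hvQ.1) (mgq_self_mem_setR C R hvQ) (hUw v hv) (mgq_nbr hC c v _)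
    (mgq_tau C hC.t_pos c v)
  rw [abs_le] at h1 h2 h3 ⊢
  constructor <;> linarith [h1.1, h1.2, h2.1, h2.2, h3.1, h3.2]

theorem mgq_point_Df (_hC : C.Inv ν K) (hG : C.Good r H ε₁) (c : Y → Option (Fin r))
    (hQH : ∀ y ∈ Q, C.W y ≤ H) (hUQ : U ⊆ Q \ E) {R : ℕ} (hR : 2 * C.p.natDegree ≤ R) {v : Y} (hv : v ∈ U) :
    |C.Df c Q v - C.Df c (Q \ E) v| ≤
      |(C.data c).d (C.setR Q R v) v - (C.data c).d (C.setR (Q \ E) R v) v| + 2 * ε₁ := by
  have hvQ := hUQ hv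
  have h1 := MgCtx.abs_Df_sub_d_le hG c hQH hvQ.1 (C.setR Q R v)
    (fun u hu => (MgCtx.mem_setR.1 hu).2) (mgq_ball_setR C Q hR v)
  have h2 := MgCtx.abs_Df_sub_d_le hG c (Q := Q \ E) (fun y hy => hQH y hy.1) hvQ (C.setR (Q \ E) R v)
    (fun u hu => (MgCtx.mem_setR.1 hu).2) (mgq_ball_setR C (Q \ E) hR v)
  have h3 := le_abs_self ((C.data c).d (C.setR Q R v) v - (C.data c).d (C.setR (Q \ E) R v) v)
  have h4 := neg_abs_le ((C.data c).d (C.setR Q R v) v - (C.data c).d (C.setR (Q \ E) R v) v)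
  rw [abs_le] at h1 h2 ⊢
  constructor <;> linarith [h1.1, h1.2, h2.1, h2.2]

end Point

/-- **COMPARISON for the exactly local polynomial costs** -/
theorem mgs_compare.{u} {w K t δ : ℝ} (r D : ℕ) (hw : 0 < w) (hK : 1 ≤ K) (ht : 0 < t) (hδ : 0 < δ) :
    ∃ κ : ℝ, 0 < κ ∧ ∀ (Y : Type u) [MeasurableSpace Y] [DecidableEq Y] (C : MgCtx Y D) (ν : Measure Y),
      C.Inv ν K → C.t = t → ∀ (H ε₁ : ℝ), C.Good r H ε₁ → ∀ (c : Y → Option (Fin r)), MgMeasC c →
      ∀ (Q E U : Set Y), MeasurableSet Q → MeasurableSet E → MeasurableSet U → E ⊆ Q → U ⊆ Q \ E →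
      (∀ y ∈ Q, C.W y ≤ H) → (∀ y ∈ U, C.W y ≤ w) → ν U ≤ 1 → ν E ≤ ENNReal.ofReal κ →
        (∫ v in U, |C.M c Q v - C.M c (Q \ E) v| ∂ν ≤ δ + 2 * ε₁) ∧
        (∫ v in U, |C.Df c Q v - C.Df c (Q \ E) v| ∂ν ≤ δ + 2 * ε₁) ∧
        ∀ i : Fin r, ∫ v in U ∩ {y | c y = none}, |C.Dfi c Q i v - C.Dfi c (Q \ E) i v| ∂ν ≤ δ + 2 * ε₁ := by
  obtain ⟨η0, η1, h0, h01, htail0, htail⟩ := mgq_tail_le hw hK ht hδ
  obtain ⟨Ad, hAd0, hAd⟩ := mgs_recover_d.{u} h0 h01 hw hK ht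
  obtain ⟨Ai, hAi0, hAi⟩ := mgs_recover_di.{u} h0 h01 hw hK ht
  have hη1 : 0 < η1 := lt_of_lt_of_le h0 h01
  obtain ⟨A, hA1, hAd', hAi'⟩ : ∃ A : ℝ, η1 ≤ A ∧ Ad ≤ A ∧ Ai ≤ A :=
    ⟨max η1 (max Ad Ai), le_max_left _ _, (le_max_left _ _).trans (le_max_right _ _),
      (le_max_right _ _).trans (le_max_right _ _)⟩
  have hA0 : 0 ≤ A := hη1.le.trans hA1
  obtain ⟨sG, hsG⟩ : ∃ sG : ℝ, sG = 8 * Real.pi / η0 := ⟨_, rfl⟩
  obtain ⟨sJ, hsJ⟩ : ∃ sJ : ℝ, sJ = 2 * Real.pi * r * (8 * Real.sqrt K * w / η0 + 4) := ⟨_, rfl⟩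
  have hsG0 : 0 ≤ sG := by rw [hsG]; positivity
  have hsJ0 : 0 ≤ sJ := by rw [hsJ]; positivity
  obtain ⟨Lam, hLam⟩ : ∃ Lam : ℝ, Lam = A * (2 + (η1 - η0)) := ⟨_, rfl⟩
  have hLam0 : 0 ≤ Lam := by rw [hLam]; exact mul_nonneg hA0 (by linarith)
  obtain ⟨κ, hκdef⟩ : ∃ κ : ℝ, κ = δ / (4 * (Lam * (sG + sJ) + 1)) := ⟨_, rfl⟩
  obtain ⟨ε', hε'def⟩ : ∃ ε' : ℝ, ε' = δ / (8 * (Lam + 1)) := ⟨_, rfl⟩
  have hden1 : 0 < Lam * (sG + sJ) + 1 := by positivity
  have hκ : 0 < κ := by rw [hκdef]; positivity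
  have hε' : 0 < ε' := by rw [hε'def]; positivity
  have key : A * ((2 + (η1 - η0)) * ((sG + sJ) * κ + 2 * ε')) ≤ δ / 2 := by
    have e1 : A * ((2 + (η1 - η0)) * ((sG + sJ) * κ + 2 * ε')) =
        Lam * (sG + sJ) * κ + 2 * (Lam * ε') := by rw [hLam]; ring
    have e2 : Lam * (sG + sJ) * κ ≤ δ / 4 := by
      rw [hκdef, mul_div_assoc', div_le_iff₀ (by positivity)]
      nlinarith
    have e3 : Lam * ε' ≤ δ / 8 := by
      rw [hε'def, mul_div_assoc', div_le_iff₀ (by positivity)]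
      nlinarith
    rw [e1]; linarith
  refine ⟨κ, hκ, ?_⟩
  intro Y _ _ C ν hC hCt H ε₁ hG c hc Q E U hQ hE hU hEQ hUQ hQH hUw hνU hνE
  have hr : 0 < r := hG.r_pos
  have hε₁ : 0 ≤ ε₁ := hG.eps_nonneg
  have hκE : (ν E).toReal ≤ κ := ENNReal.toReal_le_of_le_ofReal hκ.le hνE
  have hνE' : ν E ≠ ∞ := ne_top_of_le_ne_top ENNReal.ofReal_ne_top hνE
  have hνU' : ν U ≠ ∞ := ne_top_of_le_ne_top ENNReal.one_ne_top hνU
  have hD := C.data_good hC.meas c
  -- the field `G` on the targets `U`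
  have hFG : ∀ U' : Set Y, MgsField C c Q E U' (fun S v z => (C.data c).G S v z)
      (fun S v k => (((C.data c).rho S v fun x => x ^ k : ℝ) : ℂ)) ((1 + 80 * C.t) * H) 1
      (fun y => 1 / y) (fun y => 8 * Real.pi / y) := fun U' => mgs_field_G hC hr hc hG.H_pos hQH
  obtain ⟨R0, hR0⟩ := mgsDel_rank hC hc hQ hE hU hEQ hUQ hνU' hνE' (hFG U) h0 h01 hε'
    (by rw [← hsG]; exact hsG0) hκE
  obtain ⟨R, hRR0, hRdeg⟩ : ∃ R : ℕ, R0 ≤ R ∧ 2 * C.p.natDegree ≤ R :=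
    ⟨max R0 (2 * C.p.natDegree), le_max_left _ _, le_max_right _ _⟩
  have hs : ∀ η ∈ Set.Icc η0 η1, ∫ v in U, mgsDel C Q E U (fun S v z => (C.data c).G S v z) R η0 η v ∂ν ≤
      (sG + sJ) * κ + 2 * ε' := by
    intro η hη
    have := hR0 R hRR0 η hη
    rw [← hsG] at this
    nlinarith [mul_nonneg hsJ0 hκ.le]
  have hnn := mgsDel_nonneg C Q E U (fun S v z => (C.data c).G S v z) R η0
  refine ⟨?_, ?_, ?_⟩
  · -- rooted cost
    have h1 := mgq_cost_le hU hνU h01 hA0 htail0 hε₁ (mgsDel C Q E U (fun S v z => (C.data c).G S v z) R η0)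
      (mgsDel_meas hC hc hQ hE hU hUQ (hFG U) R h0) hnn (mgsDel_le (hFG U) hUQ R h0) hs
      (fun v => C.M c Q v - C.M c (Q \ E) v) (fun v hv => ?_)
    · linarith
    · have h2 := mgq_point_M hC hG c hQH hUQ hUw h0 h01 hw (R := R) (by omega) hv
      rw [hCt, ← mgsDel_interval (C := C) (Q := Q) (E := E) (Φ := fun S v z => (C.data c).G S v z) h01 hv] at h2
      have h3 : 0 ≤ ∫ η in η0..η1, mgsDel C Q E U (fun S v z => (C.data c).G S v z) R η0 η v :=
        intervalIntegral.integral_nonneg h01 fun η _ => hnn η v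
      have h4 : η1 * (∫ η in η0..η1, mgsDel C Q E U (fun S v z => (C.data c).G S v z) R η0 η v) ≤
          A * (mgsDel C Q E U (fun S v z => (C.data c).G S v z) R η0 η0 v +
            mgsDel C Q E U (fun S v z => (C.data c).G S v z) R η0 η1 v +
            ∫ η in η0..η1, mgsDel C Q E U (fun S v z => (C.data c).G S v z) R η0 η v) := by
        have := hnn η0 v
        have := hnn η1 v
        nlinarith [mul_le_mul_of_nonneg_right hA1 h3]
      linarith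
  · -- deletion increment
    have h1 := mgq_cost_le hU hνU h01 hA0 htail0 hε₁ (mgsDel C Q E U (fun S v z => (C.data c).G S v z) R η0)
      (mgsDel_meas hC hc hQ hE hU hUQ (hFG U) R h0) hnn (mgsDel_le (hFG U) hUQ R h0) hs
      (fun v => C.Df c Q v - C.Df c (Q \ E) v) (fun v hv => ?_)
    · linarith
    · have h2 := mgq_point_Df hC hG c hQH hUQ hRdeg hv
      have hτ := mgq_tau C hC.t_pos c v
      rw [hCt] at hτ
      have h3 := hAd hD hr (mgq_self_mem_setR C R (hUQ hv).1) (mgq_self_mem_setR C R (hUQ hv)) (hUw v hv)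
        (mgq_nbr hC c v _) hτ
      rw [← mgsDel_interval (C := C) (Q := Q) (E := E) (Φ := fun S v z => (C.data c).G S v z) h01 hv,
        ← mgsDel_eq (C := C) (Q := Q) (E := E) (Φ := fun S v z => (C.data c).G S v z) (le_refl η0) hv,
        ← mgsDel_eq (C := C) (Q := Q) (E := E) (Φ := fun S v z => (C.data c).G S v z) h01 hv] at h3
      have h4 : 0 ≤ ∫ η in η0..η1, mgsDel C Q E U (fun S v z => (C.data c).G S v z) R η0 η v :=
        intervalIntegral.integral_nonneg h01 fun η _ => hnn η v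
      have h5 : 0 ≤ mgsDel C Q E U (fun S v z => (C.data c).G S v z) R η0 η0 v +
            mgsDel C Q E U (fun S v z => (C.data c).G S v z) R η0 η1 v +
            ∫ η in η0..η1, mgsDel C Q E U (fun S v z => (C.data c).G S v z) R η0 η v := by
        have := hnn η0 v
        have := hnn η1 v
        linarith
      have h6 := mul_le_mul_of_nonneg_right hAd' h5
      linarith
  · -- virtual increment of the option `i`
    intro i
    have hU1 : MeasurableSet (U ∩ {y | c y = none}) := hU.inter (hc none)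
    have hU1Q : U ∩ {y | c y = none} ⊆ Q \ E := Set.inter_subset_left.trans hUQ
    have hνU1 : ν (U ∩ {y | c y = none}) ≤ 1 := (measure_mono Set.inter_subset_left).trans hνU
    have hνU1' : ν (U ∩ {y | c y = none}) ≠ ∞ := ne_top_of_le_ne_top ENNReal.one_ne_top hνU1
    have hdisj : Disjoint (U ∩ {y | c y = none}) E :=
      Set.disjoint_left.2 fun y hy hyE => (hU1Q hy).2 hyE
    obtain ⟨coefJ, BJ, hFJ⟩ := mgs_field_J (E := E) hC hr hc hG.H_pos hw hQH hdisj (fun y hy => hy.2)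
      (fun y hy => hUw y hy.1) i
    obtain ⟨R1, hR1⟩ := mgsDel_rank hC hc hQ hE hU1 hEQ hU1Q hνU1' hνE' (hFG _) h0 h01 hε'
      (by rw [← hsG]; exact hsG0) hκE
    obtain ⟨R2, hR2⟩ := mgsDel_rank hC hc hQ hE hU1 hEQ hU1Q hνU1' hνE' hFJ h0 h01 hε'
      (by rw [← hsJ]; exact hsJ0) hκE
    obtain ⟨R', hR'1, hR'2, hR'deg⟩ : ∃ R' : ℕ, R1 ≤ R' ∧ R2 ≤ R' ∧ 2 * C.p.natDegree ≤ R' :=
      ⟨max R1 (max R2 (2 * C.p.natDegree)), le_max_left _ _, (le_max_left _ _).trans (le_max_right _ _),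
        (le_max_right _ _).trans (le_max_right _ _)⟩
    obtain ⟨ΔG, hΔG⟩ : ∃ ΔG : ℝ → Y → ℝ, ΔG =
      mgsDel C Q E (U ∩ {y | c y = none}) (fun S v z => (C.data c).G S v z) R' η0 := ⟨_, rfl⟩
    obtain ⟨ΔJ, hΔJ⟩ : ∃ ΔJ : ℝ → Y → ℝ, ΔJ =
      mgsDel C Q E (U ∩ {y | c y = none}) (fun S v z => (C.data c).Jf S i v z) R' η0 := ⟨_, rfl⟩
    have hGnn : ∀ η v, 0 ≤ ΔG η v := by rw [hΔG]; exact mgsDel_nonneg _ _ _ _ _ _ _
    have hJnn : ∀ η v, 0 ≤ ΔJ η v := by rw [hΔJ]; exact mgsDel_nonneg _ _ _ _ _ _ _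
    have hGm : Measurable (Function.uncurry ΔG) := by
      rw [hΔG]; exact mgsDel_meas hC hc hQ hE hU1 hU1Q (hFG _) R' h0
    have hJm : Measurable (Function.uncurry ΔJ) := by
      rw [hΔJ]; exact mgsDel_meas hC hc hQ hE hU1 hU1Q hFJ R' h0
    have hs' : ∀ η ∈ Set.Icc η0 η1, ∫ v in U ∩ {y | c y = none}, (ΔG η v + ΔJ η v) ∂ν ≤
        (sG + sJ) * κ + 2 * ε' := by
      intro η hη
      have i1 : Integrable (ΔG η) (ν.restrict (U ∩ {y | c y = none})) := by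
        rw [hΔG]; exact mgsDel_integrable hC hc hQ hE hU1 hU1Q hνU1' (hFG _) R' h0 η
      have i2 : Integrable (ΔJ η) (ν.restrict (U ∩ {y | c y = none})) := by
        rw [hΔJ]; exact mgsDel_integrable hC hc hQ hE hU1 hU1Q hνU1' hFJ R' h0 η
      rw [integral_add i1 i2]
      have a1 := hR1 R' hR'1 η hη
      have a2 := hR2 R' hR'2 η hη
      rw [← hsG, ← hΔG] at a1
      rw [← hsJ, ← hΔJ] at a2
      linarith
    have h1 := mgq_cost_le hU1 hνU1 h01 hA0 htail0 hε₁ (fun η v => ΔG η v + ΔJ η v)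
      (hGm.add hJm) (fun η v => add_nonneg (hGnn η v) (hJnn η v))
      (b := max (2 * (1 / η0)) 0 + max (2 * (K * w ^ 2 / η0 ^ 2)) 0)
      (fun η v => add_le_add (by rw [hΔG]; exact mgsDel_le (hFG _) hU1Q R' h0 η v)
        (by rw [hΔJ]; exact mgsDel_le hFJ hU1Q R' h0 η v)) hs'
      (fun v => C.Dfi c Q i v - C.Dfi c (Q \ E) i v) (fun v hv => ?_)
    · linarith
    · have h2 := mgq_point_Df hC hG (Function.update c v (some i)) hQH hU1Q hR'deg hv
      rw [MgCtx.data_update, hCt] at h2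
      have hτ : (C.data c).τ v = t := by
        show mgTau C.t (c v) = t
        have hcv : c v = none := hv.2
        rw [hcv, hCt]
        simp [mgTau]
      have h3 := hAi hD hr (mgq_self_mem_setR C R' (hU1Q hv).1) (mgq_self_mem_setR C R' (hU1Q hv))
        (hUw v hv.1) (mgq_nbr hC c v _) hτ i
      have eG : ∀ η, η0 ≤ η → ‖(C.data c).G (C.setR Q R' v) v (mgsI η) -
          (C.data c).G (C.setR (Q \ E) R' v) v (mgsI η)‖ = ΔG η v := fun η hη => by
        rw [hΔG]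
        exact (mgsDel_eq (C := C) (Q := Q) (E := E) (Φ := fun S v z => (C.data c).G S v z) (R := R')
          hη hv).symm
      have eJ : ∀ η, η0 ≤ η → ‖(C.data c).Jf (C.setR Q R' v) i v (mgsI η) -
          (C.data c).Jf (C.setR (Q \ E) R' v) i v (mgsI η)‖ = ΔJ η v := fun η hη => by
        rw [hΔJ]
        exact (mgsDel_eq (C := C) (Q := Q) (E := E) (Φ := fun S v z => (C.data c).Jf S i v z) (R := R')
          hη hv).symm
      have eI : ∫ η in η0..η1, (‖(C.data c).G (C.setR Q R' v) v (mgsI η) -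
          (C.data c).G (C.setR (Q \ E) R' v) v (mgsI η)‖ + ‖(C.data c).Jf (C.setR Q R' v) i v (mgsI η) -
          (C.data c).Jf (C.setR (Q \ E) R' v) i v (mgsI η)‖) = ∫ η in η0..η1, (ΔG η v + ΔJ η v) := by
        refine intervalIntegral.integral_congr fun η hη => ?_
        rw [Set.uIcc_of_le h01] at hη
        simp only [eG η hη.1, eJ η hη.1]
      rw [eI, eG η0 (le_refl _), eG η1 h01, eJ η0 (le_refl _), eJ η1 h01] at h3
      have h4 : 0 ≤ ∫ η in η0..η1, (ΔG η v + ΔJ η v) :=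
        intervalIntegral.integral_nonneg h01 fun η _ => add_nonneg (hGnn η v) (hJnn η v)
      have h5 : 0 ≤ (ΔG η0 v + ΔJ η0 v) + (ΔG η1 v + ΔJ η1 v) + ∫ η in η0..η1, (ΔG η v + ΔJ η v) := by
        have := hGnn η0 v
        have := hGnn η1 v
        have := hJnn η0 v
        have := hJnn η1 v
        linarith
      have h6 := mul_le_mul_of_nonneg_right hAi' h5
      have h7 : |C.Dfi c Q i v - C.Dfi c (Q \ E) i v| =
          |C.Df (Function.update c v (some i)) Q v - C.Df (Function.update c v (some i)) (Q \ E) v| := rfl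
      rw [h7]
      linarith

end

end Claimed.Agent.R302
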