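/-
R302 / MG / WinTrans   (blueprint: helper203; proofs: helper261; package MGS-Translate; the other packages are in WinUp, WinLow, Window)

PHASE AVERAGED WINDOW STABILITY in the Maharam lift (replaces Q Lemmas 6.2, 6.3: no homogeneous limits).
`Cx = B.ctx t ρ p`, `ν = mgLiftμ μ`, `U0 = mgWin X (-1) 0` (weights in `[1, e]`, `ν U0 = 1 - 1/e`), masks = windows `mgWin X a b`.

* Translate: `τ_h (x,s) = (x, s+h)` commutes with the lifted involutions (`lσ_translate`), `lT` and `mgUp c` are invariant, `W ∘ τ_h = e^{-h} W`: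
  `(Cx.data c̃).comap τ_h = (Cx.data c̃).scale (e^{-h})`; `rho_comap`, `df_comap`, `scale_rho`, `scale_poly_roots`; `mgBall_image`.
  So the EXACT costs are covariant; the polynomial costs are within `ε₁` of the exact costs of a common radius (`abs_M_sub_m_le`, `abs_Df_sub_d_le`).
* WinUp: `mgs_compare` with `Q = mgWin X (-H2) b`, `E = {y | -H2 ≤ y.2 < -H1}`, `ν E ≤ e^{-H1}`, `w = e`.
* WinLow: take `p1` with `MgApx p1 ((1+80t) e^{H1}) (δ/4)` (`mg_exists_apx`), `k1 = deg p1`, `l1 = (2 k1 + 1) log K`: the costs of `B.ctx t (2 k1 + 1) p1` for the two windows COINCIDE at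
  the roots of `U0` (`M_congr`, `Df_congr`, `abs_snd_sub_le`); both polynomial costs are close to the exact costs of a common large radius.
* WinStable: `win a b → win (-H1) b → win (-H1) b' → win a' b'`.
-/
import Claimed.Agent.R302.MG.Compare
import Claimed.Agent.R302.MG.Strip
import Claimed.Agent.R302.Poly.Comap

set_option autoImplicit false
set_option linter.unusedSectionVars false
set_option linter.unusedVariables false

namespace Claimed.Agent.R302

open MeasureTheory Finset Polynomial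
open scoped BigOperators ComplexConjugate ENNReal

noncomputable section

/-- approximation on a larger interval is approximation on a smaller one -/
theorem MgApx.mono_L {p : ℝ[X]} {L L' ε : ℝ} (h : MgApx p L ε) (h0 : 0 ≤ L') (hL : L' ≤ L) : MgApx p L' ε := by
  refine ⟨fun x hx => h.sup x ⟨by linarith [hx.1], by linarith [hx.2]⟩, ?_⟩
  set g : ℝ → ℝ := fun x => |p.derivative.eval x - (if 0 < x then 1 else 0)| with hg
  have hgi : ∀ a b, IntervalIntegrable g volume a b := fun a b =>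
    ((p.derivative.continuous.intervalIntegrable a b).sub (mgcStep_integrable a b)).abs
  have hg0 : ∀ x, 0 ≤ g x := fun x => abs_nonneg _
  have h1 : ∫ x in (-L)..L, g x =
      (∫ x in (-L)..(-L'), g x) + (∫ x in (-L')..L', g x) + ∫ x in L'..L, g x := by
    rw [intervalIntegral.integral_add_adjacent_intervals (hgi _ _) (hgi _ _),
      intervalIntegral.integral_add_adjacent_intervals (hgi _ _) (hgi _ _)]
  have h2 : 0 ≤ ∫ x in L'..L, g x := intervalIntegral.integral_nonneg hL fun x _ => hg0 x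
  have h3 : |p.eval (-L')| ≤ |p.eval (-L)| + ∫ x in (-L)..(-L'), g x := by
    rw [mgc_eval_eq_integral p (-L) (-L')]
    refine (abs_add_le _ _).trans (add_le_add le_rfl ?_)
    have h4 : ∫ s in (-L)..(-L'), p.derivative.eval s =
        ∫ s in (-L)..(-L'), (p.derivative.eval s - (if 0 < s then 1 else 0)) := by
      refine intervalIntegral.integral_congr fun s hs => ?_
      rw [Set.uIcc_of_le (by linarith)] at hs
      have : ¬ (0 < s) := not_lt.2 (hs.2.trans (by linarith))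
      simp only [if_neg this, sub_zero]
    rw [h4]
    exact intervalIntegral.abs_integral_le_integral_abs (by linarith)
  have h5 := h.der
  linarith

theorem MgCtx.Good.mono_H {Y : Type*} [MeasurableSpace Y] [DecidableEq Y] {D r : ℕ} {C : MgCtx Y D} {H H' ε₁ : ℝ}
    (h : C.Good r H ε₁) (h0 : 0 < H') (hH : H' ≤ H) : C.Good r H' ε₁ := by
  have ht := h.t_pos
  exact ⟨h.meas, h.r_pos, h.t_pos, h0,
    h.apx.mono_L (by positivity) (mul_le_mul_of_nonneg_left hH (by positivity)), h.rad⟩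

/-- scaling of the positive root sum -/
theorem mgsw_scale_sPos {V : Type*} [DecidableEq V] {r : ℕ} (D : PvData V r) (S : Finset V) {s : ℝ} (hs : 0 < s) :
    pvSPos ((D.scale s).poly S) = s * pvSPos (D.poly S) := by
  unfold pvSPos
  rw [PvData.scale_poly_roots D S hs, Multiset.map_map, ← Multiset.sum_map_mul_left]
  congr 1
  refine Multiset.map_congr rfl fun x _ => ?_
  simp only [Function.comp]
  rw [Complex.re_ofReal_mul, mul_max_of_nonneg _ _ hs.le, mul_zero]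

theorem mgsw_scale_d {V : Type*} [DecidableEq V] {r : ℕ} (D : PvData V r) (S : Finset V) (v : V) {s : ℝ}
    (hs : 0 < s) : (D.scale s).d S v = s * D.d S v := by
  unfold PvData.d
  rw [mgsw_scale_sPos D S hs, mgsw_scale_sPos D _ hs]
  ring

theorem mgsw_scale_m {V : Type*} [DecidableEq V] {r : ℕ} {D : PvData V r} (hD : D.Good) (hr : 0 < r)
    {S : Finset V} {v : V} (hv : v ∈ S) {s : ℝ} (hs : 0 < s) : (D.scale s).m S v = s * D.m S v := by
  unfold PvData.m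
  rw [PvData.scale_rho hD hr hv hs, ← PvData.rho_smul]
  congr 1
  funext x
  rw [mul_max_of_nonneg _ _ hs.le, mul_zero]

/-- the arithmetic of approximate covariance -/
theorem mgsw_arith {A A' m m' E E' ε s : ℝ} (h1 : |A - m| ≤ ε) (h2 : |A' - m'| ≤ ε) (hm : m' = s * m)
    (hE : E' * s = E) (hE0 : 0 ≤ E) (hE0' : 0 ≤ E') : |E' * A' - E * A| ≤ ε * (E' + E) := by
  have e : E' * A' - E * A = E' * (A' - m') - E * (A - m) := by
    rw [hm, ← hE]; ring
  rw [e]
  calc |E' * (A' - m') - E * (A - m)| ≤ |E' * (A' - m')| + |E * (A - m)| := abs_sub _ _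
    _ = E' * |A' - m'| + E * |A - m| := by rw [abs_mul, abs_mul, abs_of_nonneg hE0, abs_of_nonneg hE0']
    _ ≤ E' * ε + E * ε := add_le_add (mul_le_mul_of_nonneg_left h2 hE0') (mul_le_mul_of_nonneg_left h1 hE0)
    _ = ε * (E' + E) := by ring

/-- triangle inequality for set integrals of bounded measurable functions -/
theorem mgsw_triangle {Y : Type*} [MeasurableSpace Y] {ν : Measure Y} {A : Set Y} (hνA : ν A ≠ ∞)
    {f g k : Y → ℝ} (hf : Measurable f) (hg : Measurable g) (hk : Measurable k) {c₀ : ℝ}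
    (bf : ∀ y, |f y| ≤ c₀) (bg : ∀ y, |g y| ≤ c₀) (bk : ∀ y, |k y| ≤ c₀) :
    ∫ y in A, |f y - k y| ∂ν ≤ ∫ y in A, |f y - g y| ∂ν + ∫ y in A, |g y - k y| ∂ν := by
  have : IsFiniteMeasure (ν.restrict A) :=
    ⟨by rw [Measure.restrict_apply_univ]; exact lt_top_iff_ne_top.2 hνA⟩
  have hint : ∀ {a b : Y → ℝ}, Measurable a → Measurable b → (∀ y, |a y| ≤ c₀) → (∀ y, |b y| ≤ c₀) →
      Integrable (fun y => |a y - b y|) (ν.restrict A) := by
    intro a b ha hb ba bb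
    refine Integrable.of_bound (ha.sub hb).abs.aestronglyMeasurable (c₀ + c₀)
      (Filter.Eventually.of_forall fun y => ?_)
    rw [Real.norm_eq_abs, abs_abs]
    exact (abs_sub _ _).trans (add_le_add (ba y) (bb y))
  rw [← integral_add (hint hf hg bf bg) (hint hg hk bg bk)]
  refine integral_mono (hint hf hk bf bk) ((hint hf hg bf bg).add (hint hg hk bg bk)) fun y => ?_
  exact abs_sub_le _ _ _

namespace MgBase

variable {X : Type*} [MeasurableSpace X] [DecidableEq X] {D r : ℕ} {B : MgBase X D} {μ : Measure X} {K : ℝ}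

/-! ### package MGS-Translate -/

theorem mgsw_ball_translate (B : MgBase X D) (R : ℕ) (y : X × ℝ) (h : ℝ) :
    (mgBall B.lσ R y).image (fun u : X × ℝ => (u.1, u.2 + h)) = mgBall B.lσ R (y.1, y.2 + h) :=
  mgBall_image (fun u : X × ℝ => (u.1, u.2 + h)) (fun k u => (lσ_translate B k u h).symm) R y

omit [MeasurableSpace X] [DecidableEq X] in
theorem mgsw_translate_injective (h : ℝ) : Function.Injective (fun u : X × ℝ => (u.1, u.2 + h)) := by
  intro u v e
  have e' : (u.1, u.2 + h) = (v.1, v.2 + h) := e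
  have e1 : u.1 = v.1 := (Prod.mk.inj e').1
  have e2 : u.2 + h = v.2 + h := (Prod.mk.inj e').2
  exact Prod.ext e1 (by linarith)

omit [DecidableEq X] in
theorem mgsw_lT_translate (B : MgBase X D) (u v : X × ℝ) (h : ℝ) :
    B.lT (u.1, u.2 + h) (v.1, v.2 + h) = B.lT u v := by
  classical
  unfold MgBase.lT
  have hiff : (∃ k, B.lσ k (u.1, u.2 + h) = (v.1, v.2 + h)) ↔ ∃ k, B.lσ k u = v := by
    refine exists_congr fun k => ?_
    rw [lσ_translate]
    constructor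
    · intro e
      exact mgsw_translate_injective h e
    · rintro rfl
      rfl
  simp only [hiff]

theorem mgs_setR_translate (hB : B.Good μ K) (t : ℝ) (ρ : ℕ) (p : ℝ[X]) (a b h : ℝ) (R : ℕ) (y : X × ℝ) :
    (B.ctx t ρ p).setR (mgWin X (a + h) (b + h)) R (y.1, y.2 + h) =
      ((B.ctx t ρ p).setR (mgWin X a b) R y).image fun u => (u.1, u.2 + h) := by
  ext u
  rw [MgCtx.mem_setR, Finset.mem_image]
  constructor
  · rintro ⟨hu1, hu2⟩
    have hu3 : u ∈ (mgBall B.lσ R y).image (fun u : X × ℝ => (u.1, u.2 + h)) := by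
      rw [mgsw_ball_translate]; exact hu1
    obtain ⟨v, hv, rfl⟩ := Finset.mem_image.1 hu3
    have h1 : a + h ≤ v.2 + h := hu2.1
    have h2 : v.2 + h ≤ b + h := hu2.2
    exact ⟨v, MgCtx.mem_setR.2 ⟨hv, ⟨by linarith, by linarith⟩⟩, rfl⟩
  · rintro ⟨v, hv, rfl⟩
    obtain ⟨hv1, hv2⟩ := MgCtx.mem_setR.1 hv
    refine ⟨?_, ?_⟩
    · have hv1' : v ∈ mgBall B.lσ R y := hv1
      have := Finset.mem_image_of_mem (fun u : X × ℝ => (u.1, u.2 + h)) hv1'
      rw [mgsw_ball_translate] at this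
      exact this
    · have h1 : a ≤ v.2 := hv2.1
      have h2 : v.2 ≤ b := hv2.2
      exact ⟨by show a + h ≤ v.2 + h; linarith, by show v.2 + h ≤ b + h; linarith⟩

theorem mgs_data_comap_translate (hB : B.Good μ K) (t : ℝ) (ρ : ℕ) (p : ℝ[X]) (c : X → Option (Fin r)) (h : ℝ) :
    ((B.ctx t ρ p).data (mgUp c)).comap (fun u : X × ℝ => (u.1, u.2 + h)) =
      ((B.ctx t ρ p).data (mgUp c)).scale (Real.exp (-h)) := by
  unfold PvData.comap PvData.scale MgCtx.data MgBase.ctx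
  simp only
  congr 1
  · funext u v
    exact mgsw_lT_translate B u v h
  · funext u
    rw [← Real.exp_add]
    congr 1
    ring

/-- exact covariance of the exact costs -/
theorem mgs_m_translate (hB : B.Good μ K) (hr : 0 < r) (t : ℝ) (ρ : ℕ) (p : ℝ[X]) (c : X → Option (Fin r)) (h : ℝ)
    (S : Finset (X × ℝ)) {y : X × ℝ} (hy : y ∈ S) :
    ((B.ctx t ρ p).data (mgUp c)).m (S.image fun u => (u.1, u.2 + h)) (y.1, y.2 + h) =
      Real.exp (-h) * ((B.ctx t ρ p).data (mgUp c)).m S y := by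
  have e1 : (((B.ctx t ρ p).data (mgUp c)).comap (fun u : X × ℝ => (u.1, u.2 + h))).m S y =
      ((B.ctx t ρ p).data (mgUp c)).m (S.image fun u => (u.1, u.2 + h)) (y.1, y.2 + h) :=
    PvData.m_comap _ _ (mgsw_translate_injective h).injOn hy
  rw [← e1, mgs_data_comap_translate hB]
  exact mgsw_scale_m (MgCtx.data_good (ctx_meas hB t ρ p) _) hr hy (Real.exp_pos _)

theorem mgs_d_translate (hB : B.Good μ K) (hr : 0 < r) (t : ℝ) (ρ : ℕ) (p : ℝ[X]) (c : X → Option (Fin r)) (h : ℝ)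
    (S : Finset (X × ℝ)) {y : X × ℝ} (hy : y ∈ S) :
    ((B.ctx t ρ p).data (mgUp c)).d (S.image fun u => (u.1, u.2 + h)) (y.1, y.2 + h) =
      Real.exp (-h) * ((B.ctx t ρ p).data (mgUp c)).d S y := by
  have e1 : (((B.ctx t ρ p).data (mgUp c)).comap (fun u : X × ℝ => (u.1, u.2 + h))).d S y =
      ((B.ctx t ρ p).data (mgUp c)).d (S.image fun u => (u.1, u.2 + h)) (y.1, y.2 + h) :=
    PvData.d_comap _ _ (mgsw_translate_injective h).injOn hy
  rw [← e1, mgs_data_comap_translate hB]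
  exact mgsw_scale_d _ _ _ (Real.exp_pos _)

omit [MeasurableSpace X] in
/-- weights on a window -/
theorem mgsw_win_W_le (B : MgBase X D) (t : ℝ) (ρ : ℕ) (p : ℝ[X]) {a b H : ℝ} (hH : Real.exp (-a) ≤ H) :
    ∀ y ∈ mgWin X a b, (B.ctx t ρ p).W y ≤ H := by
  intro y hy
  have h1 : a ≤ y.2 := hy.1
  exact (Real.exp_le_exp.2 (by linarith)).trans hH

omit [MeasurableSpace X] [DecidableEq X] in
theorem mgsw_mem_win_translate {a b h : ℝ} {y : X × ℝ} (hy : y ∈ mgWin X a b) :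
    (y.1, y.2 + h) ∈ mgWin X (a + h) (b + h) := by
  have h1 : a ≤ y.2 := hy.1
  have h2 : y.2 ≤ b := hy.2
  exact ⟨by show a + h ≤ y.2 + h; linarith, by show y.2 + h ≤ b + h; linarith⟩

/-- approximate covariance of the polynomial costs (`H` bounds the weights of both windows) -/
theorem mgs_M_translate (hB : B.Good μ K) {t : ℝ} {ρ : ℕ} {p : ℝ[X]} {H ε₁ : ℝ}
    (hC : (B.ctx t ρ p).Good r H ε₁) (c : X → Option (Fin r)) {a b h : ℝ} (hH : Real.exp (-a) ≤ H)
    (hH' : Real.exp (-(a + h)) ≤ H) {y : X × ℝ} (hy : y ∈ mgWin X a b) :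
    |Real.exp (y.2 + h) * (B.ctx t ρ p).M (mgUp c) (mgWin X (a + h) (b + h)) (y.1, y.2 + h) -
      Real.exp y.2 * (B.ctx t ρ p).M (mgUp c) (mgWin X a b) y| ≤ ε₁ * (Real.exp (y.2 + h) + Real.exp y.2) := by
  have hy' := mgsw_mem_win_translate (h := h) hy
  have hyS : y ∈ (B.ctx t ρ p).set (mgWin X a b) y := MgCtx.self_mem_set hy
  have hyS' : (y.1, y.2 + h) ∈ (B.ctx t ρ p).set (mgWin X (a + h) (b + h)) (y.1, y.2 + h) :=
    MgCtx.self_mem_set hy'
  have hset : (B.ctx t ρ p).set (mgWin X (a + h) (b + h)) (y.1, y.2 + h) =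
      ((B.ctx t ρ p).set (mgWin X a b) y).image fun u => (u.1, u.2 + h) :=
    mgs_setR_translate hB t ρ p a b h ρ y
  have h1 := MgCtx.abs_rho_sub_m_le hC (mgUp c) (MgCtx.set_W_le (mgsw_win_W_le B t ρ p hH) y) hyS
  have h2 := MgCtx.abs_rho_sub_m_le hC (mgUp c) (MgCtx.set_W_le (mgsw_win_W_le B t ρ p hH') _) hyS'
  rw [MgCtx.M_of_mem _ hy, MgCtx.M_of_mem _ hy']
  refine mgsw_arith h1 h2 ?_ ?_ (Real.exp_pos _).le (Real.exp_pos _).le (s := Real.exp (-h))
  · rw [hset]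
    exact mgs_m_translate hB hC.r_pos t ρ p c h _ hyS
  · rw [← Real.exp_add]
    congr 1
    ring

theorem mgs_Df_translate (hB : B.Good μ K) {t : ℝ} {ρ : ℕ} {p : ℝ[X]} {H ε₁ : ℝ}
    (hC : (B.ctx t ρ p).Good r H ε₁) (c : X → Option (Fin r)) {a b h : ℝ} (hH : Real.exp (-a) ≤ H)
    (hH' : Real.exp (-(a + h)) ≤ H) {y : X × ℝ} (hy : y ∈ mgWin X a b) :
    |Real.exp (y.2 + h) * (B.ctx t ρ p).Df (mgUp c) (mgWin X (a + h) (b + h)) (y.1, y.2 + h) -
      Real.exp y.2 * (B.ctx t ρ p).Df (mgUp c) (mgWin X a b) y| ≤ ε₁ * (Real.exp (y.2 + h) + Real.exp y.2) := by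
  have hy' := mgsw_mem_win_translate (h := h) hy
  have hyS : y ∈ (B.ctx t ρ p).set (mgWin X a b) y := MgCtx.self_mem_set hy
  have hyS' : (y.1, y.2 + h) ∈ (B.ctx t ρ p).set (mgWin X (a + h) (b + h)) (y.1, y.2 + h) :=
    MgCtx.self_mem_set hy'
  have hset : (B.ctx t ρ p).set (mgWin X (a + h) (b + h)) (y.1, y.2 + h) =
      ((B.ctx t ρ p).set (mgWin X a b) y).image fun u => (u.1, u.2 + h) :=
    mgs_setR_translate hB t ρ p a b h ρ y
  have h1 := MgCtx.abs_df_sub_d_le hC (mgUp c) (MgCtx.set_W_le (mgsw_win_W_le B t ρ p hH) y) hyS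
  have h2 := MgCtx.abs_df_sub_d_le hC (mgUp c) (MgCtx.set_W_le (mgsw_win_W_le B t ρ p hH') _) hyS'
  rw [MgCtx.Df_of_mem _ hy, MgCtx.Df_of_mem _ hy']
  refine mgsw_arith h1 h2 ?_ ?_ (Real.exp_pos _).le (Real.exp_pos _).le (s := Real.exp (-h))
  · rw [hset]
    exact mgs_d_translate hB hC.r_pos t ρ p c h _ hyS
  · rw [← Real.exp_add]
    congr 1
    ring

/-- the virtual increment is the increment of the lifted updated base colouring -/
theorem mgsw_Dfi_eq (hB : B.Good μ K) {t : ℝ} {ρ : ℕ} {p : ℝ[X]} {H ε₁ : ℝ}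
    (hC : (B.ctx t ρ p).Good r H ε₁) (c : X → Option (Fin r)) (i : Fin r) (Q : Set (X × ℝ)) (y : X × ℝ) :
    (B.ctx t ρ p).Dfi (mgUp c) Q i y = (B.ctx t ρ p).Df (mgUp (Function.update c y.1 (some i))) Q y := by
  unfold MgCtx.Dfi
  refine MgCtx.Df_congr hC fun u hu => ⟨?_, Iff.rfl⟩
  by_cases huy : u = y
  · subst huy
    simp [mgUp]
  · have h1 : u.1 ≠ y.1 := fun h => huy (eq_of_mem_ball_of_fst_eq hB hu h)
    simp [mgUp, Function.update_of_ne huy, Function.update_of_ne h1]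

/-- (apply `mgs_Df_translate` to the base colouring `update c y.1 (some i)`; on the lifted orbit of `y` the lifted colouring
`mgUp (update c y.1 (some i))` agrees with `update (mgUp c) y (some i)`: `eq_of_mem_ball_of_fst_eq`, `Df_congr`) -/
theorem mgs_Dfi_translate (hB : B.Good μ K) {t : ℝ} {ρ : ℕ} {p : ℝ[X]} {H ε₁ : ℝ}
    (hC : (B.ctx t ρ p).Good r H ε₁) (c : X → Option (Fin r)) (i : Fin r) {a b h : ℝ} (hH : Real.exp (-a) ≤ H)
    (hH' : Real.exp (-(a + h)) ≤ H) {y : X × ℝ} (hy : y ∈ mgWin X a b) :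
    |Real.exp (y.2 + h) * (B.ctx t ρ p).Dfi (mgUp c) (mgWin X (a + h) (b + h)) i (y.1, y.2 + h) -
      Real.exp y.2 * (B.ctx t ρ p).Dfi (mgUp c) (mgWin X a b) i y| ≤ ε₁ * (Real.exp (y.2 + h) + Real.exp y.2) := by
  rw [mgsw_Dfi_eq hB hC, mgsw_Dfi_eq hB hC]
  exact mgs_Df_translate hB hC (Function.update c y.1 (some i)) hH hH' hy

/-! ### the three cost differences between two windows, integrated over `U0` -/

/-- `∫_{U0} (|ΔM| + |ΔDf| + ∑_i 1[c = none] |ΔDfi|) dν` for the windows `(a,b)`, `(a',b')` -/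
def mgsGap (B : MgBase X D) (μ : Measure X) (t : ℝ) (ρ : ℕ) (p : ℝ[X]) (c : X → Option (Fin r)) (a b a' b' : ℝ) : ℝ :=
  (∫ y in mgWin X (-1) 0, |(B.ctx t ρ p).M (mgUp c) (mgWin X a b) y -
      (B.ctx t ρ p).M (mgUp c) (mgWin X a' b') y| ∂(mgLiftμ μ)) +
  (∫ y in mgWin X (-1) 0, |(B.ctx t ρ p).Df (mgUp c) (mgWin X a b) y -
      (B.ctx t ρ p).Df (mgUp c) (mgWin X a' b') y| ∂(mgLiftμ μ)) +
  ∑ i : Fin r, ∫ y in mgWin X (-1) 0 ∩ {y | c y.1 = none}, |(B.ctx t ρ p).Dfi (mgUp c) (mgWin X a b) i y -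
      (B.ctx t ρ p).Dfi (mgUp c) (mgWin X a' b') i y| ∂(mgLiftμ μ)

omit [DecidableEq X] in
theorem mgsw_measC_up {c : X → Option (Fin r)} (hc : MgMeasC c) : MgMeasC (mgUp c) :=
  fun o => measurable_fst (hc o)

/-- measurability and bounds of the three costs of a window -/
theorem mgsw_meas_M (hB : B.Good μ K) {t : ℝ} {ρ : ℕ} {p : ℝ[X]} {H ε₁ : ℝ}
    (hC : (B.ctx t ρ p).Good r H ε₁) {c : X → Option (Fin r)} (hc : MgMeasC c) (a b : ℝ) :
    Measurable fun y => (B.ctx t ρ p).M (mgUp c) (mgWin X a b) y :=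
  mg_meas_M hC.meas hC.r_pos (MgFam.const hC.meas.inv (mgsw_measC_up hc) (mg_measurableSet_win X a b))

theorem mgsw_meas_Df (hB : B.Good μ K) {t : ℝ} {ρ : ℕ} {p : ℝ[X]} {H ε₁ : ℝ}
    (hC : (B.ctx t ρ p).Good r H ε₁) {c : X → Option (Fin r)} (hc : MgMeasC c) (a b : ℝ) :
    Measurable fun y => (B.ctx t ρ p).Df (mgUp c) (mgWin X a b) y :=
  mg_meas_Df hC.meas hC.r_pos (MgFam.const hC.meas.inv (mgsw_measC_up hc) (mg_measurableSet_win X a b))

theorem mgsw_meas_Dfi (hB : B.Good μ K) {t : ℝ} {ρ : ℕ} {p : ℝ[X]} {H ε₁ : ℝ}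
    (hC : (B.ctx t ρ p).Good r H ε₁) {c : X → Option (Fin r)} (hc : MgMeasC c) (a b : ℝ) (i : Fin r) :
    Measurable fun y => (B.ctx t ρ p).Dfi (mgUp c) (mgWin X a b) i y :=
  mg_meas_Dfi hC.meas hC.r_pos (MgFam.const hC.meas.inv (mgsw_measC_up hc) (mg_measurableSet_win X a b)) i

theorem mgsw_abs_M_le {t : ℝ} {ρ : ℕ} {p : ℝ[X]} {H ε₁ : ℝ}
    (hC : (B.ctx t ρ p).Good r H ε₁) (c : X × ℝ → Option (Fin r)) {a b : ℝ} (hH : Real.exp (-a) ≤ H) (y : X × ℝ) :
    |(B.ctx t ρ p).M c (mgWin X a b) y| ≤ 3 * ((1 + 80 * t) * H) + ε₁ := by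
  have h1 := MgCtx.neg_le_M hC c (mgsw_win_W_le B t ρ p hH (b := b)) y
  have h2 := MgCtx.M_le hC c (mgsw_win_W_le B t ρ p hH (b := b)) y
  have h3 : 0 < (1 + 80 * t) * H := hC.L_pos
  have h4 : (B.ctx t ρ p).M c (mgWin X a b) y ≤ (1 + 80 * t) * H + ε₁ := h2
  rw [abs_le]
  constructor <;> linarith

theorem mgsw_abs_Df_le {t : ℝ} {ρ : ℕ} {p : ℝ[X]} {H ε₁ : ℝ}
    (hC : (B.ctx t ρ p).Good r H ε₁) (c : X × ℝ → Option (Fin r)) {a b : ℝ} (hH : Real.exp (-a) ≤ H) (y : X × ℝ) :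
    |(B.ctx t ρ p).Df c (mgWin X a b) y| ≤ 3 * ((1 + 80 * t) * H) + ε₁ := by
  have h1 := MgCtx.neg_le_Df hC c (mgsw_win_W_le B t ρ p hH (b := b)) y
  have h2 := MgCtx.Df_le hC c (mgsw_win_W_le B t ρ p hH (b := b)) y
  have h3 : 0 < (1 + 80 * t) * H := hC.L_pos
  have h4 : (B.ctx t ρ p).Df c (mgWin X a b) y ≤ 3 * ((1 + 80 * t) * H) + ε₁ := h2
  rw [abs_le]
  constructor <;> linarith

theorem mgsw_abs_Dfi_le {t : ℝ} {ρ : ℕ} {p : ℝ[X]} {H ε₁ : ℝ}
    (hC : (B.ctx t ρ p).Good r H ε₁) (c : X × ℝ → Option (Fin r)) (i : Fin r) {a b : ℝ} (hH : Real.exp (-a) ≤ H)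
    (y : X × ℝ) : |(B.ctx t ρ p).Dfi c (mgWin X a b) i y| ≤ 3 * ((1 + 80 * t) * H) + ε₁ :=
  mgsw_abs_Df_le hC _ hH y

omit [DecidableEq X] in
theorem mgsw_U0_ne_top (hB : B.Good μ K) : mgLiftμ μ (mgWin X (-1) 0) ≠ ∞ := by
  have := hB.prob
  rw [mgLiftμ_win μ (by norm_num)]
  exact ENNReal.ofReal_ne_top

theorem mgsGap_triangle (hB : B.Good μ K) {t : ℝ} {ρ : ℕ} {p : ℝ[X]} {H ε₁ : ℝ}
    (hC : (B.ctx t ρ p).Good r H ε₁) {c : X → Option (Fin r)} (hc : MgMeasC c) {a b a' b' a'' b'' : ℝ}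
    (hH : Real.exp (-a) ≤ H) (hH' : Real.exp (-a') ≤ H) (hH'' : Real.exp (-a'') ≤ H) :
    mgsGap B μ t ρ p c a b a'' b'' ≤ mgsGap B μ t ρ p c a b a' b' + mgsGap B μ t ρ p c a' b' a'' b'' := by
  have hU := mgsw_U0_ne_top hB
  have hU' : mgLiftμ μ (mgWin X (-1) 0 ∩ {y | c y.1 = none}) ≠ ∞ :=
    ne_top_of_le_ne_top hU (measure_mono Set.inter_subset_left)
  have h1 := mgsw_triangle hU (mgsw_meas_M hB hC hc a b) (mgsw_meas_M hB hC hc a' b')
    (mgsw_meas_M hB hC hc a'' b'') (mgsw_abs_M_le hC _ hH) (mgsw_abs_M_le hC _ hH') (mgsw_abs_M_le hC _ hH'')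
  have h2 := mgsw_triangle hU (mgsw_meas_Df hB hC hc a b) (mgsw_meas_Df hB hC hc a' b')
    (mgsw_meas_Df hB hC hc a'' b'') (mgsw_abs_Df_le hC _ hH) (mgsw_abs_Df_le hC _ hH')
    (mgsw_abs_Df_le hC _ hH'')
  have h3 : ∀ i : Fin r, _ := fun i => mgsw_triangle hU' (mgsw_meas_Dfi hB hC hc a b i)
    (mgsw_meas_Dfi hB hC hc a' b' i) (mgsw_meas_Dfi hB hC hc a'' b'' i) (mgsw_abs_Dfi_le hC _ i hH)
    (mgsw_abs_Dfi_le hC _ i hH') (mgsw_abs_Dfi_le hC _ i hH'')
  have h4 := Finset.sum_le_sum fun i (_ : i ∈ (Finset.univ : Finset (Fin r))) => h3 i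
  rw [Finset.sum_add_distrib] at h4
  unfold mgsGap
  linarith

theorem mgsGap_symm (B : MgBase X D) (μ : Measure X) (t : ℝ) (ρ : ℕ) (p : ℝ[X]) (c : X → Option (Fin r))
    (a b a' b' : ℝ) : mgsGap B μ t ρ p c a b a' b' = mgsGap B μ t ρ p c a' b' a b := by
  unfold mgsGap
  simp only [abs_sub_comm]

end MgBase

end

end Claimed.Agent.R302
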