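/-
R302 / MG / WinLow   (blueprint: helper203; package MGS-WinLow; proofs: helper165)   Plan: header of `MG/WinTrans.lean`.
The constant `l1` does not depend on the system (only on `D, r, K, t, δ, H1`).
-/
import Claimed.Agent.R302.MG.WinTrans

set_option autoImplicit false
set_option linter.unusedSectionVars false

namespace Claimed.Agent.R302

open MeasureTheory Finset Polynomial
open scoped BigOperators ComplexConjugate ENNReal

noncomputable section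

namespace MgBase

section Point

variable {X : Type*} [MeasurableSpace X] [DecidableEq X] {D r : ℕ} {B : MgBase X D} {μ : Measure X} {K : ℝ}

/-- two polynomial rooted costs with different test polynomials, two masks which agree near the root -/
theorem mgw_M_two {t : ℝ} {ρ ρ1 : ℕ} {p p1 : ℝ[X]} {H H' ε₁ δ' : ℝ}
    (hC : (B.ctx t ρ p).Good r H ε₁) (hC1 : (B.ctx t ρ1 p1).Good r H' δ')
    (c : X × ℝ → Option (Fin r)) {Q Q' : Set (X × ℝ)}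
    (hQ : ∀ y ∈ Q, Real.exp (-y.2) ≤ H) (hQ1 : ∀ y ∈ Q, Real.exp (-y.2) ≤ H')
    (hQ' : ∀ y ∈ Q', Real.exp (-y.2) ≤ H) (hQ1' : ∀ y ∈ Q', Real.exp (-y.2) ≤ H') {y : X × ℝ}
    (hQQ : ∀ u ∈ mgBall B.lσ p1.natDegree y, (u ∈ Q ↔ u ∈ Q')) :
    |(B.ctx t ρ p).M c Q y - (B.ctx t ρ p).M c Q' y| ≤ 2 * ε₁ + 2 * δ' := by
  have hyy := hQQ y (self_mem_mgBall _ _ _)
  by_cases hy : y ∈ Q
  · have hy' := hyy.1 hy
    set R := max ρ ρ1 with hR
    have hb : ∀ (Q₀ : Set (X × ℝ)), ∀ u ∈ mgBall B.lσ p.natDegree y, u ∈ Q₀ →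
        u ∈ (B.ctx t ρ p).setR Q₀ R y := fun Q₀ u hu hu' =>
      MgCtx.mem_setR.2 ⟨mgBall_mono _ (by have := hC.rad; have : ρ ≤ R := le_max_left _ _
                                          change 2 * p.natDegree + 1 ≤ ρ at *; omega) _ hu, hu'⟩
    have hb1 : ∀ (Q₀ : Set (X × ℝ)), ∀ u ∈ mgBall B.lσ p1.natDegree y, u ∈ Q₀ →
        u ∈ (B.ctx t ρ p).setR Q₀ R y := fun Q₀ u hu hu' =>
      MgCtx.mem_setR.2 ⟨mgBall_mono _ (by have := hC1.rad; have : ρ1 ≤ R := le_max_right _ _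
                                          change 2 * p1.natDegree + 1 ≤ ρ1 at *; omega) _ hu, hu'⟩
    have hs : ∀ (Q₀ : Set (X × ℝ)), ∀ u ∈ (B.ctx t ρ p).setR Q₀ R y, u ∈ Q₀ := fun Q₀ u hu =>
      (MgCtx.mem_setR.1 hu).2
    have a1 := MgCtx.abs_M_sub_m_le hC c hQ hy _ (hs Q) (hb Q)
    have a2 := MgCtx.abs_M_sub_m_le hC1 c hQ1 hy _ (hs Q) (hb1 Q)
    have a3 := MgCtx.abs_M_sub_m_le hC c hQ' hy' _ (hs Q') (hb Q')
    have a4 := MgCtx.abs_M_sub_m_le hC1 c hQ1' hy' _ (hs Q') (hb1 Q')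
    have a5 : (B.ctx t ρ1 p1).M c Q y = (B.ctx t ρ1 p1).M c Q' y :=
      MgCtx.M_congr hC1 fun u hu => ⟨rfl, hQQ u hu⟩
    have e : ∀ S, ((B.ctx t ρ1 p1).data c).m S y = ((B.ctx t ρ p).data c).m S y := fun _ => rfl
    rw [e] at a2 a4
    rw [a5] at a2
    rw [abs_le] at *
    constructor <;> linarith [a1.1, a1.2, a2.1, a2.2, a3.1, a3.2, a4.1, a4.2]
  · rw [MgCtx.M_of_notMem c hy, MgCtx.M_of_notMem c fun h => hy (hyy.2 h)]
    have := hC.eps_nonneg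
    have := hC1.eps_nonneg
    simp only [sub_self, abs_zero]
    positivity

theorem mgw_Df_two {t : ℝ} {ρ ρ1 : ℕ} {p p1 : ℝ[X]} {H H' ε₁ δ' : ℝ}
    (hC : (B.ctx t ρ p).Good r H ε₁) (hC1 : (B.ctx t ρ1 p1).Good r H' δ')
    (c : X × ℝ → Option (Fin r)) {Q Q' : Set (X × ℝ)}
    (hQ : ∀ y ∈ Q, Real.exp (-y.2) ≤ H) (hQ1 : ∀ y ∈ Q, Real.exp (-y.2) ≤ H')
    (hQ' : ∀ y ∈ Q', Real.exp (-y.2) ≤ H) (hQ1' : ∀ y ∈ Q', Real.exp (-y.2) ≤ H') {y : X × ℝ}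
    (hQQ : ∀ u ∈ mgBall B.lσ (2 * p1.natDegree) y, (u ∈ Q ↔ u ∈ Q')) :
    |(B.ctx t ρ p).Df c Q y - (B.ctx t ρ p).Df c Q' y| ≤ 2 * ε₁ + 2 * δ' := by
  have hyy := hQQ y (self_mem_mgBall _ _ _)
  by_cases hy : y ∈ Q
  · have hy' := hyy.1 hy
    set R := max ρ ρ1 with hR
    have hb : ∀ (Q₀ : Set (X × ℝ)), ∀ u ∈ mgBall B.lσ (2 * p.natDegree) y, u ∈ Q₀ →
        u ∈ (B.ctx t ρ p).setR Q₀ R y := fun Q₀ u hu hu' =>
      MgCtx.mem_setR.2 ⟨mgBall_mono _ (by have := hC.rad; have : ρ ≤ R := le_max_left _ _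
                                          change 2 * p.natDegree + 1 ≤ ρ at *; omega) _ hu, hu'⟩
    have hb1 : ∀ (Q₀ : Set (X × ℝ)), ∀ u ∈ mgBall B.lσ (2 * p1.natDegree) y, u ∈ Q₀ →
        u ∈ (B.ctx t ρ p).setR Q₀ R y := fun Q₀ u hu hu' =>
      MgCtx.mem_setR.2 ⟨mgBall_mono _ (by have := hC1.rad; have : ρ1 ≤ R := le_max_right _ _
                                          change 2 * p1.natDegree + 1 ≤ ρ1 at *; omega) _ hu, hu'⟩
    have hs : ∀ (Q₀ : Set (X × ℝ)), ∀ u ∈ (B.ctx t ρ p).setR Q₀ R y, u ∈ Q₀ := fun Q₀ u hu =>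
      (MgCtx.mem_setR.1 hu).2
    have a1 := MgCtx.abs_Df_sub_d_le hC c hQ hy _ (hs Q) (hb Q)
    have a2 := MgCtx.abs_Df_sub_d_le hC1 c hQ1 hy _ (hs Q) (hb1 Q)
    have a3 := MgCtx.abs_Df_sub_d_le hC c hQ' hy' _ (hs Q') (hb Q')
    have a4 := MgCtx.abs_Df_sub_d_le hC1 c hQ1' hy' _ (hs Q') (hb1 Q')
    have a5 : (B.ctx t ρ1 p1).Df c Q y = (B.ctx t ρ1 p1).Df c Q' y :=
      MgCtx.Df_congr hC1 fun u hu => ⟨rfl, hQQ u hu⟩
    have e : ∀ S, ((B.ctx t ρ1 p1).data c).d S y = ((B.ctx t ρ p).data c).d S y := fun _ => rfl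
    rw [e] at a2 a4
    rw [a5] at a2
    rw [abs_le] at *
    constructor <;> linarith [a1.1, a1.2, a2.1, a2.2, a3.1, a3.2, a4.1, a4.2]
  · rw [MgCtx.Df_of_notMem c hy, MgCtx.Df_of_notMem c fun h => hy (hyy.2 h)]
    have := hC.eps_nonneg
    have := hC1.eps_nonneg
    simp only [sub_self, abs_zero]
    positivity

/-- a bounded function has a small integral over a subset of `U0` -/
theorem mgw_integral_le (μ : Measure X) [IsProbabilityMeasure μ] {A : Set (X × ℝ)} (hA : A ⊆ mgWin X (-1) 0)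
    {g : X × ℝ → ℝ} {b₀ : ℝ} (hb₀ : 0 ≤ b₀) (hg : ∀ y ∈ A, |g y| ≤ b₀) :
    ∫ y in A, |g y| ∂(mgLiftμ μ) ≤ b₀ := by
  have h0 : mgLiftμ μ (mgWin X (-1) 0) = ENNReal.ofReal (Real.exp 0 - Real.exp (-1)) :=
    mgLiftμ_win μ (by norm_num)
  have h1 : mgLiftμ μ A ≤ ENNReal.ofReal (Real.exp 0 - Real.exp (-1)) := h0 ▸ measure_mono hA
  have h2 : mgLiftμ μ A < ∞ := lt_of_le_of_lt h1 ENNReal.ofReal_lt_top
  have h3 : (mgLiftμ μ).real A ≤ 1 := by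
    unfold Measure.real
    refine ENNReal.toReal_le_of_le_ofReal zero_le_one (h1.trans (ENNReal.ofReal_le_ofReal ?_))
    have := Real.exp_pos (-1)
    rw [Real.exp_zero]
    linarith
  have h4 := norm_setIntegral_le_of_norm_le_const (μ := mgLiftμ μ) (f := fun y => |g y|) h2
    (C := b₀) (fun y hy => by rw [Real.norm_eq_abs, abs_abs]; exact hg y hy)
  refine (le_abs_self _).trans (h4.trans ?_)
  calc b₀ * (mgLiftμ μ).real A ≤ b₀ * 1 := mul_le_mul_of_nonneg_left h3 hb₀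
    _ = b₀ := mul_one _

end Point

theorem mgs_win_low.{u} (D r : ℕ) {K t δ H1 : ℝ} (hr : 0 < r) (hK : 1 ≤ K) (ht : 0 < t) (hδ : 0 < δ)
    (hH1 : 1 ≤ H1) :
    ∃ l1 : ℝ, 0 ≤ l1 ∧ ∀ (X : Type u) [MeasurableSpace X] [DecidableEq X] (B : MgBase X D) (μ : Measure X),
      B.Good μ K → ∀ b ≥ l1, ∀ b' ≥ l1, ∀ (ρ : ℕ) (p : ℝ[X]) (H ε₁ : ℝ), (B.ctx t ρ p).Good r H ε₁ →
      Real.exp H1 ≤ H → ∀ c : X → Option (Fin r), MgMeasC c →
      mgsGap B μ t ρ p c (-H1) b (-H1) b' ≤ δ + 2 * (r + 2) * ε₁ := by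
  have hδ' : 0 < δ / (2 * (r + 2)) := by positivity
  obtain ⟨p1, hp1⟩ := mg_exists_apx (L := (1 + 80 * t) * Real.exp H1) (by positivity) hδ'
  have hlogK : 0 ≤ Real.log K := Real.log_nonneg hK
  refine ⟨(2 * p1.natDegree + 1 : ℕ) * Real.log K, by positivity, ?_⟩
  intro X _ _ B μ hB b hb b' hb' ρ p H ε₁ hC hH c hc
  have := hB.prob
  have hC1 : (B.ctx t (2 * p1.natDegree + 1) p1).Good r (Real.exp H1) (δ / (2 * (r + 2))) :=
    ⟨ctx_meas hB _ _ _, hr, ht, Real.exp_pos _, hp1, le_refl _⟩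
  -- weights on the windows
  have hW1 : ∀ b₀ : ℝ, ∀ y ∈ mgWin X (-H1) b₀, Real.exp (-y.2) ≤ Real.exp H1 := fun b₀ y hy =>
    Real.exp_le_exp.2 (by have := hy.1; linarith)
  have hW : ∀ b₀ : ℝ, ∀ y ∈ mgWin X (-H1) b₀, Real.exp (-y.2) ≤ H := fun b₀ y hy => (hW1 b₀ y hy).trans hH
  -- the two windows agree near the roots of `U0`
  have hQQ : ∀ y ∈ mgWin X (-1) 0, ∀ R : ℕ, R ≤ 2 * p1.natDegree + 1 → ∀ u ∈ mgBall B.lσ R y,
      (u ∈ mgWin X (-H1) b ↔ u ∈ mgWin X (-H1) b') := by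
    intro y hy R hR u hu
    have h1 := (abs_le.1 (abs_snd_sub_le hB hu)).2
    have h2 : (R : ℝ) * Real.log K ≤ (2 * p1.natDegree + 1 : ℕ) * Real.log K :=
      mul_le_mul_of_nonneg_right (by exact_mod_cast hR) hlogK
    have h3 := hy.2
    have h4 : u.2 ≤ b := by linarith
    have h5 : u.2 ≤ b' := by linarith
    exact ⟨fun h => ⟨h.1, h5⟩, fun h => ⟨h.1, h4⟩⟩
  have hε := hC.eps_nonneg
  have hb₀ : 0 ≤ 2 * ε₁ + 2 * (δ / (2 * (r + 2))) := by positivity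
  have i1 := mgw_integral_le μ (A := mgWin X (-1) 0) subset_rfl hb₀
    (g := fun y => (B.ctx t ρ p).M (mgUp c) (mgWin X (-H1) b) y - (B.ctx t ρ p).M (mgUp c) (mgWin X (-H1) b') y)
    (fun y hy => mgw_M_two hC hC1 (mgUp c) (hW b) (hW1 b) (hW b') (hW1 b') (hQQ y hy _ (by omega)))
  have i2 := mgw_integral_le μ (A := mgWin X (-1) 0) subset_rfl hb₀
    (g := fun y => (B.ctx t ρ p).Df (mgUp c) (mgWin X (-H1) b) y - (B.ctx t ρ p).Df (mgUp c) (mgWin X (-H1) b') y)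
    (fun y hy => mgw_Df_two hC hC1 (mgUp c) (hW b) (hW1 b) (hW b') (hW1 b') (hQQ y hy _ (by omega)))
  have i3 : ∀ i : Fin r, ∫ y in mgWin X (-1) 0 ∩ {y | c y.1 = none},
      |(B.ctx t ρ p).Dfi (mgUp c) (mgWin X (-H1) b) i y - (B.ctx t ρ p).Dfi (mgUp c) (mgWin X (-H1) b') i y|
        ∂(mgLiftμ μ) ≤ 2 * ε₁ + 2 * (δ / (2 * (r + 2))) := fun i =>
    mgw_integral_le μ Set.inter_subset_left hb₀
      (g := fun y => (B.ctx t ρ p).Dfi (mgUp c) (mgWin X (-H1) b) i y -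
        (B.ctx t ρ p).Dfi (mgUp c) (mgWin X (-H1) b') i y)
      (fun y hy => mgw_Df_two hC hC1 _ (hW b) (hW1 b) (hW b') (hW1 b') (hQQ y hy.1 _ (by omega)))
  have i4 := Finset.sum_le_sum fun i (_ : i ∈ (Finset.univ : Finset (Fin r))) => i3 i
  rw [Finset.sum_const, Finset.card_univ, Fintype.card_fin, nsmul_eq_mul] at i4
  unfold mgsGap
  have e : δ + 2 * (r + 2) * ε₁ = (2 * ε₁ + 2 * (δ / (2 * (r + 2)))) + (2 * ε₁ + 2 * (δ / (2 * (r + 2)))) +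
      r * (2 * ε₁ + 2 * (δ / (2 * (r + 2)))) := by
    field_simp
    ring
  rw [e]
  exact add_le_add (add_le_add i1 i2) i4

end MgBase

end

end Claimed.Agent.R302
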