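/-
R302 / MG / WinUp   (blueprint: helper203; package MGS-WinUp; proof: helper73)   Plan: header of `MG/WinTrans.lean`.
The constant `H1` does not depend on the system (only on `D, r, K, t, δ`).
-/
import Claimed.Agent.R302.MG.WinTrans

set_option autoImplicit false
set_option linter.unusedSectionVars false

namespace Claimed.Agent.R302

open MeasureTheory Finset Polynomial
open scoped BigOperators ComplexConjugate ENNReal

noncomputable section

namespace MgBase

theorem mgs_win_up.{u} (D r : ℕ) {K t δ : ℝ} (hr : 0 < r) (hK : 1 ≤ K) (ht : 0 < t) (hδ : 0 < δ) :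
    ∃ H1 : ℝ, 1 ≤ H1 ∧ ∀ (X : Type u) [MeasurableSpace X] [DecidableEq X] (B : MgBase X D) (μ : Measure X),
      B.Good μ K → ∀ H2 ≥ H1, ∀ b ≥ 0, ∀ (ρ : ℕ) (p : ℝ[X]) (H ε₁ : ℝ), (B.ctx t ρ p).Good r H ε₁ →
      Real.exp H2 ≤ H → ∀ c : X → Option (Fin r), MgMeasC c →
      mgsGap B μ t ρ p c (-H2) b (-H1) b ≤ δ + 2 * (r + 2) * ε₁ := by
  obtain ⟨κ, hκ, hcmp⟩ := mgs_compare.{u} (w := Real.exp 1) (K := K) (t := t) (δ := δ / (r + 2)) r D
    (Real.exp_pos 1) hK ht (by positivity)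
  refine ⟨max 1 (-Real.log κ), le_max_left _ _, ?_⟩
  intro X _ _ B μ hB H2 hH2 b hb ρ p H ε₁ hC hH c hc
  set H1 := max 1 (-Real.log κ) with hH1def
  have hH1 : 1 ≤ H1 := le_max_left _ _
  have hprob := hB.prob
  set E : Set (X × ℝ) := {y | -H2 ≤ y.2 ∧ y.2 < -H1} with hEdef
  have hEm : MeasurableSet E :=
    (measurableSet_le measurable_const measurable_snd).inter
      (measurableSet_lt measurable_snd measurable_const)
  have hQE : mgWin X (-H2) b \ E = mgWin X (-H1) b := by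
    ext y
    simp only [mgWin, hEdef, Set.mem_sdiff, Set.mem_ofPred_eq, not_and, not_lt]
    constructor
    · rintro ⟨⟨h1, h2⟩, h3⟩
      exact ⟨h3 h1, h2⟩
    · rintro ⟨h1, h2⟩
      exact ⟨⟨by linarith, h2⟩, fun _ => h1⟩
  have hEQ : E ⊆ mgWin X (-H2) b := by
    rintro y ⟨h1, h2⟩
    exact ⟨h1, by linarith⟩
  have hνE : mgLiftμ μ E ≤ ENNReal.ofReal κ := by
    have h1 : E ⊆ mgWin X (-H2) (-H1) := fun y hy => ⟨hy.1, hy.2.le⟩
    refine (measure_mono h1).trans ?_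
    rw [mgLiftμ_win μ (by linarith)]
    refine ENNReal.ofReal_le_ofReal ?_
    have h2 : Real.exp (-H1) ≤ κ := by
      rw [← Real.le_log_iff_exp_le hκ]
      have := le_max_right 1 (-Real.log κ)
      linarith
    have := Real.exp_pos (-H2)
    linarith
  have hU : mgWin X (-1) 0 ⊆ mgWin X (-H2) b \ E := by
    rw [hQE]
    rintro y ⟨h1, h2⟩
    exact ⟨by linarith, by linarith⟩
  have hνU : mgLiftμ μ (mgWin X (-1) 0) ≤ 1 := by
    rw [mgLiftμ_win μ (by norm_num)]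
    rw [← ENNReal.ofReal_one]
    refine ENNReal.ofReal_le_ofReal ?_
    have := Real.exp_pos (-1)
    rw [Real.exp_zero]
    linarith
  obtain ⟨h1, h2, h3⟩ := hcmp (X × ℝ) (B.ctx t ρ p) (mgLiftμ μ) (MgBase.ctx_inv hB ht ρ p) rfl H ε₁ hC
    (mgUp c) (fun o => measurable_fst (hc o)) (mgWin X (-H2) b) E (mgWin X (-1) 0)
    (mg_measurableSet_win X _ _) hEm (mg_measurableSet_win X _ _) hEQ hU
    (fun y hy => by
      refine le_trans ?_ hH
      change Real.exp (-y.2) ≤ Real.exp H2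
      exact Real.exp_le_exp.2 (by linarith [hy.1]))
    (fun y hy => by
      change Real.exp (-y.2) ≤ Real.exp 1
      exact Real.exp_le_exp.2 (by linarith [hy.1])) hνU hνE
  rw [hQE] at h1 h2 h3
  unfold mgsGap
  have h4 : ∑ i : Fin r, ∫ y in mgWin X (-1) 0 ∩ {y | c y.1 = none},
      |(B.ctx t ρ p).Dfi (mgUp c) (mgWin X (-H2) b) i y -
        (B.ctx t ρ p).Dfi (mgUp c) (mgWin X (-H1) b) i y| ∂(mgLiftμ μ) ≤
      ∑ _i : Fin r, (δ / (r + 2) + 2 * ε₁) := Finset.sum_le_sum fun i _ => h3 i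
  rw [Finset.sum_const, Finset.card_univ, Fintype.card_fin, nsmul_eq_mul] at h4
  have h5 : (δ / (r + 2) + 2 * ε₁) + (δ / (r + 2) + 2 * ε₁) + (r : ℝ) * (δ / (r + 2) + 2 * ε₁) =
      δ + 2 * (r + 2) * ε₁ := by
    field_simp
    ring
  linarith

end MgBase

end

end Claimed.Agent.R302
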