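/-
R302 / MG / Window   (blueprint: helper203; package MGS-WinStable)   Plan: header of `MG/WinTrans.lean`.
-/
import Claimed.Agent.R302.MG.WinUp
import Claimed.Agent.R302.MG.WinLow

set_option autoImplicit false
set_option linter.unusedSectionVars false

namespace Claimed.Agent.R302

open MeasureTheory Finset Polynomial
open scoped BigOperators ComplexConjugate ENNReal

noncomputable section

namespace MgBase

/-- **phase averaged window stability** -/
theorem mgs_win_stable.{u} (D r : ℕ) {K t δ : ℝ} (hr : 0 < r) (hK : 1 ≤ K) (ht : 0 < t) (hδ : 0 < δ) :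
    ∃ b0 : ℝ, 1 ≤ b0 ∧ ∀ (X : Type u) [MeasurableSpace X] [DecidableEq X] (B : MgBase X D) (μ : Measure X),
      B.Good μ K → ∀ a ≤ -b0, ∀ a' ≤ -b0, ∀ b ≥ b0, ∀ b' ≥ b0, ∀ (ρ : ℕ) (p : ℝ[X]) (H ε₁ : ℝ),
      (B.ctx t ρ p).Good r H ε₁ → Real.exp (-a) ≤ H → Real.exp (-a') ≤ H →
      ∀ c : X → Option (Fin r), MgMeasC c → mgsGap B μ t ρ p c a b a' b' ≤ δ + 6 * (r + 2) * ε₁ := by
  have hδ3 : 0 < δ / 3 := by positivity
  obtain ⟨H1, hH1, hup⟩ := mgs_win_up.{u} D r hr hK ht hδ3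
  obtain ⟨l1, hl1, hlow⟩ := mgs_win_low.{u} D r hr hK ht hδ3 hH1
  refine ⟨max H1 l1, le_trans hH1 (le_max_left _ _), ?_⟩
  intro X _ _ B μ hB a ha a' ha' b hb b' hb' ρ p H ε₁ hC hHa hHa' c hc
  have hH1a : H1 ≤ -a := by linarith [le_max_left H1 l1]
  have hH1a' : H1 ≤ -a' := by linarith [le_max_left H1 l1]
  have hlb : l1 ≤ b := le_trans (le_max_right _ _) hb
  have hlb' : l1 ≤ b' := le_trans (le_max_right _ _) hb'
  have hexpH1 : Real.exp H1 ≤ H := le_trans (Real.exp_le_exp.2 hH1a) hHa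
  have hexpH1' : Real.exp (- -H1) ≤ H := by simpa using hexpH1
  have e1 : mgsGap B μ t ρ p c a b (-H1) b ≤ δ / 3 + 2 * (r + 2) * ε₁ := by
    have := hup X B μ hB (-a) hH1a b (le_trans hl1 hlb) ρ p H ε₁ hC hHa c hc
    simpa using this
  have e2 : mgsGap B μ t ρ p c (-H1) b (-H1) b' ≤ δ / 3 + 2 * (r + 2) * ε₁ :=
    hlow X B μ hB b hlb b' hlb' ρ p H ε₁ hC hexpH1 c hc
  have e3 : mgsGap B μ t ρ p c (-H1) b' a' b' ≤ δ / 3 + 2 * (r + 2) * ε₁ := by
    have := hup X B μ hB (-a') hH1a' b' (le_trans hl1 hlb') ρ p H ε₁ hC hHa' c hc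
    rw [mgsGap_symm]
    simpa using this
  have t1 := mgsGap_triangle hB hC hc (a := a) (b := b) (a' := -H1) (b' := b) (a'' := -H1) (b'' := b')
    hHa hexpH1' hexpH1'
  have t2 := mgsGap_triangle hB hC hc (a := a) (b := b) (a' := -H1) (b' := b') (a'' := a') (b'' := b')
    hHa hexpH1' hHa'
  linarith

end MgBase

end

end Claimed.Agent.R302
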