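/-
R302 / MG / StarDev   (blueprint: helper203; package MGS-StarDev; the final theorem is in MG/Star.lean)

(STAR): COHERENT CHOICE OF A COLOUR.  For `n` large there is, at every unassigned base site `x`, ONE colour `i` (independent of the height) with
   `dibar i x - dbar x ≤ 24 mbar x + err x`,   `∫ err dμ ≤ 2 n ε3`,   uniformly in the configuration `c`.
This is the only statement of Q Sec. 6 in which different heights interact.

NOTATION.  `P = (t, ρ, p, n)`, `Cx = B.ctx t ρ p`, `c̃ = mgUp c`, strip `= mgWin X (-n) n`.  `p` is adapted to `[-L, L]`, `L = (1 + 80 t) e^{2n+1}`  (NOT only `e^n`: translated windows).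
   `Ξ_i(a,b)(x,s) = e^s (Dfi_i - Df - 24 M)(window (a,b))(x,s)`,  so  `dibar i x - dbar x - 24 mbar x = ∫_{-n}^{n} Ξ_i(-n,n)(x,s) ds`.
   `Dev(x; s', σ) = ∑_i |e^{s'+σ} Dfi_i(-n,n)(x,s'+σ) - e^σ Dfi_i(-b0,b0)(x,σ)| + |same for Df| + 24 |same for M|`.
PROOF.
 (1) `mgs_dev_avg`: for `|s'| ≤ n - b0`:  `∫_{-1}^0 ∫_{c = none} Dev(x; s', σ) dμ dσ ≤ 24 (δ + 6 (r+2) ε₁) + (r + 25) ε₁ (e^n + 1)`.
     Translation by `s'` (`mgs_*_translate`, window `(-n - s', n - s') + s' = (-n, n)`) and `mgs_win_stable` for the windows `(-n - s', n - s')`, `(-b0, b0)`;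
     `∫_{U0} g dν = ∫_X ∫_{-1}^0 g(x,σ) e^σ dσ dμ`.
 (2) `mgs_exists_phase`: integrate (1) over `s' ∈ [-(n-b0), n-b0]`, Tonelli, and pick `σ0 ∈ [-1,0]` not above the mean (`MeasureTheory.exists_le_integral`-type argument).
     `σ0` depends on `c`; it only lives inside the proof.
 (3) at the site `(x, σ0)` and the window `(-b0, b0)`: `exists_Dfi_le` (Lemma 4.7) gives `i` with `Ξ_i(-b0,b0)(x,σ0) ≤ 26 ε₁`.
 (4) `∫_{-n}^{n} Ξ_i(-n,n)(x,s) ds = ∫_{|s'| ≤ n-b0} Ξ_i(-n,n)(x,s'+σ0) ds' + (rest of length 2 b0)`;  first part `≤ ∫ (26 ε₁ + Dev(x;s',σ0)) ds'`,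
     rest `≤ 2 b0 (c0 + 26 ε₁ e^n)` by `mgs_Xi_le` (`d_le`, `m_le`: normalised costs are bounded independently of `n`).
 (5) `err x = ∫_{|s'| ≤ n-b0} Dev(x;s',σ0) ds' + 52 n ε₁ + 2 b0 (c0 + 26 ε₁ e^n)`.   Choices: `δ = ε3/96`, `b0 = b0(δ)`, `n0 ≥ max (b0+1) (4 b0 c0/ε3)`, then `ε₁` small depending on `n`.
-/
import Claimed.Agent.R302.MG.Window
import Claimed.Agent.R302.MG.StarPhase

set_option autoImplicit false
set_option linter.unusedSectionVars false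

namespace Claimed.Agent.R302

open MeasureTheory Finset Polynomial
open scoped BigOperators ComplexConjugate ENNReal

noncomputable section

namespace MgBase

variable {X : Type*} [MeasurableSpace X] [DecidableEq X] {D r : ℕ} {B : MgBase X D} {μ : Measure X} {K : ℝ}

/-- hypotheses on the parameters for (STAR): as `MgPar.Good`, but `p` is adapted to the larger interval -/
structure _root_.Claimed.Agent.R302.MgPar.Good2 (P : MgPar) (r : ℕ) (ε₁ : ℝ) : Prop where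
  r_pos : 0 < r
  t_pos : 0 < P.t
  n_pos : 0 < P.n
  apx : MgApx P.p ((1 + 80 * P.t) * Real.exp (2 * P.n + 1)) ε₁
  rad : 2 * P.p.natDegree + 1 ≤ P.ρ

theorem _root_.Claimed.Agent.R302.MgPar.Good2.good {P : MgPar} {ε₁ : ℝ} (h : P.Good2 r ε₁) : P.Good r ε₁ := by
  refine ⟨h.r_pos, h.t_pos, h.n_pos, ?_, h.rad⟩
  have ht := h.t_pos
  have hn := h.n_pos
  refine h.apx.mono_L (by positivity) ?_
  have : Real.exp P.n ≤ Real.exp (2 * P.n + 1) := Real.exp_le_exp.2 (by linarith)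
  gcongr

theorem ctx_good2 (hB : B.Good μ K) {P : MgPar} {ε₁ : ℝ} (hP : P.Good2 r ε₁) :
    (B.ctx P.t P.ρ P.p).Good r (Real.exp (2 * P.n + 1)) ε₁ :=
  ⟨ctx_meas hB _ _ _, hP.r_pos, hP.t_pos, Real.exp_pos _, hP.apx, hP.rad⟩

/-- `Ξ_i(a,b)` -/
def mgsXi (B : MgBase X D) (P : MgPar) (c : X → Option (Fin r)) (a b : ℝ) (i : Fin r) (y : X × ℝ) : ℝ :=
  Real.exp y.2 * ((B.ctx P.t P.ρ P.p).Dfi (mgUp c) (mgWin X a b) i y - (B.ctx P.t P.ρ P.p).Df (mgUp c) (mgWin X a b) y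
    - 24 * (B.ctx P.t P.ρ P.p).M (mgUp c) (mgWin X a b) y)

/-- `Dev(x; s', σ)` -/
def mgsDev (B : MgBase X D) (P : MgPar) (c : X → Option (Fin r)) (b0 : ℝ) (x : X) (s' σ : ℝ) : ℝ :=
  (∑ i : Fin r, |Real.exp (s' + σ) * (B.ctx P.t P.ρ P.p).Dfi (mgUp c) (mgWin X (-P.n) P.n) i (x, s' + σ) -
      Real.exp σ * (B.ctx P.t P.ρ P.p).Dfi (mgUp c) (mgWin X (-b0) b0) i (x, σ)|) +
  |Real.exp (s' + σ) * (B.ctx P.t P.ρ P.p).Df (mgUp c) (mgWin X (-P.n) P.n) (x, s' + σ) -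
      Real.exp σ * (B.ctx P.t P.ρ P.p).Df (mgUp c) (mgWin X (-b0) b0) (x, σ)| +
  24 * |Real.exp (s' + σ) * (B.ctx P.t P.ρ P.p).M (mgUp c) (mgWin X (-P.n) P.n) (x, s' + σ) -
      Real.exp σ * (B.ctx P.t P.ρ P.p).M (mgUp c) (mgWin X (-b0) b0) (x, σ)|

/-! ### infrastructure (prefix `mgsd_`) -/

theorem mgsd_win_W_le (B : MgBase X D) (t : ℝ) (ρ : ℕ) (p : ℝ[X]) {a b H : ℝ} (h : Real.exp (-a) ≤ H) :
    ∀ y ∈ mgWin X a b, (B.ctx t ρ p).W y ≤ H := by
  intro y hy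
  refine le_trans ?_ h
  exact Real.exp_le_exp.2 (by linarith [hy.1])

theorem mgsd_measC_up {c : X → Option (Fin r)} (hc : MgMeasC c) : MgMeasC (mgUp c) := fun o =>
  measurable_fst (hc o)

theorem mgsd_meas_M (hB : B.Good μ K) (hr : 0 < r) (t : ℝ) (ρ : ℕ) (p : ℝ[X]) {c : X → Option (Fin r)}
    (hc : MgMeasC c) (a b : ℝ) : Measurable fun y => (B.ctx t ρ p).M (mgUp c) (mgWin X a b) y :=
  mg_meas_M (ctx_meas hB t ρ p) hr
    (MgFam.const (lift_inv hB) (mgsd_measC_up hc) (mg_measurableSet_win X a b))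

theorem mgsd_meas_Df (hB : B.Good μ K) (hr : 0 < r) (t : ℝ) (ρ : ℕ) (p : ℝ[X]) {c : X → Option (Fin r)}
    (hc : MgMeasC c) (a b : ℝ) : Measurable fun y => (B.ctx t ρ p).Df (mgUp c) (mgWin X a b) y :=
  mg_meas_Df (ctx_meas hB t ρ p) hr
    (MgFam.const (lift_inv hB) (mgsd_measC_up hc) (mg_measurableSet_win X a b))

theorem mgsd_meas_Dfi (hB : B.Good μ K) (hr : 0 < r) (t : ℝ) (ρ : ℕ) (p : ℝ[X]) {c : X → Option (Fin r)}
    (hc : MgMeasC c) (a b : ℝ) (i : Fin r) :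
    Measurable fun y => (B.ctx t ρ p).Dfi (mgUp c) (mgWin X a b) i y :=
  mg_meas_Dfi (ctx_meas hB t ρ p) hr
    (MgFam.const (lift_inv hB) (mgsd_measC_up hc) (mg_measurableSet_win X a b)) i

section Bd

variable {t : ℝ} {ρ : ℕ} {p : ℝ[X]} {H ε₁ : ℝ}

theorem mgsd_abs_M_le (hC : (B.ctx t ρ p).Good r H ε₁) (c : X × ℝ → Option (Fin r)) {a b : ℝ}
    (hH : Real.exp (-a) ≤ H) (y : X × ℝ) :
    |(B.ctx t ρ p).M c (mgWin X a b) y| ≤ 3 * ((1 + 80 * t) * H) + ε₁ := by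
  have hQ := mgsd_win_W_le B t ρ p (b := b) hH
  have h1 := MgCtx.neg_le_M hC c hQ y
  have h2 := MgCtx.M_le hC c hQ y
  have h3 : 0 < (1 + 80 * t) * H := hC.L_pos
  have h4 := hC.eps_nonneg
  have h5 : (B.ctx t ρ p).t = t := rfl
  rw [h5] at h2
  rw [abs_le]
  constructor <;> linarith

theorem mgsd_abs_Df_le (hC : (B.ctx t ρ p).Good r H ε₁) (c : X × ℝ → Option (Fin r)) {a b : ℝ}
    (hH : Real.exp (-a) ≤ H) (y : X × ℝ) :
    |(B.ctx t ρ p).Df c (mgWin X a b) y| ≤ 3 * ((1 + 80 * t) * H) + ε₁ := by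
  have hQ := mgsd_win_W_le B t ρ p (b := b) hH
  have h1 := MgCtx.neg_le_Df hC c hQ y
  have h2 := MgCtx.Df_le hC c hQ y
  have h3 : 0 < (1 + 80 * t) * H := hC.L_pos
  have h4 := hC.eps_nonneg
  have h5 : (B.ctx t ρ p).t = t := rfl
  rw [h5] at h2
  rw [abs_le]
  constructor <;> linarith

theorem mgsd_abs_Dfi_le (hC : (B.ctx t ρ p).Good r H ε₁) (c : X × ℝ → Option (Fin r)) {a b : ℝ}
    (hH : Real.exp (-a) ≤ H) (i : Fin r) (y : X × ℝ) :
    |(B.ctx t ρ p).Dfi c (mgWin X a b) i y| ≤ 3 * ((1 + 80 * t) * H) + ε₁ :=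
  mgsd_abs_Df_le hC _ hH y

/-- normalised fields are bounded: `g` vanishes off the window. -/
theorem mgsd_abs_exp_mul_le {g : X × ℝ → ℝ} {a b β C₀ : ℝ} (hb : b ≤ β) (h0 : ∀ y ∉ mgWin X a b, g y = 0)
    (hg : ∀ y, |g y| ≤ C₀) (y : X × ℝ) : |Real.exp y.2 * g y| ≤ Real.exp β * C₀ := by
  have hC0 : 0 ≤ C₀ := (abs_nonneg _).trans (hg y)
  by_cases hy : y ∈ mgWin X a b
  · rw [abs_mul, abs_of_pos (Real.exp_pos _)]
    have : Real.exp y.2 ≤ Real.exp β := Real.exp_le_exp.2 (hy.2.trans hb)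
    exact mul_le_mul this (hg y) (abs_nonneg _) (Real.exp_pos _).le
  · rw [h0 y hy, mul_zero, abs_zero]
    positivity

end Bd


/-- normalised cost fields of a window -/
def mgsdM (B : MgBase X D) (P : MgPar) (c : X → Option (Fin r)) (a b : ℝ) (y : X × ℝ) : ℝ :=
  Real.exp y.2 * (B.ctx P.t P.ρ P.p).M (mgUp c) (mgWin X a b) y

def mgsdDf (B : MgBase X D) (P : MgPar) (c : X → Option (Fin r)) (a b : ℝ) (y : X × ℝ) : ℝ :=
  Real.exp y.2 * (B.ctx P.t P.ρ P.p).Df (mgUp c) (mgWin X a b) y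

def mgsdDfi (B : MgBase X D) (P : MgPar) (c : X → Option (Fin r)) (a b : ℝ) (i : Fin r) (y : X × ℝ) : ℝ :=
  Real.exp y.2 * (B.ctx P.t P.ρ P.p).Dfi (mgUp c) (mgWin X a b) i y

theorem mgsDev_eq (B : MgBase X D) (P : MgPar) (c : X → Option (Fin r)) (b0 : ℝ) (x : X) (s' σ : ℝ) :
    mgsDev B P c b0 x s' σ =
      (∑ i : Fin r, |mgsdDfi B P c (-P.n) P.n i (x, s' + σ) - mgsdDfi B P c (-b0) b0 i (x, σ)|) +
      |mgsdDf B P c (-P.n) P.n (x, s' + σ) - mgsdDf B P c (-b0) b0 (x, σ)| +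
      24 * |mgsdM B P c (-P.n) P.n (x, s' + σ) - mgsdM B P c (-b0) b0 (x, σ)| := rfl

theorem mgsXi_eq (B : MgBase X D) (P : MgPar) (c : X → Option (Fin r)) (a b : ℝ) (i : Fin r) (y : X × ℝ) :
    mgsXi B P c a b i y = mgsdDfi B P c a b i y - mgsdDf B P c a b y - 24 * mgsdM B P c a b y := by
  unfold mgsXi mgsdDfi mgsdDf mgsdM
  ring

theorem mgsd_measurable_exp_snd : Measurable fun y : X × ℝ => Real.exp y.2 :=
  Real.measurable_exp.comp measurable_snd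

theorem mgsdM_meas (hB : B.Good μ K) (hr : 0 < r) (P : MgPar) {c : X → Option (Fin r)} (hc : MgMeasC c)
    (a b : ℝ) : Measurable (mgsdM B P c a b) :=
  mgsd_measurable_exp_snd.mul (mgsd_meas_M hB hr _ _ _ hc a b)

theorem mgsdDf_meas (hB : B.Good μ K) (hr : 0 < r) (P : MgPar) {c : X → Option (Fin r)} (hc : MgMeasC c)
    (a b : ℝ) : Measurable (mgsdDf B P c a b) :=
  mgsd_measurable_exp_snd.mul (mgsd_meas_Df hB hr _ _ _ hc a b)

theorem mgsdDfi_meas (hB : B.Good μ K) (hr : 0 < r) (P : MgPar) {c : X → Option (Fin r)} (hc : MgMeasC c)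
    (a b : ℝ) (i : Fin r) : Measurable (mgsdDfi B P c a b i) :=
  mgsd_measurable_exp_snd.mul (mgsd_meas_Dfi hB hr _ _ _ hc a b i)

/-- the crude bound for the cost fields -/
def mgsdBd (P : MgPar) (ε₁ : ℝ) : ℝ := 3 * ((1 + 80 * P.t) * Real.exp (2 * P.n + 1)) + ε₁

theorem mgsdM_abs_le (hB : B.Good μ K) {P : MgPar} {ε₁ : ℝ} (hP : P.Good2 r ε₁) (c : X → Option (Fin r))
    {a b β : ℝ} (ha : -a ≤ 2 * P.n + 1) (hb : b ≤ β) (y : X × ℝ) :
    |mgsdM B P c a b y| ≤ Real.exp β * mgsdBd P ε₁ :=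
  mgsd_abs_exp_mul_le (a := a) hb (fun _ hy => MgCtx.M_of_notMem _ hy)
    (mgsd_abs_M_le (ctx_good2 hB hP) _ (Real.exp_le_exp.2 ha)) y

theorem mgsdDf_abs_le (hB : B.Good μ K) {P : MgPar} {ε₁ : ℝ} (hP : P.Good2 r ε₁) (c : X → Option (Fin r))
    {a b β : ℝ} (ha : -a ≤ 2 * P.n + 1) (hb : b ≤ β) (y : X × ℝ) :
    |mgsdDf B P c a b y| ≤ Real.exp β * mgsdBd P ε₁ :=
  mgsd_abs_exp_mul_le (a := a) hb (fun _ hy => MgCtx.Df_of_notMem _ hy)
    (mgsd_abs_Df_le (ctx_good2 hB hP) _ (Real.exp_le_exp.2 ha)) y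

theorem mgsdDfi_abs_le (hB : B.Good μ K) {P : MgPar} {ε₁ : ℝ} (hP : P.Good2 r ε₁) (c : X → Option (Fin r))
    {a b β : ℝ} (ha : -a ≤ 2 * P.n + 1) (hb : b ≤ β) (i : Fin r) (y : X × ℝ) :
    |mgsdDfi B P c a b i y| ≤ Real.exp β * mgsdBd P ε₁ :=
  mgsd_abs_exp_mul_le (a := a) hb (fun _ hy => MgCtx.Df_of_notMem _ hy)
    (fun y => mgsd_abs_Dfi_le (ctx_good2 hB hP) _ (Real.exp_le_exp.2 ha) i y) y

/-! ### package MGS-StarDev -/

theorem mgs_Xi_sub_le (B : MgBase X D) (P : MgPar) (c : X → Option (Fin r)) (b0 : ℝ) (i : Fin r) (x : X) (s' σ : ℝ) :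
    mgsXi B P c (-P.n) P.n i (x, s' + σ) ≤ mgsXi B P c (-b0) b0 i (x, σ) + mgsDev B P c b0 x s' σ := by
  rw [mgsXi_eq, mgsXi_eq, mgsDev_eq]
  have h1 : |mgsdDfi B P c (-P.n) P.n i (x, s' + σ) - mgsdDfi B P c (-b0) b0 i (x, σ)| ≤
      ∑ i : Fin r, |mgsdDfi B P c (-P.n) P.n i (x, s' + σ) - mgsdDfi B P c (-b0) b0 i (x, σ)| :=
    Finset.single_le_sum
      (f := fun i => |mgsdDfi B P c (-P.n) P.n i (x, s' + σ) - mgsdDfi B P c (-b0) b0 i (x, σ)|)
      (fun _ _ => abs_nonneg _) (Finset.mem_univ i)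
  have h2 := le_abs_self (mgsdDfi B P c (-P.n) P.n i (x, s' + σ) - mgsdDfi B P c (-b0) b0 i (x, σ))
  have h3 := neg_abs_le (mgsdDf B P c (-P.n) P.n (x, s' + σ) - mgsdDf B P c (-b0) b0 (x, σ))
  have h4 := neg_abs_le (mgsdM B P c (-P.n) P.n (x, s' + σ) - mgsdM B P c (-b0) b0 (x, σ))
  linarith

/-- joint measurability -/
theorem mgs_dev_meas (hB : B.Good μ K) {P : MgPar} {ε₁ : ℝ} (hP : P.Good2 r ε₁) {c : X → Option (Fin r)}
    (hc : MgMeasC c) (b0 : ℝ) : Measurable fun q : X × ℝ × ℝ => mgsDev B P c b0 q.1 q.2.1 q.2.2 := by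
  have hr := hP.r_pos
  have m1 : Measurable fun q : X × ℝ × ℝ => (q.1, q.2.1 + q.2.2) :=
    measurable_fst.prodMk ((measurable_fst.comp measurable_snd).add (measurable_snd.comp measurable_snd))
  have m2 : Measurable fun q : X × ℝ × ℝ => (q.1, q.2.2) :=
    measurable_fst.prodMk (measurable_snd.comp measurable_snd)
  simp only [mgsDev_eq]
  refine ((Finset.measurable_sum _ fun i _ => ?_).add ?_).add (measurable_const.mul ?_)
  · exact (((mgsdDfi_meas hB hr P hc _ _ i).comp m1).sub ((mgsdDfi_meas hB hr P hc _ _ i).comp m2)).abs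
  · exact (((mgsdDf_meas hB hr P hc _ _).comp m1).sub ((mgsdDf_meas hB hr P hc _ _).comp m2)).abs
  · exact (((mgsdM_meas hB hr P hc _ _).comp m1).sub ((mgsdM_meas hB hr P hc _ _).comp m2)).abs

theorem mgs_dev_nonneg (B : MgBase X D) (P : MgPar) (c : X → Option (Fin r)) (b0 : ℝ) (x : X) (s' σ : ℝ) :
    0 ≤ mgsDev B P c b0 x s' σ := by
  rw [mgsDev_eq]
  have : 0 ≤ ∑ i : Fin r, |mgsdDfi B P c (-P.n) P.n i (x, s' + σ) - mgsdDfi B P c (-b0) b0 i (x, σ)| :=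
    Finset.sum_nonneg fun _ _ => abs_nonneg _
  positivity

/-- global crude bound -/
theorem mgsd_dev_le (hB : B.Good μ K) {P : MgPar} {ε₁ : ℝ} (hP : P.Good2 r ε₁) (c : X → Option (Fin r)) {b0 : ℝ}
    (hb0 : b0 ≤ P.n) (x : X) (s' σ : ℝ) :
    mgsDev B P c b0 x s' σ ≤ (r + 25) * (2 * (Real.exp P.n * mgsdBd P ε₁)) := by
  have hn := hP.n_pos
  set E := Real.exp P.n * mgsdBd P ε₁ with hE
  have a1 : - -P.n ≤ 2 * P.n + 1 := by linarith
  have a2 : - -b0 ≤ 2 * P.n + 1 := by linarith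
  have hsub : ∀ u v : ℝ, |u| ≤ E → |v| ≤ E → |u - v| ≤ 2 * E := fun u v hu hv => by
    have := abs_sub u v
    linarith
  rw [mgsDev_eq]
  have h1 : ∑ i : Fin r, |mgsdDfi B P c (-P.n) P.n i (x, s' + σ) - mgsdDfi B P c (-b0) b0 i (x, σ)|
      ≤ ∑ _i : Fin r, 2 * E :=
    Finset.sum_le_sum fun i _ => hsub _ _ (mgsdDfi_abs_le hB hP c a1 le_rfl i _)
      (mgsdDfi_abs_le hB hP c a2 hb0 i _)
  have h2 := hsub _ _ (mgsdDf_abs_le hB hP c a1 le_rfl (x, s' + σ)) (mgsdDf_abs_le hB hP c a2 hb0 (x, σ))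
  have h3 := hsub _ _ (mgsdM_abs_le hB hP c a1 le_rfl (x, s' + σ)) (mgsdM_abs_le hB hP c a2 hb0 (x, σ))
  rw [Finset.sum_const, Finset.card_univ, Fintype.card_fin, nsmul_eq_mul] at h1
  linarith

/-- crude bound (for integrability) -/
theorem mgs_dev_le (hB : B.Good μ K) {P : MgPar} {ε₁ : ℝ} (hP : P.Good2 r ε₁) (c : X → Option (Fin r)) {b0 : ℝ}
    (hb0 : b0 ≤ P.n) :
    ∃ C1 : ℝ, ∀ (x : X) (s' σ : ℝ), |s'| ≤ P.n → σ ∈ Set.Icc (-1 : ℝ) 0 → mgsDev B P c b0 x s' σ ≤ C1 :=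
  ⟨_, fun x s' σ _ _ => mgsd_dev_le hB hP c hb0 x s' σ⟩

/-- a bounded measurable function is interval integrable -/
theorem mgsd_intervalIntegrable {f : ℝ → ℝ} (hf : Measurable f) {C₀ : ℝ} (hb : ∀ s, |f s| ≤ C₀) (a b : ℝ) :
    IntervalIntegrable f volume a b := by
  rw [intervalIntegrable_iff]
  refine Measure.integrableOn_of_bounded (M := C₀) ?_ hf.aestronglyMeasurable
    (Filter.Eventually.of_forall hb)
  rw [Set.uIoc, Real.volume_Ioc]
  exact ENNReal.ofReal_ne_top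

theorem mgs_dev_intervalIntegrable (hB : B.Good μ K) {P : MgPar} {ε₁ : ℝ} (hP : P.Good2 r ε₁)
    {c : X → Option (Fin r)} (hc : MgMeasC c) {b0 : ℝ} (hb0 : b0 ≤ P.n) (x : X) {σ : ℝ}
    (hσ : σ ∈ Set.Icc (-1 : ℝ) 0) :
    IntervalIntegrable (fun s' => mgsDev B P c b0 x s' σ) volume (-(P.n - b0)) (P.n - b0) := by
  refine mgsd_intervalIntegrable ?_ (C₀ := (r + 25) * (2 * (Real.exp P.n * mgsdBd P ε₁))) (fun s' => ?_) _ _
  · have m : Measurable fun s' : ℝ => ((x, s', σ) : X × ℝ × ℝ) :=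
      measurable_const.prodMk (measurable_id.prodMk measurable_const)
    have h := (mgs_dev_meas hB hP hc b0).comp m
    exact h
  · rw [abs_of_nonneg (mgs_dev_nonneg B P c b0 x s' σ)]
    exact mgsd_dev_le hB hP c hb0 x s' σ

theorem mgsXi_meas (hB : B.Good μ K) (hr : 0 < r) (P : MgPar) {c : X → Option (Fin r)} (hc : MgMeasC c)
    (a b : ℝ) (i : Fin r) : Measurable (mgsXi B P c a b i) := by
  have : mgsXi B P c a b i = fun y => mgsdDfi B P c a b i y - mgsdDf B P c a b y - 24 * mgsdM B P c a b y :=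
    funext fun y => mgsXi_eq B P c a b i y
  rw [this]
  exact ((mgsdDfi_meas hB hr P hc a b i).sub (mgsdDf_meas hB hr P hc a b)).sub
    (measurable_const.mul (mgsdM_meas hB hr P hc a b))

/-- (measurable in `s`, bounded, zero off the strip) -/
theorem mgs_Xi_intervalIntegrable (hB : B.Good μ K) {P : MgPar} {ε₁ : ℝ} (hP : P.Good2 r ε₁)
    {c : X → Option (Fin r)} (hc : MgMeasC c) (i : Fin r) (x : X) (a b : ℝ) :
    IntervalIntegrable (fun s => mgsXi B P c (-P.n) P.n i (x, s)) volume a b := by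
  have hn := hP.n_pos
  have a1 : - -P.n ≤ 2 * P.n + 1 := by linarith
  refine mgsd_intervalIntegrable ((mgsXi_meas hB hP.r_pos P hc _ _ i).comp measurable_prodMk_left)
    (C₀ := 26 * (Real.exp P.n * mgsdBd P ε₁)) (fun s => ?_) _ _
  change |mgsXi B P c (-P.n) P.n i (x, s)| ≤ _
  rw [mgsXi_eq]
  have h1 := abs_le.1 (mgsdDfi_abs_le hB hP c a1 (le_refl P.n) i (x, s))
  have h2 := abs_le.1 (mgsdDf_abs_le hB hP c a1 (le_refl P.n) (x, s))
  have h3 := abs_le.1 (mgsdM_abs_le hB hP c a1 (le_refl P.n) (x, s))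
  rw [abs_le]
  constructor <;> linarith [h1.1, h1.2, h2.1, h2.2, h3.1, h3.2]


/-- normalised costs are bounded independently of `n` -/
theorem mgs_Xi_le (hB : B.Good μ K) {P : MgPar} {ε₁ : ℝ} (hP : P.Good2 r ε₁) (c : X → Option (Fin r)) (i : Fin r)
    {y : X × ℝ} (hy : y ∈ mgWin X (-P.n) P.n) :
    mgsXi B P c (-P.n) P.n i y ≤
      2 * Real.sqrt ((80 * P.t) ^ 2 + K) + 80 * P.t + 26 * ε₁ * Real.exp P.n := by
  have hn := hP.n_pos
  have ht := hP.t_pos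
  have hr := hP.r_pos
  set C := B.ctx P.t P.ρ P.p with hCdef
  have hC : C.Good r (Real.exp (2 * P.n + 1)) ε₁ := ctx_good2 hB hP
  have hε := hC.eps_nonneg
  have hQ : ∀ y ∈ mgWin X (-P.n) P.n, C.W y ≤ Real.exp (2 * P.n + 1) :=
    mgsd_win_W_le B _ _ _ (Real.exp_le_exp.2 (by linarith))
  set c' := Function.update (mgUp c) y (some i) with hc'
  have hyS : y ∈ C.set (mgWin X (-P.n) P.n) y := MgCtx.self_mem_set hy
  have hD := MgCtx.data_good hC.meas c'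
  have hK0 : 0 ≤ K := zero_le_one.trans hB.one_le
  have hW : C.W y = Real.exp (-y.2) := rfl
  have hτ : (C.data c').τ y = 80 * P.t := by
    show mgTau C.t (c' y) = _
    rw [hc', Function.update_self]
    simp [mgTau, hCdef, MgBase.ctx]
  have ha : (C.data c').a y = 80 * P.t * C.W y := by
    show (C.data c').τ y * C.W y = _
    rw [hτ]
  have hWpos : 0 < C.W y := hC.meas.W_pos y
  have h1 := abs_le.1 (MgCtx.abs_df_sub_d_le hC c' (MgCtx.set_W_le hQ y) hyS)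
  have h2 := PvData.d_le hD hr hyS (by rw [ha]; positivity)
  have h3 := PvData.m_le hD hr hyS hK0 (fun u _ hu => by
    obtain ⟨k, rfl⟩ := (lift_ker hB).supp y u hu
    exact (ctx_inv hB ht P.ρ P.p).W_le k y)
  rw [hτ] at h3
  have h3' : (C.data c').m (C.set (mgWin X (-P.n) P.n) y) y ≤ Real.sqrt ((80 * P.t) ^ 2 + K) * C.W y := h3
  have h4 : C.Dfi (mgUp c) (mgWin X (-P.n) P.n) i y
      ≤ (2 * Real.sqrt ((80 * P.t) ^ 2 + K) + 80 * P.t) * C.W y + ε₁ := by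
    unfold MgCtx.Dfi
    rw [MgCtx.Df_of_mem _ hy]
    rw [ha] at h2
    linarith [h1.2]
  have h5 := MgCtx.neg_le_Df hC (mgUp c) hQ y
  have h6 := MgCtx.neg_le_M hC (mgUp c) hQ y
  have hexp : Real.exp y.2 * C.W y = 1 := by rw [hW, ← Real.exp_add]; simp
  have hle : Real.exp y.2 ≤ Real.exp P.n := Real.exp_le_exp.2 hy.2
  have hpos := Real.exp_pos y.2
  unfold mgsXi
  calc Real.exp y.2 * (C.Dfi (mgUp c) (mgWin X (-P.n) P.n) i y - C.Df (mgUp c) (mgWin X (-P.n) P.n) y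
        - 24 * C.M (mgUp c) (mgWin X (-P.n) P.n) y)
      ≤ Real.exp y.2 * ((2 * Real.sqrt ((80 * P.t) ^ 2 + K) + 80 * P.t) * C.W y + 26 * ε₁) := by
        refine mul_le_mul_of_nonneg_left ?_ hpos.le
        linarith
    _ = (2 * Real.sqrt ((80 * P.t) ^ 2 + K) + 80 * P.t) * (Real.exp y.2 * C.W y)
        + 26 * ε₁ * Real.exp y.2 := by ring
    _ ≤ 2 * Real.sqrt ((80 * P.t) ^ 2 + K) + 80 * P.t + 26 * ε₁ * Real.exp P.n := by
        rw [hexp, mul_one]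
        have : 26 * ε₁ * Real.exp y.2 ≤ 26 * ε₁ * Real.exp P.n := by gcongr
        linarith

theorem mgs_bar_eq (hB : B.Good μ K) {P : MgPar} {ε₁ : ℝ} (hP : P.Good2 r ε₁) {c : X → Option (Fin r)}
    (hc : MgMeasC c) (i : Fin r) (x : X) :
    B.dibar P c i x - B.dbar P c x - 24 * B.mbar P c x = ∫ s in (-P.n)..P.n, mgsXi B P c (-P.n) P.n i (x, s) := by
  have hn := hP.n_pos
  have hr := hP.r_pos
  have a1 : - -P.n ≤ 2 * P.n + 1 := by linarith
  have e1 : B.dibar P c i x = ∫ s in (-P.n)..P.n, mgsdDfi B P c (-P.n) P.n i (x, s) := by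
    unfold MgBase.dibar
    refine intervalIntegral.integral_congr fun s _ => ?_
    simp only [sDfi_eq hB hP.good c i, mgStrip_eq_mgWin]
    unfold mgsdDfi
    ring
  have e2 : B.dbar P c x = ∫ s in (-P.n)..P.n, mgsdDf B P c (-P.n) P.n (x, s) := by
    unfold MgBase.dbar MgBase.sDf
    refine intervalIntegral.integral_congr fun s _ => ?_
    simp only [mgStrip_eq_mgWin]
    unfold mgsdDf
    ring
  have e3 : B.mbar P c x = ∫ s in (-P.n)..P.n, mgsdM B P c (-P.n) P.n (x, s) := by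
    unfold MgBase.mbar MgBase.sM
    refine intervalIntegral.integral_congr fun s _ => ?_
    simp only [mgStrip_eq_mgWin]
    unfold mgsdM
    ring
  have i1 : IntervalIntegrable (fun s => mgsdDfi B P c (-P.n) P.n i (x, s)) volume (-P.n) P.n :=
    mgsd_intervalIntegrable ((mgsdDfi_meas hB hr P hc _ _ i).comp measurable_prodMk_left)
      (fun s => mgsdDfi_abs_le hB hP c a1 le_rfl i (x, s)) _ _
  have i2 : IntervalIntegrable (fun s => mgsdDf B P c (-P.n) P.n (x, s)) volume (-P.n) P.n :=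
    mgsd_intervalIntegrable ((mgsdDf_meas hB hr P hc _ _).comp measurable_prodMk_left)
      (fun s => mgsdDf_abs_le hB hP c a1 le_rfl (x, s)) _ _
  have i3 : IntervalIntegrable (fun s => mgsdM B P c (-P.n) P.n (x, s)) volume (-P.n) P.n :=
    mgsd_intervalIntegrable ((mgsdM_meas hB hr P hc _ _).comp measurable_prodMk_left)
      (fun s => mgsdM_abs_le hB hP c a1 le_rfl (x, s)) _ _
  rw [e1, e2, e3]
  simp only [mgsXi_eq]
  rw [intervalIntegral.integral_sub (i1.sub i2) (i3.const_mul 24), intervalIntegral.integral_sub i1 i2,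
    intervalIntegral.integral_const_mul]


/-! ### Fubini on windows -/

omit [DecidableEq X] in
theorem mgsd_setIntegral_lift (μ : Measure X) [SFinite μ] {A : Set X} (hA : MeasurableSet A) (a b : ℝ)
    (g : X × ℝ → ℝ) :
    ∫ y in mgWin X a b ∩ {y | y.1 ∈ A}, g y ∂(mgLiftμ μ) =
      ∫ y in A ×ˢ Set.Ioc a b, Real.exp y.2 * g y ∂(μ.prod volume) := by
  have h1 : mgLiftμ μ = (μ.prod volume).withDensity
      (fun z => ((Real.toNNReal (Real.exp z.2) : NNReal) : ℝ≥0∞)) := by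
    unfold mgLiftμ
    exact prod_withDensity_right mgl_measurable_dens
  have h2 : mgWin X a b ∩ {y | y.1 ∈ A} = A ×ˢ Set.Icc a b := by
    ext y
    simp only [mgWin, Set.mem_inter_iff, Set.mem_ofPred_eq, Set.mem_prod, Set.mem_Icc]
    tauto
  have hm : Measurable fun z : X × ℝ => Real.toNNReal (Real.exp z.2) :=
    (Real.measurable_exp.comp measurable_snd).real_toNNReal
  rw [h1, h2, setIntegral_withDensity_eq_setIntegral_smul hm _ (hA.prod measurableSet_Icc),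
    setIntegral_congr_set (Measure.set_prod_ae_eq (Filter.EventuallyEq.refl _ A) Ioc_ae_eq_Icc.symm)]
  refine integral_congr_ae (Filter.Eventually.of_forall fun y => ?_)
  simp only [NNReal.smul_def, Real.coe_toNNReal _ (Real.exp_pos y.2).le, smul_eq_mul]

omit [DecidableEq X] in
theorem mgsd_integrableOn (μ : Measure X) [IsFiniteMeasure μ] {A : Set X} (hA : MeasurableSet A) (a b : ℝ)
    {F : X × ℝ → ℝ} (hF : Measurable F) {C₀ : ℝ} (hb : ∀ y ∈ A ×ˢ Set.Ioc a b, |F y| ≤ C₀) :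
    IntegrableOn F (A ×ˢ Set.Ioc a b) (μ.prod volume) := by
  refine Measure.integrableOn_of_bounded (M := C₀) ?_ hF.aestronglyMeasurable ?_
  · rw [Measure.prod_prod, Real.volume_Ioc]
    exact ENNReal.mul_ne_top (measure_ne_top _ _) ENNReal.ofReal_ne_top
  · exact ae_restrict_of_forall_mem (hA.prod measurableSet_Ioc) hb

omit [DecidableEq X] in
theorem mgsd_integral_swap (μ : Measure X) [IsFiniteMeasure μ] {A : Set X} (hA : MeasurableSet A) {a b : ℝ}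
    (hab : a ≤ b) {F : X × ℝ → ℝ} (hF : Measurable F) {C₀ : ℝ} (hb : ∀ y ∈ A ×ˢ Set.Ioc a b, |F y| ≤ C₀) :
    ∫ σ in a..b, (∫ x in A, F (x, σ) ∂μ) = ∫ y in A ×ˢ Set.Ioc a b, F y ∂(μ.prod volume) := by
  have hi := mgsd_integrableOn μ hA a b hF hb
  rw [intervalIntegral.integral_of_le hab]
  unfold IntegrableOn at hi
  rw [← Measure.prod_restrict] at hi ⊢
  rw [integral_prod_symm _ hi]


/-! ### the phase average -/

theorem mgsd_dev_pointwise (hB : B.Good μ K) {P : MgPar} {ε₁ : ℝ} (hP : P.Good2 r ε₁) (c : X → Option (Fin r))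
    {b0 : ℝ} (hb1 : 1 ≤ b0) {s' : ℝ} (hs' : |s'| ≤ P.n - b0) (x : X) {σ : ℝ}
    (hσ : σ ∈ Set.Ioc (-1 : ℝ) 0) :
    mgsDev B P c b0 x s' σ ≤ (r + 25) * ε₁ * (Real.exp P.n + 1) +
      ((∑ i : Fin r, |mgsdDfi B P c (-P.n - s') (P.n - s') i (x, σ) - mgsdDfi B P c (-b0) b0 i (x, σ)|) +
        |mgsdDf B P c (-P.n - s') (P.n - s') (x, σ) - mgsdDf B P c (-b0) b0 (x, σ)| +
        24 * |mgsdM B P c (-P.n - s') (P.n - s') (x, σ) - mgsdM B P c (-b0) b0 (x, σ)|) := by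
  have hn := hP.n_pos
  obtain ⟨hs1, hs2⟩ := abs_le.1 hs'
  set a := -P.n - s' with ha
  set b := P.n - s' with hb
  have hy : ((x, σ) : X × ℝ) ∈ mgWin X a b := ⟨by show a ≤ σ; linarith [hσ.1], by show σ ≤ b; linarith [hσ.2]⟩
  have hC := ctx_good2 hB hP
  have hε := hC.eps_nonneg
  have hH : Real.exp (-a) ≤ Real.exp (2 * P.n + 1) := Real.exp_le_exp.2 (by linarith)
  have hH' : Real.exp (-(a + s')) ≤ Real.exp (2 * P.n + 1) := Real.exp_le_exp.2 (by linarith)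
  have ea : a + s' = -P.n := by rw [ha]; ring
  have eb : b + s' = P.n := by rw [hb]; ring
  have e : ((x, s' + σ) : X × ℝ) = (x, σ + s') := by rw [add_comm]
  have hexp : ε₁ * (Real.exp (σ + s') + Real.exp σ) ≤ ε₁ * (Real.exp P.n + 1) := by
    have h1 : Real.exp (σ + s') ≤ Real.exp P.n := Real.exp_le_exp.2 (by linarith [hσ.2])
    have h2 : Real.exp σ ≤ 1 := by
      rw [← Real.exp_zero]; exact Real.exp_le_exp.2 hσ.2
    gcongr
  set E := ε₁ * (Real.exp P.n + 1) with hE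
  have tM : |mgsdM B P c (-P.n) P.n (x, s' + σ) - mgsdM B P c a b (x, σ)| ≤ E := by
    have h := mgs_M_translate hB hC c hH hH' hy
    rw [ea, eb] at h
    rw [e]
    exact h.trans hexp
  have tD : |mgsdDf B P c (-P.n) P.n (x, s' + σ) - mgsdDf B P c a b (x, σ)| ≤ E := by
    have h := mgs_Df_translate hB hC c hH hH' hy
    rw [ea, eb] at h
    rw [e]
    exact h.trans hexp
  have tI : ∀ i, |mgsdDfi B P c (-P.n) P.n i (x, s' + σ) - mgsdDfi B P c a b i (x, σ)| ≤ E := by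
    intro i
    have h := mgs_Dfi_translate hB hC c i hH hH' hy
    rw [ea, eb] at h
    rw [e]
    exact h.trans hexp
  rw [mgsDev_eq]
  have h1 : ∑ i : Fin r, |mgsdDfi B P c (-P.n) P.n i (x, s' + σ) - mgsdDfi B P c (-b0) b0 i (x, σ)|
      ≤ r * E + ∑ i : Fin r, |mgsdDfi B P c a b i (x, σ) - mgsdDfi B P c (-b0) b0 i (x, σ)| := by
    have : ∑ i : Fin r, |mgsdDfi B P c (-P.n) P.n i (x, s' + σ) - mgsdDfi B P c (-b0) b0 i (x, σ)|
        ≤ ∑ i : Fin r, (E + |mgsdDfi B P c a b i (x, σ) - mgsdDfi B P c (-b0) b0 i (x, σ)|) :=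
      Finset.sum_le_sum fun i _ => (abs_sub_le _ (mgsdDfi B P c a b i (x, σ)) _).trans
        (add_le_add_left (tI i) _)
    rw [Finset.sum_add_distrib, Finset.sum_const, Finset.card_univ, Fintype.card_fin, nsmul_eq_mul] at this
    exact this
  have h2 := (abs_sub_le (mgsdDf B P c (-P.n) P.n (x, s' + σ)) (mgsdDf B P c a b (x, σ))
    (mgsdDf B P c (-b0) b0 (x, σ)))
  have h3 := (abs_sub_le (mgsdM B P c (-P.n) P.n (x, s' + σ)) (mgsdM B P c a b (x, σ))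
    (mgsdM B P c (-b0) b0 (x, σ)))
  have h4 : (r + 25) * ε₁ * (Real.exp P.n + 1) = r * E + E + 24 * E := by rw [hE]; ring
  rw [h4]
  linarith


theorem mgsd_abs_sub_le_two {u v E : ℝ} (hu : |u| ≤ E) (hv : |v| ≤ E) : |(|u - v|)| ≤ 2 * E := by
  rw [abs_abs]
  have := abs_sub u v
  linarith

theorem mgsd_dev_avg_aux (hB : B.Good μ K) {P : MgPar} {ε₁ : ℝ} (hP : P.Good2 r ε₁) {c : X → Option (Fin r)}
    (hc : MgMeasC c) {b0 : ℝ} (hb1 : 1 ≤ b0) (hb0 : b0 ≤ P.n) {s' : ℝ} (hs' : |s'| ≤ P.n - b0) :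
    ∫ σ in (-1 : ℝ)..0, (∫ x in {x | c x = none}, mgsDev B P c b0 x s' σ ∂μ) ≤
      24 * mgsGap B μ P.t P.ρ P.p c (-P.n - s') (P.n - s') (-b0) b0 +
        (r + 25) * ε₁ * (Real.exp P.n + 1) := by
  have := hB.prob
  have hn := hP.n_pos
  have hr := hP.r_pos
  have hε := (ctx_good2 hB hP).eps_nonneg
  obtain ⟨hs1, hs2⟩ := abs_le.1 hs'
  set A : Set X := {x | c x = none} with hAdef
  have hA : MeasurableSet A := hc none
  set a := -P.n - s' with ha
  set b := P.n - s' with hb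
  set S : Set (X × ℝ) := A ×ˢ Set.Ioc (-1 : ℝ) 0 with hS
  set U : Set (X × ℝ) := Set.univ ×ˢ Set.Ioc (-1 : ℝ) 0 with hU
  have hSm : MeasurableSet S := hA.prod measurableSet_Ioc
  set E : ℝ := (r + 25) * ε₁ * (Real.exp P.n + 1) with hE
  have hE0 : 0 ≤ E := by positivity
  set gI : Fin r → X × ℝ → ℝ := fun i y => |mgsdDfi B P c a b i y - mgsdDfi B P c (-b0) b0 i y| with hgI
  set gD : X × ℝ → ℝ := fun y => |mgsdDf B P c a b y - mgsdDf B P c (-b0) b0 y| with hgD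
  set gM : X × ℝ → ℝ := fun y => |mgsdM B P c a b y - mgsdM B P c (-b0) b0 y| with hgM
  have a1 : -a ≤ 2 * P.n + 1 := by rw [ha]; linarith
  have a2 : - -b0 ≤ 2 * P.n + 1 := by linarith
  have b1 : b ≤ 2 * P.n := by rw [hb]; linarith
  have b2 : b0 ≤ 2 * P.n := by linarith
  set C₀ : ℝ := 2 * (Real.exp (2 * P.n) * mgsdBd P ε₁) with hC₀
  have mI : ∀ i, Measurable (gI i) := fun i =>
    ((mgsdDfi_meas hB hr P hc a b i).sub (mgsdDfi_meas hB hr P hc _ _ i)).abs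
  have mD : Measurable gD := ((mgsdDf_meas hB hr P hc a b).sub (mgsdDf_meas hB hr P hc _ _)).abs
  have mM : Measurable gM := ((mgsdM_meas hB hr P hc a b).sub (mgsdM_meas hB hr P hc _ _)).abs
  have bI : ∀ i y, |gI i y| ≤ C₀ := fun i y =>
    mgsd_abs_sub_le_two (mgsdDfi_abs_le hB hP c a1 b1 i y) (mgsdDfi_abs_le hB hP c a2 b2 i y)
  have bD : ∀ y, |gD y| ≤ C₀ := fun y =>
    mgsd_abs_sub_le_two (mgsdDf_abs_le hB hP c a1 b1 y) (mgsdDf_abs_le hB hP c a2 b2 y)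
  have bM : ∀ y, |gM y| ≤ C₀ := fun y =>
    mgsd_abs_sub_le_two (mgsdM_abs_le hB hP c a1 b1 y) (mgsdM_abs_le hB hP c a2 b2 y)
  have iI : ∀ i, IntegrableOn (gI i) S (μ.prod volume) := fun i =>
    mgsd_integrableOn μ hA _ _ (mI i) fun y _ => bI i y
  have iD : IntegrableOn gD S (μ.prod volume) := mgsd_integrableOn μ hA _ _ mD fun y _ => bD y
  have iM : IntegrableOn gM S (μ.prod volume) := mgsd_integrableOn μ hA _ _ mM fun y _ => bM y
  have iDU : IntegrableOn gD U (μ.prod volume) :=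
    mgsd_integrableOn μ MeasurableSet.univ _ _ mD fun y _ => bD y
  have iMU : IntegrableOn gM U (μ.prod volume) :=
    mgsd_integrableOn μ MeasurableSet.univ _ _ mM fun y _ => bM y
  -- step 1 : Fubini for the left hand side
  set F : X × ℝ → ℝ := fun y => mgsDev B P c b0 y.1 s' y.2 with hF
  have mF : Measurable F := by
    have m : Measurable fun y : X × ℝ => ((y.1, s', y.2) : X × ℝ × ℝ) :=
      measurable_fst.prodMk (measurable_const.prodMk measurable_snd)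
    have h := (mgs_dev_meas hB hP hc b0).comp m
    exact h
  have bF : ∀ y ∈ S, |F y| ≤ (r + 25) * (2 * (Real.exp P.n * mgsdBd P ε₁)) := fun y _ => by
    rw [abs_of_nonneg (mgs_dev_nonneg B P c b0 _ _ _)]
    exact mgsd_dev_le hB hP c hb0 _ _ _
  have iF : IntegrableOn F S (μ.prod volume) := mgsd_integrableOn μ hA _ _ mF bF
  have step1 : ∫ σ in (-1 : ℝ)..0, (∫ x in A, mgsDev B P c b0 x s' σ ∂μ) = ∫ y in S, F y ∂(μ.prod volume) :=
    mgsd_integral_swap μ hA (by norm_num) mF bF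
  -- step 2 : pointwise bound
  set G : X × ℝ → ℝ := fun y => E + ((∑ i, gI i y) + gD y + 24 * gM y) with hG
  have iSum : IntegrableOn (fun y => ∑ i, gI i y) S (μ.prod volume) :=
    integrable_finsetSum _ fun i _ => iI i
  have iE : IntegrableOn (fun _ : X × ℝ => E) S (μ.prod volume) :=
    mgsd_integrableOn μ hA _ _ measurable_const (C₀ := E) fun y _ => by rw [abs_of_nonneg hE0]
  have iG : IntegrableOn G S (μ.prod volume) := iE.add ((iSum.add iD).add (iM.const_mul 24))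
  have step2 : ∫ y in S, F y ∂(μ.prod volume) ≤ ∫ y in S, G y ∂(μ.prod volume) :=
    setIntegral_mono_on iF iG hSm fun y hy => mgsd_dev_pointwise hB hP c hb1 hs' y.1 hy.2
  -- step 3 : linearity
  have step3 : ∫ y in S, G y ∂(μ.prod volume) = ∫ _y in S, E ∂(μ.prod volume) +
      ((∑ i, ∫ y in S, gI i y ∂(μ.prod volume)) + ∫ y in S, gD y ∂(μ.prod volume) +
        24 * ∫ y in S, gM y ∂(μ.prod volume)) := by
    have iR1 : IntegrableOn (fun y => (∑ i, gI i y) + gD y) S (μ.prod volume) := iSum.add iD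
    have iR2 : IntegrableOn (fun y => 24 * gM y) S (μ.prod volume) := iM.const_mul 24
    have iR : IntegrableOn (fun y => (∑ i, gI i y) + gD y + 24 * gM y) S (μ.prod volume) := iR1.add iR2
    calc ∫ y in S, G y ∂(μ.prod volume)
        = ∫ _y in S, E ∂(μ.prod volume) + ∫ y in S, ((∑ i, gI i y) + gD y + 24 * gM y) ∂(μ.prod volume) :=
          integral_add iE iR
      _ = ∫ _y in S, E ∂(μ.prod volume) + (∫ y in S, ((∑ i, gI i y) + gD y) ∂(μ.prod volume) +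
            ∫ y in S, 24 * gM y ∂(μ.prod volume)) := by rw [integral_add iR1 iR2]
      _ = ∫ _y in S, E ∂(μ.prod volume) + ((∫ y in S, (∑ i, gI i y) ∂(μ.prod volume) +
            ∫ y in S, gD y ∂(μ.prod volume)) + ∫ y in S, 24 * gM y ∂(μ.prod volume)) := by
          rw [integral_add iSum iD]
      _ = _ := by
          have h24 : ∫ y in S, 24 * gM y ∂(μ.prod volume) = 24 * ∫ y in S, gM y ∂(μ.prod volume) :=
            integral_const_mul _ _
          have hsum : ∫ y in S, (∑ i, gI i y) ∂(μ.prod volume) = ∑ i, ∫ y in S, gI i y ∂(μ.prod volume) :=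
            integral_finsetSum _ fun i _ => iI i
          rw [hsum, h24]
  have stepE : ∫ _y in S, E ∂(μ.prod volume) ≤ E := by
    rw [setIntegral_const, smul_eq_mul]
    have h1 : (μ.prod volume).real S ≤ 1 := by
      unfold Measure.real
      rw [hS, Measure.prod_prod, Real.volume_Ioc]
      have : μ A * ENNReal.ofReal (0 - -1) ≤ 1 := by
        have h2 : μ A ≤ 1 := prob_le_one
        simpa using h2
      exact ENNReal.toReal_le_of_le_ofReal zero_le_one (by simpa using this)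
    nlinarith
  -- step 4 : identification with the gap
  have eM : ∀ y : X × ℝ, Real.exp y.2 * |(B.ctx P.t P.ρ P.p).M (mgUp c) (mgWin X a b) y -
      (B.ctx P.t P.ρ P.p).M (mgUp c) (mgWin X (-b0) b0) y| = gM y := fun y => by
    rw [hgM]
    simp only [mgsdM]
    rw [← mul_sub, abs_mul, abs_of_pos (Real.exp_pos _)]
  have eD : ∀ y : X × ℝ, Real.exp y.2 * |(B.ctx P.t P.ρ P.p).Df (mgUp c) (mgWin X a b) y -
      (B.ctx P.t P.ρ P.p).Df (mgUp c) (mgWin X (-b0) b0) y| = gD y := fun y => by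
    rw [hgD]
    simp only [mgsdDf]
    rw [← mul_sub, abs_mul, abs_of_pos (Real.exp_pos _)]
  have eI : ∀ (i : Fin r) (y : X × ℝ), Real.exp y.2 * |(B.ctx P.t P.ρ P.p).Dfi (mgUp c) (mgWin X a b) i y -
      (B.ctx P.t P.ρ P.p).Dfi (mgUp c) (mgWin X (-b0) b0) i y| = gI i y := fun i y => by
    rw [hgI]
    simp only [mgsdDfi]
    rw [← mul_sub, abs_mul, abs_of_pos (Real.exp_pos _)]
  have huniv : mgWin X (-1) 0 = mgWin X (-1) 0 ∩ {y | y.1 ∈ (Set.univ : Set X)} := by simp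
  have gapM : ∫ y in mgWin X (-1) 0, |(B.ctx P.t P.ρ P.p).M (mgUp c) (mgWin X a b) y -
      (B.ctx P.t P.ρ P.p).M (mgUp c) (mgWin X (-b0) b0) y| ∂(mgLiftμ μ) = ∫ y in U, gM y ∂(μ.prod volume) := by
    rw [huniv, mgsd_setIntegral_lift μ MeasurableSet.univ]
    simp only [eM]
    rfl
  have gapD : ∫ y in mgWin X (-1) 0, |(B.ctx P.t P.ρ P.p).Df (mgUp c) (mgWin X a b) y -
      (B.ctx P.t P.ρ P.p).Df (mgUp c) (mgWin X (-b0) b0) y| ∂(mgLiftμ μ) = ∫ y in U, gD y ∂(μ.prod volume) := by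
    rw [huniv, mgsd_setIntegral_lift μ MeasurableSet.univ]
    simp only [eD]
    rfl
  have gapI : ∀ i : Fin r, ∫ y in mgWin X (-1) 0 ∩ {y | c y.1 = none},
      |(B.ctx P.t P.ρ P.p).Dfi (mgUp c) (mgWin X a b) i y -
      (B.ctx P.t P.ρ P.p).Dfi (mgUp c) (mgWin X (-b0) b0) i y| ∂(mgLiftμ μ)
        = ∫ y in S, gI i y ∂(μ.prod volume) := by
    intro i
    have h := mgsd_setIntegral_lift μ hA (-1) 0 (fun y => |(B.ctx P.t P.ρ P.p).Dfi (mgUp c) (mgWin X a b) i y -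
      (B.ctx P.t P.ρ P.p).Dfi (mgUp c) (mgWin X (-b0) b0) i y|)
    simp only [eI] at h
    exact h
  have hSU : S ⊆ U := Set.prod_mono (Set.subset_univ _) subset_rfl
  have leD : ∫ y in S, gD y ∂(μ.prod volume) ≤ ∫ y in U, gD y ∂(μ.prod volume) :=
    setIntegral_mono_set iDU (Filter.Eventually.of_forall fun y => abs_nonneg _)
      (Filter.Eventually.of_forall hSU)
  have leM : ∫ y in S, gM y ∂(μ.prod volume) ≤ ∫ y in U, gM y ∂(μ.prod volume) :=
    setIntegral_mono_set iMU (Filter.Eventually.of_forall fun y => abs_nonneg _)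
      (Filter.Eventually.of_forall hSU)
  have nnD : 0 ≤ ∫ y in U, gD y ∂(μ.prod volume) := integral_nonneg fun y => abs_nonneg _
  have nnI : 0 ≤ ∑ i, ∫ y in S, gI i y ∂(μ.prod volume) :=
    Finset.sum_nonneg fun i _ => integral_nonneg fun y => abs_nonneg _
  have hgap : mgsGap B μ P.t P.ρ P.p c a b (-b0) b0 = ∫ y in U, gM y ∂(μ.prod volume) +
      ∫ y in U, gD y ∂(μ.prod volume) + ∑ i, ∫ y in S, gI i y ∂(μ.prod volume) := by
    unfold mgsGap
    rw [gapM, gapD]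
    simp only [gapI]
  rw [step1, hgap]
  refine step2.trans ?_
  rw [step3]
  linarith

end MgBase

namespace MgBase

/-- (1)  (`b0` does not depend on the system) -/
theorem mgs_dev_avg.{u} (D r : ℕ) {K t δ : ℝ} (hr : 0 < r) (hK : 1 ≤ K) (ht : 0 < t) (hδ : 0 < δ) :
    ∃ b0 : ℝ, 1 ≤ b0 ∧ ∀ (X : Type u) [MeasurableSpace X] [DecidableEq X] (B : MgBase X D) (μ : Measure X),
      B.Good μ K → ∀ (P : MgPar) (ε₁ : ℝ), P.t = t → P.Good2 r ε₁ → b0 ≤ P.n →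
      ∀ c : X → Option (Fin r), MgMeasC c → ∀ s' : ℝ, |s'| ≤ P.n - b0 →
      ∫ σ in (-1 : ℝ)..0, (∫ x in {x | c x = none}, mgsDev B P c b0 x s' σ ∂μ) ≤
        24 * (δ + 6 * (r + 2) * ε₁) + (r + 25) * ε₁ * (Real.exp P.n + 1) := by
  obtain ⟨b0, hb1, hstab⟩ := mgs_win_stable.{u} D r hr hK ht hδ
  refine ⟨b0, hb1, ?_⟩
  intro X _ _ B μ hB P ε₁ hPt hP hb0n c hc s' hs'
  subst hPt
  obtain ⟨hs1, hs2⟩ := abs_le.1 hs'
  have hn := hP.n_pos
  have h1 := mgsd_dev_avg_aux hB hP hc hb1 hb0n hs'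
  have h2 := hstab X B μ hB (-P.n - s') (by linarith) (-b0) le_rfl (P.n - s') (by linarith) b0 le_rfl P.ρ P.p
    (Real.exp (2 * P.n + 1)) ε₁ (ctx_good2 hB hP) (Real.exp_le_exp.2 (by linarith))
    (Real.exp_le_exp.2 (by linarith)) c hc
  linarith

/-- (2) -/
theorem mgs_exists_phase.{u} (D r : ℕ) {K t δ : ℝ} (hr : 0 < r) (hK : 1 ≤ K) (ht : 0 < t) (hδ : 0 < δ) :
    ∃ b0 : ℝ, 1 ≤ b0 ∧ ∀ (X : Type u) [MeasurableSpace X] [DecidableEq X] (B : MgBase X D) (μ : Measure X),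
      B.Good μ K → ∀ (P : MgPar) (ε₁ : ℝ), P.t = t → P.Good2 r ε₁ → b0 ≤ P.n →
      ∀ c : X → Option (Fin r), MgMeasC c → ∃ σ0 ∈ Set.Icc (-1 : ℝ) 0,
      ∫ x in {x | c x = none}, (∫ s' in (-(P.n - b0))..(P.n - b0), mgsDev B P c b0 x s' σ0) ∂μ ≤
        2 * (P.n - b0) * (24 * (δ + 6 * (r + 2) * ε₁) + (r + 25) * ε₁ * (Real.exp P.n + 1)) := by
  obtain ⟨b0, hb0, H⟩ := mgs_dev_avg.{u} D r hr hK ht hδ
  refine ⟨b0, hb0, fun X _ _ B μ hB P ε₁ hPt hP hbn c hc => ?_⟩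
  have := hB.prob
  obtain ⟨C1, hC1⟩ := mgs_dev_le hB hP c hbn
  exact mgs_phase_abs (μ.restrict {x | c x = none}) (fun x s σ => mgsDev B P c b0 x s σ)
    (mgs_dev_meas hB hP hc b0) (by linarith) (fun x s σ => mgs_dev_nonneg B P c b0 x s σ)
    (fun x s σ hs hσ => hC1 x s σ (by linarith) hσ)
    (fun s hs => H X B μ hB P ε₁ hPt hP hbn c hc s hs)

end MgBase

end

end Claimed.Agent.R302
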