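/-
R302 / MG / Star   (blueprint: helper203; package MGS-StarMain)   Plan: header of `MG/StarDev.lean`, steps (3)-(5).
`mgs_star` is the result; all constants are chosen before the system.
-/
import Claimed.Agent.R302.MG.StarDev

set_option autoImplicit false
set_option linter.unusedSectionVars false

namespace Claimed.Agent.R302

open MeasureTheory Finset Polynomial
open scoped BigOperators ComplexConjugate ENNReal

noncomputable section

namespace MgBase

section Point

variable {X : Type*} [MeasurableSpace X] [DecidableEq X] {D r : ℕ} {B : MgBase X D} {μ : Measure X} {K : ℝ}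

/-- steps (3), (4): the pointwise inequality at an unassigned site -/
theorem mgs_star_point (hB : B.Good μ K) {P : MgPar} {ε₁ : ℝ} (hP : P.Good2 r ε₁) {c : X → Option (Fin r)}
    (hc : MgMeasC c) {b0 : ℝ} (hb1 : 1 ≤ b0) (hb0 : b0 ≤ P.n) {σ0 : ℝ} (hσ : σ0 ∈ Set.Icc (-1 : ℝ) 0) {x : X}
    (hx : c x = none) :
    ∃ i : Fin r, B.dibar P c i x - B.dbar P c x - 24 * B.mbar P c x ≤
      (∫ s' in (-(P.n - b0))..(P.n - b0), mgsDev B P c b0 x s' σ0) + 52 * P.n * ε₁ +
        2 * b0 * (2 * Real.sqrt ((80 * P.t) ^ 2 + K) + 80 * P.t + 26 * ε₁ * Real.exp P.n) := by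
  have hC := ctx_good2 hB hP
  have hε : 0 ≤ ε₁ := hC.eps_nonneg
  have hn : 0 < P.n := hP.n_pos
  obtain ⟨hσ1, hσ2⟩ := hσ
  -- Lemma 4.7 at the phase
  have hQ : ∀ y ∈ mgWin X (-b0) b0, (B.ctx P.t P.ρ P.p).W y ≤ Real.exp (2 * P.n + 1) := by
    intro y hy
    show Real.exp (-y.2) ≤ _
    apply Real.exp_le_exp.2
    have := hy.1
    linarith
  have hy : ((x, σ0) : X × ℝ) ∈ mgWin X (-b0) b0 := ⟨by show -b0 ≤ σ0; linarith, by show σ0 ≤ b0; linarith⟩
  obtain ⟨i, hi⟩ := MgCtx.exists_Dfi_le hC (mgUp c) hQ hy (show mgUp c (x, σ0) = none from hx)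
  refine ⟨i, ?_⟩
  have hXi0 : mgsXi B P c (-b0) b0 i (x, σ0) ≤ 26 * ε₁ := by
    unfold mgsXi
    have h1 : (B.ctx P.t P.ρ P.p).Dfi (mgUp c) (mgWin X (-b0) b0) i (x, σ0)
        - (B.ctx P.t P.ρ P.p).Df (mgUp c) (mgWin X (-b0) b0) (x, σ0)
        - 24 * (B.ctx P.t P.ρ P.p).M (mgUp c) (mgWin X (-b0) b0) (x, σ0) ≤ 26 * ε₁ := by linarith
    have h2 : Real.exp σ0 ≤ 1 := by
      rw [← Real.exp_zero]; exact Real.exp_le_exp.2 hσ2
    have h3 : 0 < Real.exp σ0 := Real.exp_pos _
    calc Real.exp σ0 * _ ≤ Real.exp σ0 * (26 * ε₁) := mul_le_mul_of_nonneg_left h1 h3.le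
      _ ≤ 1 * (26 * ε₁) := mul_le_mul_of_nonneg_right h2 (by positivity)
      _ = 26 * ε₁ := one_mul _
  rw [mgs_bar_eq hB hP hc i x]
  set f : ℝ → ℝ := fun s => mgsXi B P c (-P.n) P.n i (x, s) with hf
  set C0 : ℝ := 2 * Real.sqrt ((80 * P.t) ^ 2 + K) + 80 * P.t + 26 * ε₁ * Real.exp P.n with hC0
  have hfi : ∀ a b, IntervalIntegrable f volume a b := fun a b => mgs_Xi_intervalIntegrable hB hP hc i x a b
  have hfle : ∀ s ∈ Set.Icc (-P.n) P.n, f s ≤ C0 := fun s hs => mgs_Xi_le hB hP c i (y := (x, s)) ⟨hs.1, hs.2⟩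
  set l : ℝ := P.n - b0 with hl
  have hl0 : 0 ≤ l := by linarith
  have hsplit : ∫ s in (-P.n)..P.n, f s =
      (∫ s in (-P.n)..(-l + σ0), f s) + (∫ s in (-l + σ0)..(l + σ0), f s) + ∫ s in (l + σ0)..P.n, f s := by
    rw [intervalIntegral.integral_add_adjacent_intervals (hfi _ _) (hfi _ _),
      intervalIntegral.integral_add_adjacent_intervals (hfi _ _) (hfi _ _)]
  have h1 : ∫ s in (-P.n)..(-l + σ0), f s ≤ C0 * (b0 + σ0) := by
    have hle : -P.n ≤ -l + σ0 := by linarith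
    calc ∫ s in (-P.n)..(-l + σ0), f s ≤ ∫ _s in (-P.n)..(-l + σ0), C0 := by
          apply intervalIntegral.integral_mono_on hle (hfi _ _) intervalIntegrable_const
          intro s hs
          exact hfle s ⟨hs.1, by linarith [hs.2]⟩
      _ = C0 * (b0 + σ0) := by
          rw [intervalIntegral.integral_const, smul_eq_mul]; ring
  have h3 : ∫ s in (l + σ0)..P.n, f s ≤ C0 * (b0 - σ0) := by
    have hle : l + σ0 ≤ P.n := by linarith
    calc ∫ s in (l + σ0)..P.n, f s ≤ ∫ _s in (l + σ0)..P.n, C0 := by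
          apply intervalIntegral.integral_mono_on hle (hfi _ _) intervalIntegrable_const
          intro s hs
          exact hfle s ⟨by linarith [hs.1], hs.2⟩
      _ = C0 * (b0 - σ0) := by
          rw [intervalIntegral.integral_const, smul_eq_mul]; ring
  have hdi := mgs_dev_intervalIntegrable hB hP hc hb0 x (σ := σ0) ⟨hσ1, hσ2⟩
  have h2 : ∫ s in (-l + σ0)..(l + σ0), f s ≤
      (∫ s' in (-l)..l, mgsDev B P c b0 x s' σ0) + 52 * P.n * ε₁ := by
    have hshift : ∫ s in (-l + σ0)..(l + σ0), f s = ∫ s' in (-l)..l, f (s' + σ0) := by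
      rw [intervalIntegral.integral_comp_add_right]
    rw [hshift]
    have hle : -l ≤ l := by linarith
    have hfi' : IntervalIntegrable (fun s' => f (s' + σ0)) volume (-l) l := by
      have := (hfi (-l + σ0) (l + σ0)).comp_add_right σ0
      simpa using this
    calc ∫ s' in (-l)..l, f (s' + σ0)
        ≤ ∫ s' in (-l)..l, (26 * ε₁ + mgsDev B P c b0 x s' σ0) := by
          apply intervalIntegral.integral_mono_on hle hfi' (intervalIntegrable_const.add hdi)
          intro s' _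
          have := mgs_Xi_sub_le B P c b0 i x s' σ0
          show mgsXi B P c (-P.n) P.n i (x, s' + σ0) ≤ _
          linarith
      _ = 26 * ε₁ * (2 * l) + ∫ s' in (-l)..l, mgsDev B P c b0 x s' σ0 := by
          rw [intervalIntegral.integral_add intervalIntegrable_const hdi,
            intervalIntegral.integral_const, smul_eq_mul]
          ring
      _ ≤ (∫ s' in (-l)..l, mgsDev B P c b0 x s' σ0) + 52 * P.n * ε₁ := by
          have : 26 * ε₁ * (2 * l) ≤ 52 * P.n * ε₁ := by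
            have : l ≤ P.n := by linarith
            nlinarith
          linarith
  rw [hsplit]
  have : C0 * (b0 + σ0) + C0 * (b0 - σ0) = 2 * b0 * C0 := by ring
  linarith

end Point

attribute [local irreducible] mgsDev mgsXi MgBase.dibar MgBase.dbar MgBase.mbar

/-- **(STAR)** -/
theorem mgs_star.{u} (D r : ℕ) {K t ε3 : ℝ} (hr : 0 < r) (hK : 1 ≤ K) (ht : 0 < t) (hε3 : 0 < ε3) :
    ∃ n0 : ℝ, 0 < n0 ∧ ∀ n ≥ n0, ∃ ε₀ : ℝ, 0 < ε₀ ∧ ∀ (P : MgPar) (ε₁ : ℝ), P.t = t → P.n = n → ε₁ ≤ ε₀ →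
      P.Good2 r ε₁ → ∀ (X : Type u) [MeasurableSpace X] [DecidableEq X] (B : MgBase X D) (μ : Measure X),
      B.Good μ K → ∀ c : X → Option (Fin r), MgMeasC c →
      ∃ err : X → ℝ, Measurable err ∧ (∀ x, 0 ≤ err x) ∧ Integrable err μ ∧ ∫ x, err x ∂μ ≤ 2 * n * ε3 ∧
        ∀ x, c x = none → ∃ i : Fin r, B.dibar P c i x - B.dbar P c x ≤ 24 * B.mbar P c x + err x := by
  set c0 : ℝ := 2 * Real.sqrt ((80 * t) ^ 2 + K) + 80 * t with hc0
  have hc0pos : 0 < c0 := by positivity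
  have hδ : 0 < ε3 / 96 := by positivity
  obtain ⟨b0, hb1, hph⟩ := mgs_exists_phase.{u} D r hr hK ht hδ
  have hb0pos : 0 < b0 := by linarith
  refine ⟨max (b0 + 1) (4 * b0 * c0 / ε3), lt_of_lt_of_le (by linarith) (le_max_left _ _), ?_⟩
  intro n hn
  have hnb : b0 + 1 ≤ n := le_trans (le_max_left _ _) hn
  have hn2 : 4 * b0 * c0 / ε3 ≤ n := le_trans (le_max_right _ _) hn
  have hnpos : 0 < n := by linarith
  set Cn : ℝ := 2 * n * (144 * (r + 2) + (r + 25) * (Real.exp n + 1)) + 52 * n + 52 * b0 * Real.exp n with hCn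
  have hCnpos : 0 < Cn := by positivity
  refine ⟨n * ε3 / Cn, by positivity, ?_⟩
  intro P ε₁ hPt hPn hε₁ hP X _ _ B μ hB c hc
  haveI : IsProbabilityMeasure μ := hB.prob
  have hb0n : b0 ≤ P.n := by rw [hPn]; linarith
  obtain ⟨σ0, hσ0, hint⟩ := hph X B μ hB P ε₁ hPt hP hb0n c hc
  have hε : 0 ≤ ε₁ := (ctx_good2 hB hP).eps_nonneg
  set l : ℝ := P.n - b0 with hl
  have hl0 : 0 ≤ l := by linarith
  set I : X → ℝ := fun x => ∫ s' in (-l)..l, mgsDev B P c b0 x s' σ0 with hI
  set cst : ℝ := 52 * P.n * ε₁ +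
    2 * b0 * (2 * Real.sqrt ((80 * P.t) ^ 2 + K) + 80 * P.t + 26 * ε₁ * Real.exp P.n) with hcst
  have hcst0 : 0 ≤ cst := by
    have : 0 < P.n := hP.n_pos
    have : 0 < P.t := hP.t_pos
    positivity
  have hNm : MeasurableSet {x | c x = none} := hc none
  -- measurability of `I`
  have hImeas : Measurable I := by
    have h1 : Measurable fun q : X × ℝ => mgsDev B P c b0 q.1 q.2 σ0 :=
      (mgs_dev_meas hB hP hc b0).comp (measurable_fst.prodMk (measurable_snd.prodMk measurable_const))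
    have h2 := (h1.stronglyMeasurable.integral_prod_right' (ν := volume.restrict (Set.Ioc (-l) l))).measurable
    have h3 : I = fun x => ∫ s' in Set.Ioc (-l) l, mgsDev B P c b0 x s' σ0 := by
      funext x
      exact intervalIntegral.integral_of_le (by linarith)
    rw [h3]
    exact h2
  have hI0 : ∀ x, 0 ≤ I x := fun x =>
    intervalIntegral.integral_nonneg (by linarith) fun s' _ => mgs_dev_nonneg B P c b0 x s' σ0
  obtain ⟨C1, hC1⟩ := mgs_dev_le hB hP c hb0n
  have hIle : ∀ x, ‖I x‖ ≤ C1 * |l - -l| := by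
    intro x
    apply intervalIntegral.norm_integral_le_of_norm_le_const
    intro s' hs'
    rw [Set.uIoc_of_le (by linarith)] at hs'
    rw [Real.norm_eq_abs, abs_of_nonneg (mgs_dev_nonneg B P c b0 x s' σ0)]
    apply hC1 x s' σ0 _ hσ0
    rw [abs_le]
    constructor <;> linarith [hs'.1, hs'.2]
  have hIint : Integrable I μ :=
    Integrable.of_bound hImeas.aestronglyMeasurable _ (Filter.Eventually.of_forall hIle)
  refine ⟨fun x => Set.indicator {x | c x = none} I x + cst, ?_, ?_, ?_, ?_, ?_⟩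
  · exact (hImeas.indicator hNm).add_const _
  · intro x
    have : 0 ≤ Set.indicator {x | c x = none} I x := Set.indicator_nonneg (fun x _ => hI0 x) x
    linarith
  · exact (hIint.indicator hNm).add (integrable_const _)
  · rw [integral_add (hIint.indicator hNm) (integrable_const _), integral_indicator hNm, integral_const]
    have hone : μ.real Set.univ • cst = cst := by simp
    rw [hone]
    have h1 : ∫ x in {x | c x = none}, I x ∂μ ≤
        2 * l * (24 * (ε3 / 96 + 6 * (r + 2) * ε₁) + (r + 25) * ε₁ * (Real.exp P.n + 1)) := hint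
    rw [hPn] at h1
    have hln : l ≤ n := by rw [hl, hPn]; linarith
    have hbr : 0 ≤ 24 * (ε3 / 96 + 6 * (r + 2) * ε₁) + (r + 25) * ε₁ * (Real.exp n + 1) := by positivity
    have h2 : 2 * l * (24 * (ε3 / 96 + 6 * (r + 2) * ε₁) + (r + 25) * ε₁ * (Real.exp n + 1)) ≤
        2 * n * (24 * (ε3 / 96 + 6 * (r + 2) * ε₁) + (r + 25) * ε₁ * (Real.exp n + 1)) :=
      mul_le_mul_of_nonneg_right (by linarith) hbr
    have h3 : ε₁ * Cn ≤ n * ε3 := by
      calc ε₁ * Cn ≤ n * ε3 / Cn * Cn := mul_le_mul_of_nonneg_right hε₁ hCnpos.le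
        _ = n * ε3 := by field_simp
    have h4 : 4 * b0 * c0 ≤ n * ε3 := by
      rw [div_le_iff₀ hε3] at hn2
      exact hn2
    have h5 : cst = 52 * n * ε₁ + 2 * b0 * (c0 + 26 * ε₁ * Real.exp n) := by
      rw [hcst, hPn, hPt]
    rw [h5]
    have h6 : 2 * n * (24 * (ε3 / 96 + 6 * (r + 2) * ε₁) + (r + 25) * ε₁ * (Real.exp n + 1)) +
        (52 * n * ε₁ + 2 * b0 * (c0 + 26 * ε₁ * Real.exp n)) = n * ε3 / 2 + ε₁ * Cn + 2 * b0 * c0 := by
      rw [hCn]; ring
    linarith
  · intro x hx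
    obtain ⟨i, hi⟩ := mgs_star_point hB hP hc hb1 hb0n hσ0 hx
    refine ⟨i, ?_⟩
    have : Set.indicator {x | c x = none} I x = I x := Set.indicator_of_mem (show x ∈ {x | c x = none} from hx) I
    show _ ≤ 24 * B.mbar P c x + (Set.indicator {x | c x = none} I x + cst)
    rw [this]
    have hi' : B.dibar P c i x - B.dbar P c x - 24 * B.mbar P c x ≤ I x + cst := by
      have := hi
      simp only [hI, hcst]
      linarith
    linarith

end MgBase

end

end Claimed.Agent.R302
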