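/-
R302 / MG / Final   (skeleton: helper244)   LEAF "MG-Final"
The colouring theorem (Theorem 6.1 of Q) in plain data form: choice of the parameters and assembly.

INTERFACE CHANGE (helper244, 05:30): the base `B`, `μ` is FIXED FIRST (all parameters may depend on it; `ColTheorem` allows this), (STAR) is imported from
helper203's `MG/Star.lean` through the glue lemma `MgBase.starAt_of_star` (proved below); it needs `P.Good2` (`p` adapted to `L₂ = (1+80t) e^{2n+1}`), and `Good2.good : Good2 → Good`.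

CHOICE OF THE PARAMETERS (given the good base B, μ, K ≥ 1, and r, t > 3/√r, m, α, η).
  N_m := card (mgWords D m),  q := mgNcol D (2m+1).
  T₀  with  N_m K^m exp(-T₀) ≤ η/2.
  ε₃  with  (4 K^m q / α) exp(24 (T₀+1)) (T₀+1) ε₃ ≤ η/6.
  n   ≥ max(n₀(ε₃), 2 m log K, 1)   (STAR);  then  2n - 2 m log K ≥ n,   e₃ := 2 n ε₃.
  ε₁  ≤ ε₁(STAR) so small that  (2 K^m q/(α n)) [exp(24(T₀+1)) (1 + 24 (T₀+1)) + N_m + 1] ε₁ vol ≤ η/6.     (`MgApx` is monotone in `ε`.)
  p   with `MgApx p ((1+80t) e^{2n+1}) ε₁` (`mg_exists_apx`),  ρ := max (2 deg p + 1) (2 m);   so `P.Good2 r ε₁`, hence `P.Good r ε₁`.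
  A = 2^a' so large that (2 K^m q/(α n)) exp(24(T₀+1)) (T₀+1) C / A ≤ η/6,  C := 2 bd (1+N_k) N_k² vol.
  N := ⌈T₀ A⌉₊   (so T₀ A ≤ N ≤ (T₀+1) A).
ASSEMBLY.  c_z := run N (z₁ ∘ cell).   `{BadAt (some ∘ fin)} ⊆ {∃ u ∈ ball m x, c_z u = none} ∪ badSet c_z m (160 t + α)`   (`fin_eq_of_run`).
  (a) `∑_z μ{∃ u ∈ ball m x, c_z u = none} ≤ ∑_{w ∈ words m} K^m ∑_z μ{c_z = none} = N_m K^m ((A-1)/A)^N card ≤ N_m K^m exp(-N/A) card`
      (`measure_preimage_act_le`, Fubini for finite sums: `∑_z μ{c_z = none} = ∫ #{z | c_z x = none} dμ`, `run_none_card`).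
  (b) `bad_measure_le` + `run_cost`:  `(1+24/A)^N ≤ exp(24 N/A) ≤ exp(24 (T₀+1))`,  `N err ≤ (T₀+1)(e₃ + 24 ε₁ vol + C/A)`.
  The extra label `Fin r` of `fin` only multiplies both sides by `r^card ι` (`mg_sum_prod_labels`).
-/
import Claimed.Agent.R302.MG.Rule
import Claimed.Agent.R302.MG.Bad
import Claimed.Agent.R302.MG.Star

set_option autoImplicit false
set_option linter.unusedSectionVars false

namespace Claimed.Agent.R302

open MeasureTheory Finset Polynomial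
open scoped BigOperators ComplexConjugate ENNReal

noncomputable section

theorem MgApx.mono_eps {p : ℝ[X]} {L ε ε' : ℝ} (h : MgApx p L ε) (hε : ε ≤ ε') : MgApx p L ε' :=
  ⟨fun x hx => (h.sup x hx).trans hε, h.der.trans hε⟩

theorem MgPar.Good.mono {P : MgPar} {r : ℕ} {ε ε' : ℝ} (h : P.Good r ε) (hε : ε ≤ ε') : P.Good r ε' :=
  ⟨h.r_pos, h.t_pos, h.n_pos, h.apx.mono_eps hε, h.rad⟩

universe u v

/-- glue: helper203's (STAR) in the form consumed by `mg_step` / `run_cost` -/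
theorem MgBase.starAt_of_star {X : Type*} [MeasurableSpace X] [DecidableEq X] {D r : ℕ} {B : MgBase X D}
    {μ : Measure X} {K : ℝ} (hB : B.Good μ K) (hr : 0 < r) {t ε3 : ℝ} (ht : 0 < t) (hε3 : 0 < ε3) :
    ∃ n0 : ℝ, 0 < n0 ∧ ∀ n ≥ n0, ∃ ε₀ : ℝ, 0 < ε₀ ∧ ∀ (P : MgPar) (ε₁ : ℝ), P.t = t → P.n = n → ε₁ ≤ ε₀ →
      P.Good2 r ε₁ → MgStarAt r B P μ (2 * n * ε3) := by
  obtain ⟨n0, hn0, H⟩ := MgBase.mgs_star D r hr hB.one_le ht hε3
  refine ⟨n0, hn0, fun n hn => ?_⟩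
  obtain ⟨ε₀, hε₀, H'⟩ := H n hn
  refine ⟨ε₀, hε₀, fun P ε₁ hPt hPn hε hP c hc sel hsel => ?_⟩
  obtain ⟨err, herrm, herr0, herri, herrI, herr⟩ := H' P ε₁ hPt hPn hε hP X B μ hB c hc
  have hS : MeasurableSet {x | c x = none} := hc none
  have hnn : 0 ≤ 2 * n * ε3 := (integral_nonneg herr0).trans herrI
  by_cases hint : IntegrableOn (fun x => B.dibar P c (sel x) x - B.dbar P c x - 24 * B.mbar P c x) {x | c x = none} μ
  · calc ∫ x in {x | c x = none}, (B.dibar P c (sel x) x - B.dbar P c x - 24 * B.mbar P c x) ∂μ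
        ≤ ∫ x in {x | c x = none}, err x ∂μ := by
          refine setIntegral_mono_on hint herri.integrableOn hS fun x hx => ?_
          obtain ⟨i, hi⟩ := herr x hx
          have := hsel x i
          linarith
      _ ≤ ∫ x, err x ∂μ := setIntegral_le_integral herri (Filter.Eventually.of_forall herr0)
      _ ≤ 2 * n * ε3 := herrI
  · rw [integral_undef hint]
    exact hnn

/-- the numerical core of the assembly -/
theorem mgf_num {c κ e3 e1v C T₀ η Nm : ℝ} {A N : ℕ} (hA : 0 < A)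
    (hN1 : T₀ * A ≤ N) (hN2 : (N : ℝ) ≤ (T₀ + 1) * A)
    (hc : 0 ≤ c) (hκ : 0 ≤ κ) (he1v : 0 ≤ e1v) (hC : 0 ≤ C) (he3 : 0 ≤ e3)
    (h1 : c * Real.exp (-T₀) ≤ η / 2)
    (h2 : κ * (Real.exp (24 * (T₀ + 1)) * (T₀ + 1) * e3) ≤ η / 6)
    (h3 : κ * ((Real.exp (24 * (T₀ + 1)) * (1 + 24 * (T₀ + 1)) + Nm + 1) * e1v) ≤ η / 6)
    (h4 : κ * (Real.exp (24 * (T₀ + 1)) * (T₀ + 1) * (C / A)) ≤ η / 6) :
    c * (((A : ℝ) - 1) / A) ^ N +
      κ * ((1 + 24 / (A : ℝ)) ^ N * (e1v + N * ((e3 + 24 * e1v) / A + C / (A : ℝ) ^ 2)) + (Nm + 1) * e1v) ≤ η := by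
  have hA' : (0 : ℝ) < A := by exact_mod_cast hA
  have hA1 : (1 : ℝ) ≤ A := by exact_mod_cast hA
  set E := Real.exp (24 * (T₀ + 1)) with hE
  have hE0 : 0 < E := Real.exp_pos _
  have hNA1 : T₀ ≤ (N : ℝ) / A := by rw [le_div_iff₀ hA']; exact hN1
  have hNA2 : (N : ℝ) / A ≤ T₀ + 1 := by rw [div_le_iff₀ hA']; exact hN2
  -- first factor
  have b1 : (((A : ℝ) - 1) / A) ^ N ≤ Real.exp (-T₀) := by
    have e : ((A : ℝ) - 1) / A = 1 - 1 / A := by field_simp
    have h0 : 0 ≤ 1 - 1 / (A : ℝ) := by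
      rw [sub_nonneg, div_le_one hA']; exact hA1
    calc (((A : ℝ) - 1) / A) ^ N = (1 - 1 / (A : ℝ)) ^ N := by rw [e]
      _ ≤ (Real.exp (-(1 / (A : ℝ)))) ^ N := pow_le_pow_left₀ h0 (Real.one_sub_le_exp_neg _) N
      _ = Real.exp (-((N : ℝ) / A)) := by
          rw [← Real.exp_nat_mul]; congr 1; ring
      _ ≤ Real.exp (-T₀) := Real.exp_le_exp.2 (by linarith)
  have b2 : (1 + 24 / (A : ℝ)) ^ N ≤ E := by
    have h0 : 0 ≤ 1 + 24 / (A : ℝ) := by positivity
    calc (1 + 24 / (A : ℝ)) ^ N ≤ (Real.exp (24 / (A : ℝ))) ^ N :=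
          pow_le_pow_left₀ h0 (by linarith [Real.add_one_le_exp (24 / (A : ℝ))]) N
      _ = Real.exp (24 * ((N : ℝ) / A)) := by
          rw [← Real.exp_nat_mul]; congr 1; ring
      _ ≤ E := Real.exp_le_exp.2 (by linarith)
  have b3 : (N : ℝ) * ((e3 + 24 * e1v) / A + C / (A : ℝ) ^ 2) ≤ (T₀ + 1) * (e3 + 24 * e1v + C / A) := by
    have e : (N : ℝ) * ((e3 + 24 * e1v) / A + C / (A : ℝ) ^ 2) = (N : ℝ) / A * (e3 + 24 * e1v + C / A) := by
      field_simp
    rw [e]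
    exact mul_le_mul_of_nonneg_right hNA2 (by positivity)
  have b3' : 0 ≤ (N : ℝ) * ((e3 + 24 * e1v) / A + C / (A : ℝ) ^ 2) := by positivity
  have b4 : (1 + 24 / (A : ℝ)) ^ N * (e1v + N * ((e3 + 24 * e1v) / A + C / (A : ℝ) ^ 2)) ≤
      E * (e1v + (T₀ + 1) * (e3 + 24 * e1v + C / A)) :=
    mul_le_mul b2 (by linarith) (by linarith) hE0.le
  have b5 : c * (((A : ℝ) - 1) / A) ^ N ≤ η / 2 := (mul_le_mul_of_nonneg_left b1 hc).trans h1
  have b6 : κ * ((1 + 24 / (A : ℝ)) ^ N * (e1v + N * ((e3 + 24 * e1v) / A + C / (A : ℝ) ^ 2)) + (Nm + 1) * e1v) ≤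
      κ * (E * (e1v + (T₀ + 1) * (e3 + 24 * e1v + C / A)) + (Nm + 1) * e1v) :=
    mul_le_mul_of_nonneg_left (by linarith) hκ
  have b7 : κ * (E * (e1v + (T₀ + 1) * (e3 + 24 * e1v + C / A)) + (Nm + 1) * e1v) =
      κ * (E * (T₀ + 1) * e3) + κ * ((E * (1 + 24 * (T₀ + 1)) + Nm + 1) * e1v) + κ * (E * (T₀ + 1) * (C / A)) := by
    ring
  linarith

namespace MgBase

variable {X : Type*} [MeasurableSpace X] [DecidableEq X] {D r : ℕ} [NeZero r] {B : MgBase X D} {μ : Measure X} {K : ℝ}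
  {P : MgPar} {ε₁ : ℝ}

omit [MeasurableSpace X] [NeZero r] in
theorem mgf_badAt_congr (B : MgBase X D) {c c' : X → Option (Fin r)} {m : ℕ} {b : ℝ} {x : X}
    (h : ∀ u ∈ mgBall B.σ m x, c u = c' u) (hb : B.BadAt c m b x) : B.BadAt c' m b x := by
  obtain ⟨ξ, hξ⟩ := hb
  refine ⟨ξ, ?_⟩
  have e : (∑ u ∈ mgBall B.σ m x, ∑ v ∈ mgBall B.σ m x,
      (if c' u = c' v then conj (ξ u) * B.T u v * ξ v else 0)) =
      ∑ u ∈ mgBall B.σ m x, ∑ v ∈ mgBall B.σ m x,
      (if c u = c v then conj (ξ u) * B.T u v * ξ v else 0) :=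
    Finset.sum_congr rfl fun u hu => Finset.sum_congr rfl fun v hv => by rw [h u hu, h v hv]
  rw [e]
  exact hξ

theorem mgf_bad_subset (B : MgBase X D) (P : MgPar) (A N : ℕ) (ℓ : X → MgLab A r N × Fin r) (m : ℕ) (b : ℝ) :
    {x | B.BadAt (fun u => some (B.fin P A N ℓ u)) m b x} ⊆
      (⋃ w ∈ mgWords D m, mgAct B.σ w ⁻¹' {x | B.run P A N (fun u => (ℓ u).1) x = none}) ∪
        B.badSet (B.run P A N fun u => (ℓ u).1) m b := by
  intro x hx
  by_cases h : ∀ u ∈ mgBall B.σ m x, B.run P A N (fun u => (ℓ u).1) u ≠ none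
  · right
    refine ⟨h, mgf_badAt_congr B (fun u hu => ?_) hx⟩
    obtain ⟨i, hi⟩ := Option.ne_none_iff_exists'.1 (h u hu)
    rw [hi, fin_eq_of_run B P A N ℓ hi]
  · left
    push Not at h
    obtain ⟨u, hu, hnone⟩ := h
    obtain ⟨w, hw, rfl⟩ := mem_mgBall.1 hu
    exact Set.mem_iUnion₂.2 ⟨w, mem_mgWords.2 hw, hnone⟩

theorem mgf_bad_measure_le (hB : B.Good μ K) (P : MgPar) (A N : ℕ) (ℓ : X → MgLab A r N × Fin r)
    (hc : MgMeasC (B.run P A N fun u => (ℓ u).1)) (m : ℕ) (b : ℝ) :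
    (μ {x | B.BadAt (fun u => some (B.fin P A N ℓ u)) m b x}).toReal ≤
      ((mgWords D m).card : ℝ) * K ^ m * (μ {x | B.run P A N (fun u => (ℓ u).1) x = none}).toReal +
        (μ (B.badSet (B.run P A N fun u => (ℓ u).1) m b)).toReal := by
  have := hB.prob
  have hK0 : 0 < K := lt_of_lt_of_le one_pos hB.one_le
  set S : Set X := {x | B.run P A N (fun u => (ℓ u).1) x = none} with hS
  have hSm : MeasurableSet S := hc none
  have h1 : μ.real {x | B.BadAt (fun u => some (B.fin P A N ℓ u)) m b x} ≤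
      μ.real (⋃ w ∈ mgWords D m, mgAct B.σ w ⁻¹' S) + μ.real (B.badSet (B.run P A N fun u => (ℓ u).1) m b) :=
    (measureReal_mono (mgf_bad_subset B P A N ℓ m b)).trans (measureReal_union_le _ _)
  have h2 : μ.real (⋃ w ∈ mgWords D m, mgAct B.σ w ⁻¹' S) ≤ ∑ w ∈ mgWords D m, μ.real (mgAct B.σ w ⁻¹' S) :=
    measureReal_biUnion_finset_le _ _
  have h3 : ∀ w ∈ mgWords D m, μ.real (mgAct B.σ w ⁻¹' S) ≤ K ^ m * μ.real S := by
    intro w hw
    have h4 := ENNReal.toReal_mono (by finiteness) (measure_preimage_act_le hB w hSm)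
    rw [ENNReal.toReal_mul, ENNReal.toReal_ofReal (by positivity)] at h4
    refine h4.trans (mul_le_mul_of_nonneg_right ?_ ENNReal.toReal_nonneg)
    exact pow_le_pow_right₀ hB.one_le (mem_mgWords.1 hw)
  have h5 : ∑ w ∈ mgWords D m, μ.real (mgAct B.σ w ⁻¹' S) ≤ ((mgWords D m).card : ℝ) * (K ^ m * μ.real S) := by
    rw [← nsmul_eq_mul]
    exact Finset.sum_le_card_nsmul _ _ _ h3
  have h6 : ((mgWords D m).card : ℝ) * K ^ m * (μ S).toReal = ((mgWords D m).card : ℝ) * (K ^ m * μ.real S) := by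
    rw [mul_assoc]; rfl
  rw [h6]
  have h7 : (μ (B.badSet (B.run P A N fun u => (ℓ u).1) m b)).toReal =
      μ.real (B.badSet (B.run P A N fun u => (ℓ u).1) m b) := rfl
  rw [h7]
  exact h1.trans (by linarith)

section Av

variable {ι : Type*} [Fintype ι] [DecidableEq ι] {cell : X → ι}

theorem mgf_sum_none (hB : B.Good μ K) (hP : P.Good r ε₁) (hcell : ∀ i, MeasurableSet (cell ⁻¹' {i}))
    {A : ℕ} (hA : 0 < A) (j : ℕ) :
    ∑ z : ι → MgLab A r j, (μ {x | B.run P A j (fun u => z (cell u)) x = none}).toReal =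
      (((A : ℝ) - 1) / A) ^ j * (Fintype.card (ι → MgLab A r j) : ℝ) := by
  have := hB.prob
  have hA' : (0 : ℝ) < A := by exact_mod_cast hA
  have hm : ∀ z : ι → MgLab A r j, MeasurableSet {x | B.run P A j (fun u => z (cell u)) x = none} :=
    fun z => measC_run hB hP A j hcell z none
  have h1 : ∀ z : ι → MgLab A r j, (μ {x | B.run P A j (fun u => z (cell u)) x = none}).toReal =
      ∫ x, Set.indicator {x | B.run P A j (fun u => z (cell u)) x = none} (1 : X → ℝ) x ∂μ :=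
    fun z => (integral_indicator_one (hm z)).symm
  rw [Finset.sum_congr rfl (fun z _ => h1 z),
    ← integral_finsetSum _ (fun z _ => by
      have : Integrable (1 : X → ℝ) μ := integrable_const (1 : ℝ)
      exact this.indicator (hm z))]
  have h2 : ∀ x, ∑ z : ι → MgLab A r j,
      Set.indicator {x | B.run P A j (fun u => z (cell u)) x = none} (1 : X → ℝ) x =
      (((A : ℝ) - 1) / A) ^ j * (Fintype.card (ι → MgLab A r j) : ℝ) := by
    intro x
    have h3 := run_none_card (r := r) (ι := ι) (cell := cell) B P hA j x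
    have h4 : ∑ z : ι → MgLab A r j,
        Set.indicator {x | B.run P A j (fun u => z (cell u)) x = none} (1 : X → ℝ) x =
        ((Finset.univ.filter fun z : ι → MgLab A r j => B.run P A j (fun u => z (cell u)) x = none).card : ℝ) := by
      rw [Finset.card_filter]
      push_cast
      refine Finset.sum_congr rfl fun z _ => ?_
      simp [Set.indicator_apply]
    have h5 : ((A - 1 : ℕ) : ℝ) = (A : ℝ) - 1 := by
      rw [Nat.cast_sub hA]; simp
    have h6 := congrArg (Nat.cast : ℕ → ℝ) h3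
    rw [Nat.cast_mul, Nat.cast_mul, Nat.cast_pow, Nat.cast_pow, h5] at h6
    rw [h4, div_pow, div_mul_eq_mul_div, eq_div_iff (by positivity)]
    linarith
  rw [integral_congr_ae (Filter.Eventually.of_forall h2), integral_const]
  simp

theorem mgf_sum_bad (hB : B.Good μ K) (hP : P.Good r ε₁) (ht : 3 / Real.sqrt r < P.t)
    (hcell : ∀ i, MeasurableSet (cell ⁻¹' {i})) (hsep : MgSeparates B.σ cell P.p.natDegree) {A : ℕ} (hA : 0 < A)
    {e₃ : ℝ} (he₃ : 0 ≤ e₃) (hstar : MgStarAt r B P μ e₃) {m : ℕ} (hm : 2 * m ≤ P.ρ)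
    (hn : 2 * m * Real.log K ≤ P.n) {α : ℝ} (hα : 0 < α) (N : ℕ) :
    ∑ z : ι → MgLab A r N, (μ (B.badSet (B.run P A N fun u => z (cell u)) m (160 * P.t + α))).toReal ≤
      2 * K ^ m * (mgNcol D (2 * m + 1) : ℝ) / (α * P.n) *
        ((1 + 24 / (A : ℝ)) ^ N * (ε₁ * P.vol + N * P.err D A ε₁ e₃) + (((mgWords D m).card : ℝ) + 1) * (ε₁ * P.vol)) *
        (Fintype.card (ι → MgLab A r N) : ℝ) := by
  have hK0 : 0 < K := lt_of_lt_of_le one_pos hB.one_le
  have hlogK : 0 ≤ Real.log K := Real.log_nonneg hB.one_le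
  have hn0 : 0 < P.n := hP.n_pos
  have hmK : 0 ≤ (m : ℝ) * Real.log K := mul_nonneg (Nat.cast_nonneg m) hlogK
  have hC := ctx_good hB hP
  set q : ℝ := (mgNcol D (2 * m + 1) : ℝ) with hq
  set Nm : ℝ := ((mgWords D m).card : ℝ) with hNm
  have hKm : 0 < K ^ m := pow_pos hK0 m
  have hz : ∀ z : ι → MgLab A r N,
      (μ (B.badSet (B.run P A N fun u => z (cell u)) m (160 * P.t + α))).toReal ≤
        2 * K ^ m * q / (α * P.n) * (B.cost P μ (B.run P A N fun u => z (cell u)) + (Nm + 1) * (ε₁ * P.vol)) := by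
    intro z
    have h1 := bad_measure_le hB hC (measC_run hB hP A N hcell z) hm (by linarith) hα
    set M : ℝ := (μ (B.badSet (B.run P A N fun u => z (cell u)) m (160 * P.t + α))).toReal with hM
    have hM0 : 0 ≤ M := ENNReal.toReal_nonneg
    have h2 : α / 2 * (K ^ m)⁻¹ * P.n * M ≤ α / 2 * (K ^ m)⁻¹ * (2 * P.n - 2 * m * Real.log K) * M := by
      refine mul_le_mul_of_nonneg_right (mul_le_mul_of_nonneg_left (by linarith) (by positivity)) hM0
    have h3 := h2.trans h1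
    have h4 : M = 2 * K ^ m / (α * P.n) * (α / 2 * (K ^ m)⁻¹ * P.n * M) := by
      field_simp
    rw [h4]
    calc 2 * K ^ m / (α * P.n) * (α / 2 * (K ^ m)⁻¹ * P.n * M)
        ≤ 2 * K ^ m / (α * P.n) * (q * (B.cost P μ (B.run P A N fun u => z (cell u)) +
            (Nm + 1) * ε₁ * (Real.exp P.n - Real.exp (-P.n)))) :=
          mul_le_mul_of_nonneg_left h3 (by positivity)
      _ = 2 * K ^ m * q / (α * P.n) * (B.cost P μ (B.run P A N fun u => z (cell u)) + (Nm + 1) * (ε₁ * P.vol)) := by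
          unfold MgPar.vol; ring
  have hcost := run_cost hB hP ht hcell hsep hA he₃ hstar N
  have hκ : 0 ≤ 2 * K ^ m * q / (α * P.n) := by positivity
  calc ∑ z : ι → MgLab A r N, (μ (B.badSet (B.run P A N fun u => z (cell u)) m (160 * P.t + α))).toReal
      ≤ ∑ z : ι → MgLab A r N, 2 * K ^ m * q / (α * P.n) *
          (B.cost P μ (B.run P A N fun u => z (cell u)) + (Nm + 1) * (ε₁ * P.vol)) :=
        Finset.sum_le_sum fun z _ => hz z
    _ = 2 * K ^ m * q / (α * P.n) * ((∑ z : ι → MgLab A r N, B.cost P μ (B.run P A N fun u => z (cell u))) +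
          (Fintype.card (ι → MgLab A r N) : ℝ) * ((Nm + 1) * (ε₁ * P.vol))) := by
        rw [← Finset.mul_sum, Finset.sum_add_distrib, Finset.sum_const, Finset.card_univ, nsmul_eq_mul]
    _ ≤ 2 * K ^ m * q / (α * P.n) * ((Fintype.card (ι → MgLab A r N) : ℝ) *
          ((1 + 24 / A) ^ N * (ε₁ * P.vol + N * P.err D A ε₁ e₃)) +
          (Fintype.card (ι → MgLab A r N) : ℝ) * ((Nm + 1) * (ε₁ * P.vol))) :=
        mul_le_mul_of_nonneg_left (by linarith) hκ
    _ = _ := by ring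

end Av

end MgBase

/-- THEOREM 6.1 of Q, plain data form. -/
theorem mg_main {X : Type u} [MeasurableSpace X] [DecidableEq X] {D r : ℕ} [NeZero r] {B : MgBase X D}
    {μ : Measure X} {K t : ℝ} (hB : B.Good μ K) (ht : 3 / Real.sqrt r < t)
    (m : ℕ) {α η : ℝ} (hα : 0 < α) (hη : 0 < η) :
    ∃ (P : MgPar) (ε₁ : ℝ) (a' N : ℕ), P.t = t ∧ P.Good r ε₁ ∧
      ∀ (ι : Type v) [Fintype ι] [DecidableEq ι] (cell : X → ι), (∀ i, MeasurableSet (cell ⁻¹' {i})) →
        MgSeparates B.σ cell P.p.natDegree →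
        ∑ z : ι → MgLab (2 ^ a') r N × Fin r,
          (μ {x | B.BadAt (fun u => some (B.fin P (2 ^ a') N (fun v => z (cell v)) u)) m (160 * t + α) x}).toReal ≤
            η * (Fintype.card (ι → MgLab (2 ^ a') r N × Fin r) : ℝ) := by
  have hr : 0 < r := Nat.pos_of_ne_zero (NeZero.ne r)
  have ht0 : 0 < t := lt_of_le_of_lt (by positivity) ht
  have hK1 := hB.one_le
  have hK0 : 0 < K := by linarith
  have hKm : 0 < K ^ m := pow_pos hK0 m
  set Nm : ℝ := ((mgWords D m).card : ℝ) with hNm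
  set q : ℝ := (mgNcol D (2 * m + 1) : ℝ) with hq
  have hNm0 : 0 ≤ Nm := Nat.cast_nonneg _
  have hq0 : 0 < q := by
    rw [hq]; unfold mgNcol; positivity
  set c : ℝ := Nm * K ^ m with hc
  have hc0 : 0 ≤ c := by positivity
  set T₀ : ℝ := 2 * c / η with hT₀
  have hT₀0 : 0 ≤ T₀ := by positivity
  have h1 : c * Real.exp (-T₀) ≤ η / 2 := by
    have e1 : T₀ + 1 ≤ Real.exp T₀ := Real.add_one_le_exp T₀
    have e2 : Real.exp (-T₀) ≤ 1 / (T₀ + 1) := by
      rw [Real.exp_neg, ← one_div]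
      exact one_div_le_one_div_of_le (by linarith) e1
    calc c * Real.exp (-T₀) ≤ c * (1 / (T₀ + 1)) := mul_le_mul_of_nonneg_left e2 hc0
      _ ≤ η / 2 := by
        rw [mul_one_div, div_le_iff₀ (by linarith)]
        have h5 : η / 2 * T₀ = c := by rw [hT₀]; field_simp
        have h6 : η / 2 * (T₀ + 1) = c + η / 2 := by rw [mul_add, h5, mul_one]
        rw [h6]
        linarith only [hη]
  set E : ℝ := Real.exp (24 * (T₀ + 1)) with hE
  have hE0 : 0 < E := Real.exp_pos _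
  set M3 : ℝ := 4 * K ^ m * q / α * (E * (T₀ + 1)) with hM3
  have hM30 : 0 < M3 := by positivity
  set ε3 : ℝ := η / (6 * M3) with hε3d
  have hε3 : 0 < ε3 := by positivity
  obtain ⟨n0, hn0, H⟩ := MgBase.starAt_of_star hB hr ht0 hε3
  set n : ℝ := max n0 (max (2 * m * Real.log K) 1) with hn
  have hn_n0 : n0 ≤ n := le_max_left _ _
  have hn_m : 2 * m * Real.log K ≤ n := (le_max_left _ _).trans (le_max_right _ _)
  have hn1 : 1 ≤ n := (le_max_right _ _).trans (le_max_right _ _)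
  have hn00 : 0 < n := by linarith
  obtain ⟨ε₀, hε₀, H'⟩ := H n hn_n0
  set vol : ℝ := Real.exp n - Real.exp (-n) with hvol
  have hvol0 : 0 < vol := by
    have : Real.exp (-n) < Real.exp n := Real.exp_lt_exp.2 (by linarith)
    linarith
  set κ : ℝ := 2 * K ^ m * q / (α * n) with hκ
  have hκ0 : 0 < κ := by positivity
  set M1 : ℝ := κ * ((E * (1 + 24 * (T₀ + 1)) + Nm + 1) * vol) with hM1
  have hM10 : 0 < M1 := by positivity
  set ε₁ : ℝ := min ε₀ (η / (6 * M1)) with hε₁d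
  have hε₁ : 0 < ε₁ := lt_min hε₀ (by positivity)
  obtain ⟨p, hp⟩ := mg_exists_apx (L := (1 + 80 * t) * Real.exp (2 * n + 1)) (by positivity) hε₁
  set P : MgPar := ⟨t, max (2 * p.natDegree + 1) (2 * m), p, n⟩ with hPd
  have hP2 : P.Good2 r ε₁ := ⟨hr, ht0, hn00, hp, le_max_left _ _⟩
  have hP : P.Good r ε₁ := hP2.good
  have hstar : MgStarAt r B P μ (2 * n * ε3) := H' P ε₁ rfl rfl (min_le_left _ _) hP2
  have hPvol : P.vol = vol := rfl
  set Nk : ℝ := ((mgWords D P.p.natDegree).card : ℝ) with hNk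
  have hbd : 0 ≤ P.bd ε₁ := by
    unfold MgPar.bd
    have : 0 < P.t := ht0
    positivity
  set C : ℝ := 2 * P.bd ε₁ * (1 + Nk) * Nk ^ 2 * vol with hC
  have hC0 : 0 ≤ C := by positivity
  obtain ⟨a', ha'⟩ := pow_unbounded_of_one_lt (6 * (κ * (E * (T₀ + 1) * C)) / η) (one_lt_two (α := ℝ))
  refine ⟨P, ε₁, a', ⌈T₀ * (2 : ℝ) ^ a'⌉₊, rfl, hP, ?_⟩
  intro ι _ _ cell hcell hsep
  set A : ℕ := 2 ^ a' with hA
  have hAcast : (A : ℝ) = (2 : ℝ) ^ a' := by rw [hA]; push_cast; rfl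
  rw [← hAcast] at ha' ⊢
  set N : ℕ := ⌈T₀ * (A : ℝ)⌉₊ with hN
  have hApos : 0 < A := by rw [hA]; positivity
  have hA' : (0 : ℝ) < A := by exact_mod_cast hApos
  have hA1 : (1 : ℝ) ≤ A := by exact_mod_cast hApos
  have hN1 : T₀ * A ≤ N := Nat.le_ceil _
  have hN2 : (N : ℝ) ≤ (T₀ + 1) * A := by
    have h5 := (Nat.ceil_lt_add_one (by positivity : 0 ≤ T₀ * (A : ℝ))).le
    have h6 : (T₀ + 1) * (A : ℝ) = T₀ * A + A := by ring
    rw [h6]
    exact h5.trans (by linarith only [hA1])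
  have h2 : κ * (E * (T₀ + 1) * (2 * n * ε3)) ≤ η / 6 := by
    have e1 : κ * (E * (T₀ + 1) * (2 * n * ε3)) = M3 * ε3 := by
      rw [hκ, hM3]; field_simp; ring
    rw [e1, hε3d]
    apply le_of_eq
    field_simp
  have h3 : κ * ((E * (1 + 24 * (T₀ + 1)) + Nm + 1) * (ε₁ * vol)) ≤ η / 6 := by
    have e1 : κ * ((E * (1 + 24 * (T₀ + 1)) + Nm + 1) * (ε₁ * vol)) = M1 * ε₁ := by
      rw [hM1]; ring
    rw [e1]
    calc M1 * ε₁ ≤ M1 * (η / (6 * M1)) := mul_le_mul_of_nonneg_left (min_le_right _ _) hM10.le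
      _ = η / 6 := by field_simp
  have h4 : κ * (E * (T₀ + 1) * (C / A)) ≤ η / 6 := by
    have e1 : κ * (E * (T₀ + 1) * (C / A)) = κ * (E * (T₀ + 1) * C) / A := by ring
    rw [e1, div_le_iff₀ hA']
    rw [div_lt_iff₀ hη] at ha'
    linarith
  have hnum := mgf_num (c := c) (κ := κ) (e3 := 2 * n * ε3) (e1v := ε₁ * vol) (C := C) (T₀ := T₀) (η := η)
    (Nm := Nm) (A := A) (N := N) hApos hN1 hN2 hc0 hκ0.le (by positivity) hC0 (by positivity) h1 h2 h3 h4
  have herr : P.err D A ε₁ (2 * n * ε3) = (2 * n * ε3 + 24 * (ε₁ * vol)) / A + C / (A : ℝ) ^ 2 := by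
    unfold MgPar.err
    rw [hPvol, hC, hNk]
    ring
  have hnone := MgBase.mgf_sum_none (ι := ι) (cell := cell) hB hP hcell hApos N
  have hbad := MgBase.mgf_sum_bad (ι := ι) (cell := cell) hB hP ht hcell hsep hApos (e₃ := 2 * n * ε3)
    (by positivity) hstar (m := m) (le_max_right _ _) hn_m hα N
  rw [herr, hPvol] at hbad
  have hterm : ∀ (z₁ : ι → MgLab A r N) (z₂ : ι → Fin r),
      (μ {x | B.BadAt (fun u => some (B.fin P A N (fun v => (fun e => (z₁ e, z₂ e)) (cell v)) u)) m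
        (160 * t + α) x}).toReal ≤
      Nm * K ^ m * (μ {x | B.run P A N (fun u => z₁ (cell u)) x = none}).toReal +
        (μ (B.badSet (B.run P A N fun u => z₁ (cell u)) m (160 * t + α))).toReal :=
    fun z₁ z₂ => MgBase.mgf_bad_measure_le hB P A N (fun v => (z₁ (cell v), z₂ (cell v)))
      (MgBase.measC_run hB hP A N hcell z₁) m _
  have hcard : (Fintype.card (ι → MgLab A r N × Fin r) : ℝ) =
      (Fintype.card (ι → Fin r) : ℝ) * (Fintype.card (ι → MgLab A r N) : ℝ) := by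
    rw [← Nat.cast_mul]
    congr 1
    simp only [Fintype.card_fun, Fintype.card_prod, mul_pow]
    ring
  rw [mg_sum_prod_labels, hcard]
  calc ∑ z₁ : ι → MgLab A r N, ∑ z₂ : ι → Fin r,
        (μ {x | B.BadAt (fun u => some (B.fin P A N (fun v => (fun e => (z₁ e, z₂ e)) (cell v)) u)) m
          (160 * t + α) x}).toReal
      ≤ ∑ z₁ : ι → MgLab A r N, ∑ _z₂ : ι → Fin r,
        (Nm * K ^ m * (μ {x | B.run P A N (fun u => z₁ (cell u)) x = none}).toReal +
          (μ (B.badSet (B.run P A N fun u => z₁ (cell u)) m (160 * t + α))).toReal) :=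
        Finset.sum_le_sum fun z₁ _ => Finset.sum_le_sum fun z₂ _ => hterm z₁ z₂
    _ = (Fintype.card (ι → Fin r) : ℝ) *
        (c * ∑ z₁ : ι → MgLab A r N, (μ {x | B.run P A N (fun u => z₁ (cell u)) x = none}).toReal +
          ∑ z₁ : ι → MgLab A r N, (μ (B.badSet (B.run P A N fun u => z₁ (cell u)) m (160 * t + α))).toReal) := by
        simp only [Finset.sum_const, Finset.card_univ, nsmul_eq_mul]
        rw [← Finset.mul_sum, Finset.sum_add_distrib, ← Finset.mul_sum]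
    _ ≤ (Fintype.card (ι → Fin r) : ℝ) *
        (c * ((((A : ℝ) - 1) / A) ^ N * (Fintype.card (ι → MgLab A r N) : ℝ)) +
          κ * ((1 + 24 / (A : ℝ)) ^ N * (ε₁ * vol + N * ((2 * n * ε3 + 24 * (ε₁ * vol)) / A + C / (A : ℝ) ^ 2)) +
            (Nm + 1) * (ε₁ * vol)) * (Fintype.card (ι → MgLab A r N) : ℝ)) := by
        refine mul_le_mul_of_nonneg_left ?_ (Nat.cast_nonneg _)
        rw [hnone]
        exact add_le_add le_rfl hbad
    _ = (Fintype.card (ι → Fin r) : ℝ) * (Fintype.card (ι → MgLab A r N) : ℝ) *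
        (c * (((A : ℝ) - 1) / A) ^ N +
          κ * ((1 + 24 / (A : ℝ)) ^ N * (ε₁ * vol + N * ((2 * n * ε3 + 24 * (ε₁ * vol)) / A + C / (A : ℝ) ^ 2)) +
            (Nm + 1) * (ε₁ * vol))) := by ring
    _ ≤ (Fintype.card (ι → Fin r) : ℝ) * (Fintype.card (ι → MgLab A r N) : ℝ) * η :=
        mul_le_mul_of_nonneg_left hnum (by positivity)
    _ = η * ((Fintype.card (ι → Fin r) : ℝ) * (Fintype.card (ι → MgLab A r N) : ℝ)) := by ring

end

end Claimed.Agent.R302
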