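/-
R302 / MG / Adapter   (skeleton: helper244; proofs: helper234)   LEAVES "MG-Adapter-base" (section Base), "MG-Adapter-rule" (section Rule + mg_colTheorem)
From the plain data theorem `mg_main` to helper234's interface `ColTheorem` (Real/Iface.lean).

* Base: a bundled system `S : MgSys d` with ROOTED kernels `S.T x u v` gives plain base data `S.base = ⟨S.θ, S.Δ, S.Tg⟩` with the GLOBAL kernel
  `Tg u v = S.T (rootOf u) u v`, `rootOf u` = a chosen point of the orbit of `u` (constant on orbits; `Classical.epsilon` of the orbit predicate).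
  `herm`: same orbit ⇒ same root; different orbits ⇒ both entries vanish (`supp`).  `contr`: split a finite set into orbit classes (kernel block diagonal), use `S.Good.contr` with the root of the class.
  `gauge`: `τ w w' x = S.T x (w x) (w' x)` (measurable by `S.Good.meas`); `x = act k (rootOf x)`, so `S.Good.gauge (rootOf x) k` gives the phases.
  `rn`: `Δ_spec` says `μ = (μ.withDensity Δ_j).map θ_j` on measurable sets; extend to `∫⁻`.
* Rule: labels `Fin L → Bool ≃ MgLab (2^a') r N × Fin r` (equal cardinalities `2^L`, `L = (a' + a) N + a`, `mg_card_lab`).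
  `ruleOf x lab = fin (label field read off from lab along the CANONICAL representative words of the R-ball of x) x`, `R := max (2 k N) k`.
  measurable in `x` by `meas_fin_fam` (`mg_measurableSet_isRep`, `mg_measurableSet_eq`);  `colOf = fin (e ∘ z ∘ cell)` by `fin_congr`;
  marginals by `fin_marginal` (transport the count along `e`);  `¬ BallOK ⟹ BadAt` (take `F`, extend `ξ` by zero, change the gauge from the root `x` to the global kernel).
-/
import Claimed.Agent.R302.MG.Final
import Claimed.Agent.R302.Real.Iface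

set_option autoImplicit false
set_option linter.unusedSectionVars false

namespace Claimed.Agent.R302

open MeasureTheory Finset Polynomial
open scoped BigOperators ComplexConjugate ENNReal

noncomputable section

universe u v

namespace MgSys

variable {d : ℕ} (S : MgSys.{u} d)

section Base

/-- a chosen point of the orbit of `u`, the same for all points of the orbit -/
def rootOf (u : S.X) : S.X := @Classical.epsilon S.X ⟨u⟩ fun v => ∃ g, v = S.act g u

/-- the global kernel -/
def Tg (u v : S.X) : ℂ := S.T (S.rootOf u) u v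

/-- plain base data -/
def base : MgBase S.X d := ⟨S.θ, S.Δ, S.Tg⟩

theorem mgAct_eq (g : List (Fin d)) (x : S.X) : mgAct S.θ g x = S.act g x := by
  induction g with
  | nil => rfl
  | cons j g ih => rw [mgAct, ih, S.act_cons]

theorem act_reverse_act (g : List (Fin d)) (x : S.X) : S.act g.reverse (S.act g x) = x := by
  rw [← S.mgAct_eq, ← S.mgAct_eq]
  exact mgAct_reverse S.θ_invol g x

theorem act_act_reverse (g : List (Fin d)) (x : S.X) : S.act g (S.act g.reverse x) = x := by
  have := S.act_reverse_act g.reverse x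
  rwa [List.reverse_reverse] at this

theorem rootOf_spec (u : S.X) : ∃ g, S.rootOf u = S.act g u :=
  @Classical.epsilon_spec S.X (fun v => ∃ g, v = S.act g u) ⟨u, [], rfl⟩

theorem rootOf_act (g : List (Fin d)) (u : S.X) : S.rootOf (S.act g u) = S.rootOf u := by
  unfold rootOf
  congr 1
  funext v
  apply propext
  constructor
  · rintro ⟨g', rfl⟩
    exact ⟨g' ++ g, (S.act_append g' g u).symm⟩
  · rintro ⟨g', rfl⟩
    exact ⟨g' ++ g.reverse, by rw [S.act_append, S.act_reverse_act]⟩

theorem coc_eq (g : List (Fin d)) (x : S.X) : S.base.coc g x = S.cocy g x := by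
  induction g with
  | nil => rfl
  | cons j g ih =>
    rw [MgBase.coc, ih, S.cocy_cons]
    show S.Δ j (mgAct S.θ g x) * _ = _
    rw [S.mgAct_eq]

/-- the global kernel in the gauge of an arbitrary root of the orbit -/
theorem Tg_gauge {K : ℝ} (h : S.Good K) (x : S.X) : ∃ ζ : S.X → ℂ, (∀ u, ‖ζ u‖ = 1) ∧
    ∀ g g' : List (Fin d), S.T x (S.act g x) (S.act g' x) =
      ζ (S.act g x) * S.Tg (S.act g x) (S.act g' x) * conj (ζ (S.act g' x)) := by
  obtain ⟨k, hk⟩ := S.rootOf_spec x
  obtain ⟨ζ, h1, h2⟩ := h.gauge (S.rootOf x) k.reverse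
  refine ⟨ζ, h1, fun g g' => ?_⟩
  have hx : S.act k.reverse (S.rootOf x) = x := by rw [hk, S.act_reverse_act]
  rw [hx] at h2
  rw [h2, Tg, S.rootOf_act]

theorem rootOf_eq_of_T_ne {K : ℝ} (h : S.Good K) {x u v : S.X} (hne : S.T x u v ≠ 0) :
    S.rootOf u = S.rootOf v := by
  obtain ⟨⟨-, j, rfl⟩, -⟩ := h.supp x u v hne
  exact S.rootOf_act [j] v

theorem Tg_eq_zero_of_root_ne {K : ℝ} (h : S.Good K) {u v : S.X} (hne : S.rootOf u ≠ S.rootOf v) :
    S.Tg u v = 0 := by
  by_contra h0
  exact hne (S.rootOf_eq_of_T_ne h h0)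

theorem Tg_herm {K : ℝ} (h : S.Good K) (u v : S.X) : S.Tg u v = conj (S.Tg v u) := by
  by_cases hr : S.rootOf u = S.rootOf v
  · rw [Tg, Tg, ← hr]; exact h.herm _ u v
  · rw [S.Tg_eq_zero_of_root_ne h hr, S.Tg_eq_zero_of_root_ne h (Ne.symm hr), map_zero]

theorem Tg_contr {K : ℝ} (h : S.Good K) (F : Finset S.X) (x : S.X → ℂ) :
    ‖∑ u ∈ F, ∑ v ∈ F, conj (x u) * S.Tg u v * x v‖ ≤ ∑ u ∈ F, ‖x u‖ ^ 2 := by
  classical
  have h1 : ∑ u ∈ F, ∑ v ∈ F, conj (x u) * S.Tg u v * x v =
      ∑ ρ ∈ F.image S.rootOf, ∑ u ∈ F.filter (fun u => S.rootOf u = ρ),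
        ∑ v ∈ F.filter (fun v => S.rootOf v = ρ), conj (x u) * S.T ρ u v * x v := by
    rw [← Finset.sum_fiberwise_of_maps_to (g := S.rootOf) (t := F.image S.rootOf)
      (fun u hu => Finset.mem_image_of_mem _ hu)]
    refine Finset.sum_congr rfl fun ρ _ => Finset.sum_congr rfl fun u hu => ?_
    have hρ : S.rootOf u = ρ := (Finset.mem_filter.1 hu).2
    rw [Finset.sum_filter]
    refine Finset.sum_congr rfl fun v _ => ?_
    split_ifs with hv
    · rw [Tg, hρ]
    · rw [S.Tg_eq_zero_of_root_ne h (by rw [hρ]; exact Ne.symm hv)]; simp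
  have h2 : ∑ u ∈ F, ‖x u‖ ^ 2 =
      ∑ ρ ∈ F.image S.rootOf, ∑ u ∈ F.filter (fun u => S.rootOf u = ρ), ‖x u‖ ^ 2 :=
    (Finset.sum_fiberwise_of_maps_to (g := S.rootOf) (t := F.image S.rootOf)
      (fun u hu => Finset.mem_image_of_mem _ hu) _).symm
  rw [h1, h2]
  exact (norm_sum_le _ _).trans (Finset.sum_le_sum fun ρ _ => h.contr ρ _ x)

theorem integrable_Δ {K : ℝ} (h : S.Good K) (j : Fin d) : Integrable (S.Δ j) S.μ := by
  have := S.prob
  refine Integrable.of_bound (S.Δ_meas j).aestronglyMeasurable K (Filter.Eventually.of_forall fun x => ?_)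
  rw [Real.norm_eq_abs, abs_of_pos (S.Δ_pos j x)]
  exact h.Δ_le j x

theorem map_withDensity_eq {K : ℝ} (h : S.Good K) (j : Fin d) :
    (S.μ.withDensity fun x => ENNReal.ofReal (S.Δ j x)).map (S.θ j) = S.μ := by
  have := S.prob
  refine Measure.ext fun s hs => ?_
  have hs' : MeasurableSet (S.θ j ⁻¹' s) := S.θ_meas j hs
  rw [Measure.map_apply (S.θ_meas j) hs, withDensity_apply _ hs',
    ← ofReal_integral_eq_lintegral_ofReal (S.integrable_Δ h j).integrableOn
      (Filter.Eventually.of_forall fun x => (S.Δ_pos j x).le), ← integral_indicator hs',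
    ← S.Δ_spec j s hs, ENNReal.ofReal_toReal (measure_ne_top _ _)]

theorem base_rn {K : ℝ} (h : S.Good K) (j : Fin d) (g : S.X → ℝ≥0∞) (hg : Measurable g) :
    ∫⁻ x, g (S.θ j x) * ENNReal.ofReal (S.Δ j x) ∂S.μ = ∫⁻ x, g x ∂S.μ := by
  conv_rhs => rw [← S.map_withDensity_eq h j]
  have key := lintegral_withDensity_eq_lintegral_mul S.μ (S.Δ_meas j).ennreal_ofReal
    (hg.comp (S.θ_meas j))
  rw [lintegral_map hg (S.θ_meas j)]
  refine Eq.trans ?_ key.symm
  refine lintegral_congr fun x => ?_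
  simp only [Pi.mul_apply, Function.comp]
  rw [mul_comm]

theorem base_good {K : ℝ} (hK : 1 ≤ K) (h : S.Good K) : S.base.Good S.μ K where
  prob := S.prob
  inv :=
    { invol := S.θ_invol
      meas := S.θ_meas
      sep := fun w => by
        obtain ⟨E, h1, h2, h3⟩ := h.sep w
        refine ⟨E, h1, fun y hy => h2 y ?_, fun i y hy => ?_⟩
        · rwa [← S.mgAct_eq]
        · show mgAct S.θ w y ∉ E i
          rw [S.mgAct_eq]; exact h3 i y hy }
  ker :=
    { herm := S.Tg_herm h
      zdiag := fun v => h.zdiag _ v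
      contr := S.Tg_contr h
      supp := fun u v huv => by
        obtain ⟨⟨-, j, rfl⟩, -⟩ := h.supp _ u v huv
        exact ⟨j, S.θ_invol j v⟩
      gauge := by
        choose ζ hζ1 hζ2 using S.Tg_gauge h
        refine ⟨fun w w' y => S.T y (S.act w y) (S.act w' y), fun w y => ζ y (S.act w y),
          fun w w' => h.meas w w', fun w y => hζ1 y _, fun w w' y => ?_⟩
        show _ = _ * S.Tg (mgAct S.θ w y) (mgAct S.θ w' y) * _
        rw [S.mgAct_eq, S.mgAct_eq]
        exact hζ2 y w w' }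
  one_le := hK
  δ_meas := S.Δ_meas
  δ_lo := h.Δ_ge
  δ_hi := h.Δ_le
  rn := S.base_rn h
  coh := fun w w' x hx => by
    rw [S.coc_eq, S.coc_eq]
    apply h.cocy_eq
    rw [← S.mgAct_eq, ← S.mgAct_eq]
    exact hx

/-- a good system has `1 ≤ K` as soon as `d > 0`; for `d = 0` replace `K` by `max K 1` -/
theorem good_max {K : ℝ} (h : S.Good K) : S.Good (max K 1) :=
  { h with
    Δ_le := fun j x => (h.Δ_le j x).trans (le_max_left _ _)
    Δ_ge := fun j x => by
      have hK : 0 < K := (S.Δ_pos j x).trans_le (h.Δ_le j x)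
      exact (inv_anti₀ hK (le_max_left _ _)).trans (h.Δ_ge j x) }

end Base

section Rule

variable {r : ℕ} [NeZero r]

open Classical in
/-- the label field around `x` read off from a labelling of the words (canonical representatives) -/
def labAt {R L : ℕ} (x : S.X) (lab : Wd d R → Fin L → Bool) (u : S.X) : Fin L → Bool :=
  if h : ∃ g : Wd d R, mgIsRep S.θ R x g.1 ∧ S.act g.1 x = u then lab (Classical.choose h) else fun _ => false

open Classical in
/-- the rule attached to the algorithm -/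
def ruleOf (P : MgPar) (A N : ℕ) {R L : ℕ} (e : (Fin L → Bool) ≃ MgLab A r N × Fin r) (x : S.X)
    (lab : Wd d R → Fin L → Bool) : Fin r :=
  S.base.fin P A N (fun u => e (S.labAt x lab u)) x

open Classical in
theorem mem_ball_iff (R : ℕ) (x u : S.X) : u ∈ S.ball R x ↔ u ∈ mgBall S.θ R x := by
  rw [mem_mgBall]
  constructor
  · rintro ⟨g, hg, rfl⟩
    exact ⟨g, hg, S.mgAct_eq g x⟩
  · rintro ⟨g, hg, rfl⟩
    exact ⟨g, hg, S.mgAct_eq g x⟩

theorem exists_rep {R : ℕ} {x u : S.X} (hu : u ∈ S.ball R x) :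
    ∃ g : Wd d R, mgIsRep S.θ R x g.1 ∧ S.act g.1 x = u := by
  classical
  obtain ⟨w, ⟨hw1, hw2⟩, -⟩ := mg_existsUnique_isRep S.θ R x ((S.mem_ball_iff R x u).1 hu)
  exact ⟨⟨w, mem_mgWords.1 hw1.1⟩, hw1, by rw [← S.mgAct_eq]; exact hw2⟩

theorem rep_unique {R : ℕ} {x : S.X} {g g' : Wd d R} (hg : mgIsRep S.θ R x g.1) (hg' : mgIsRep S.θ R x g'.1)
    (h : S.act g.1 x = S.act g'.1 x) : g = g' := by
  apply Subtype.ext
  apply Encodable.encode_injective
  rw [← S.mgAct_eq, ← S.mgAct_eq] at h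
  exact le_antisymm (hg.2 _ hg'.1 h.symm) (hg'.2 _ hg.1 h)

theorem labAt_of_rep {R L : ℕ} {x : S.X} (lab : Wd d R → Fin L → Bool) {g : Wd d R}
    (hg : mgIsRep S.θ R x g.1) : S.labAt x lab (S.act g.1 x) = lab g := by
  have h : ∃ g' : Wd d R, mgIsRep S.θ R x g'.1 ∧ S.act g'.1 x = S.act g.1 x := ⟨g, hg, rfl⟩
  unfold labAt
  rw [dif_pos h]
  congr 1
  exact S.rep_unique (Classical.choose_spec h).1 hg (Classical.choose_spec h).2

theorem labAt_colOf {ι : Type v} {R L : ℕ} (cell : S.X → ι) (z : ι → Fin L → Bool) (x : S.X) {u : S.X}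
    (hu : u ∈ S.ball R x) : S.labAt x (fun (g : Wd d R) t => z (cell (S.act g.1 x)) t) u = z (cell u) := by
  obtain ⟨g, hg, rfl⟩ := S.exists_rep hu
  rw [S.labAt_of_rep _ hg]

theorem measurableSet_labAt {K : ℝ} (hK : 1 ≤ K) (h : S.Good K) {R L : ℕ} (lab : Wd d R → Fin L → Bool)
    (w : List (Fin d)) (b : Fin L → Bool) : MeasurableSet {x | S.labAt x lab (S.act w x) = b} := by
  have hinv : MgInv S.θ := (S.base_good hK h).inv
  have hE : ∀ g : Wd d R, MeasurableSet {x | mgIsRep S.θ R x g.1 ∧ S.act g.1 x = S.act w x} := by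
    intro g
    have h1 := mg_measurableSet_isRep hinv R g.1
    have h2 := mg_measurableSet_eq hinv g.1 w
    have : {x | mgIsRep S.θ R x g.1 ∧ S.act g.1 x = S.act w x} =
        {x | mgIsRep S.θ R x g.1} ∩ {x | mgAct S.θ g.1 x = mgAct S.θ w x} := by
      ext x
      simp only [Set.mem_ofPred_eq, Set.mem_inter_iff, S.mgAct_eq]
    rw [this]
    exact h1.inter h2
  have key : {x | S.labAt x lab (S.act w x) = b} =
      (⋃ g : Wd d R, {x | mgIsRep S.θ R x g.1 ∧ S.act g.1 x = S.act w x} ∩ {_x | lab g = b}) ∪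
      ((⋃ g : Wd d R, {x | mgIsRep S.θ R x g.1 ∧ S.act g.1 x = S.act w x})ᶜ ∩ {_x | (fun _ => false) = b}) := by
    ext x
    simp only [Set.mem_ofPred_eq, Set.mem_union, Set.mem_iUnion, Set.mem_inter_iff, Set.mem_compl_iff]
    by_cases hx : ∃ g : Wd d R, mgIsRep S.θ R x g.1 ∧ S.act g.1 x = S.act w x
    · obtain ⟨g, hg1, hg2⟩ := hx
      rw [← hg2, S.labAt_of_rep lab hg1]
      constructor
      · intro hb
        exact Or.inl ⟨g, ⟨hg1, rfl⟩, hb⟩
      · rintro (⟨g', ⟨hg1', hg2'⟩, hb⟩ | ⟨hn, -⟩)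
        · rw [S.rep_unique hg1 hg1' hg2'.symm]; exact hb
        · exact absurd ⟨g, hg1, rfl⟩ hn
    · have : S.labAt x lab (S.act w x) = fun _ => false := by
        unfold labAt
        rw [dif_neg hx]
      rw [this]
      constructor
      · intro hb
        exact Or.inr ⟨hx, hb⟩
      · rintro (⟨g', hg', -⟩ | ⟨-, hb⟩)
        · exact absurd ⟨g', hg'⟩ hx
        · exact hb
  rw [key]
  exact (MeasurableSet.iUnion fun g => (hE g).inter (MeasurableSet.const _)).union
    ((MeasurableSet.iUnion hE).compl.inter (MeasurableSet.const _))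

theorem measurable_ruleOf {K : ℝ} (hK : 1 ≤ K) (h : S.Good K) {P : MgPar} {ε₁ : ℝ} (hP : P.Good r ε₁) (A N : ℕ) {R L : ℕ}
    (e : (Fin L → Bool) ≃ MgLab A r N × Fin r) (lab : Wd d R → Fin L → Bool) :
    Measurable fun x => S.ruleOf P A N e x lab := by
  classical
  refine measurable_to_countable' fun i => ?_
  have := MgBase.meas_fin_fam (S.base_good hK h) hP A N (root := id) measurable_id
    (fun x u => e (S.labAt x lab u)) (fun w l => by
      have h1 := S.measurableSet_labAt hK h lab w (e.symm l)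
      have h2 : {z : S.X | e (S.labAt z lab (mgAct S.base.σ w (id z))) = l} =
          {x | S.labAt x lab (S.act w x) = e.symm l} := by
        ext x
        simp only [Set.mem_ofPred_eq, id]
        rw [show mgAct S.base.σ w x = S.act w x from S.mgAct_eq w x, Equiv.eq_symm_apply]
      rw [h2]
      exact h1) i
  exact this

open Classical in
theorem colOf_ruleOf {K : ℝ} (hK : 1 ≤ K) (h : S.Good K) {P : MgPar} {ε₁ : ℝ} (hP : P.Good r ε₁) (A N : ℕ) {R L : ℕ}
    (hR : 2 * P.p.natDegree * N ≤ R) (e : (Fin L → Bool) ≃ MgLab A r N × Fin r) {ι : Type v} (cell : S.X → ι)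
    (z : ι → Fin L → Bool) (x : S.X) :
    S.colOf (S.ruleOf P A N (R := R) e) cell z x = S.base.fin P A N (fun u => e (z (cell u))) x := by
  unfold colOf ruleOf
  refine MgBase.fin_congr (S.base_good hK h) hP A N fun u hu => ?_
  have hu' : u ∈ S.ball R x := (S.mem_ball_iff R x u).2 (mgBall_mono _ hR x hu)
  rw [S.labAt_colOf cell z x hu']

open Classical in
theorem separates_iff {ι : Type v} (cell : S.X → ι) (R : ℕ) : S.Separates cell R ↔ MgSeparates S.θ cell R := by
  constructor
  · intro h y u hu v hv huv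
    obtain ⟨g, hg, rfl⟩ := (S.mem_ball_iff R y u).2 hu
    obtain ⟨g', hg', rfl⟩ := (S.mem_ball_iff R y v).2 hv
    by_contra hne
    exact h y g g' hg hg' hne huv
  · intro h x g g' hg hg' hne heq
    exact hne (h x _ ((S.mem_ball_iff R x _).1 ⟨g, hg, rfl⟩) _ ((S.mem_ball_iff R x _).1 ⟨g', hg', rfl⟩) heq)

open Classical in
theorem badAt_of_not_ballOK {K : ℝ} (h : S.Good K) (c : S.X → Fin r) (m : ℕ) (b : ℝ) {x : S.X}
    (hx : ¬ S.BallOK c m b x) : S.base.BadAt (fun u => some (c u)) m b x := by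
  unfold BallOK at hx
  push Not at hx
  obtain ⟨F, ξ, hF, hlt⟩ := hx
  obtain ⟨ζ, hζ1, hζ2⟩ := S.Tg_gauge h x
  have hFb : F ⊆ mgBall S.base.σ m x := fun u hu => (S.mem_ball_iff m x u).1 (hF hu)
  refine ⟨fun u => if u ∈ F then conj (ζ u) * ξ u else 0, ?_⟩
  have e1 : ∑ u ∈ mgBall S.base.σ m x, ‖(if u ∈ F then conj (ζ u) * ξ u else 0 : ℂ)‖ ^ 2 =
      ∑ u ∈ F, ‖ξ u‖ ^ 2 := by
    rw [← Finset.sum_subset hFb (fun u _ hu => by rw [if_neg hu]; simp)]
    refine Finset.sum_congr rfl fun u hu => ?_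
    rw [if_pos hu, norm_mul, RCLike.norm_conj, hζ1, one_mul]
  have e2 : ∑ u ∈ mgBall S.base.σ m x, ∑ v ∈ mgBall S.base.σ m x,
      (if some (c u) = some (c v) then conj (if u ∈ F then conj (ζ u) * ξ u else 0 : ℂ) * S.base.T u v *
        (if v ∈ F then conj (ζ v) * ξ v else 0 : ℂ) else 0) =
      ∑ u ∈ F, ∑ v ∈ F, (if c u = c v then conj (ξ u) * S.T x u v * ξ v else 0) := by
    rw [← Finset.sum_subset hFb (fun u _ hu => by
      refine Finset.sum_eq_zero fun v _ => ?_
      rw [if_neg hu]; simp)]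
    refine Finset.sum_congr rfl fun u hu => ?_
    rw [← Finset.sum_subset hFb (fun v _ hv => by rw [if_neg hv]; simp)]
    refine Finset.sum_congr rfl fun v hv => ?_
    rw [if_pos hu, if_pos hv]
    obtain ⟨g, -, rfl⟩ := hF hu
    obtain ⟨g', -, rfl⟩ := hF hv
    simp only [Option.some.injEq]
    refine if_congr Iff.rfl ?_ rfl
    rw [hζ2 g g']
    show _ * S.Tg _ _ * _ = _
    simp only [map_mul, Complex.conj_conj]
    ring
  show b * ∑ u ∈ mgBall S.base.σ m x, ‖(if u ∈ F then conj (ζ u) * ξ u else 0 : ℂ)‖ ^ 2 <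
    ‖∑ u ∈ mgBall S.base.σ m x, ∑ v ∈ mgBall S.base.σ m x,
      (if some (c u) = some (c v) then conj (if u ∈ F then conj (ζ u) * ξ u else 0 : ℂ) * S.base.T u v *
        (if v ∈ F then conj (ζ v) * ξ v else 0 : ℂ) else 0)‖
  rw [e1, e2]
  exact hlt

end Rule

end MgSys

/-- the colouring theorem in the form consumed by REAL -/
theorem mg_colTheorem : ColTheorem.{u, v} := by
  classical
  intro d S K hS r t hr ht m α η hα hη
  obtain ⟨a, ha⟩ := hr
  have : NeZero r := ⟨by rw [ha]; positivity⟩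
  have hS' := S.good_max hS
  have hK : 1 ≤ max K 1 := le_max_right K 1
  have hB := S.base_good hK hS'
  obtain ⟨P, ε₁, a', N, -, hP, H⟩ := mg_main.{u, v} hB ht m hα hη
  have hcard : Fintype.card (Fin ((a' + a) * N + a) → Bool) = Fintype.card (MgLab (2 ^ a') r N × Fin r) := by
    rw [Fintype.card_prod, mg_card_lab, Fintype.card_fin, Fintype.card_fun, Fintype.card_bool, Fintype.card_fin, ha,
      pow_add, pow_mul, pow_add]
  let e : (Fin ((a' + a) * N + a) → Bool) ≃ MgLab (2 ^ a') r N × Fin r := Fintype.equivOfCardEq hcard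
  refine ⟨max (2 * P.p.natDegree * N) P.p.natDegree, (a' + a) * N + a, S.ruleOf P (2 ^ a') N e,
    fun lab => S.measurable_ruleOf hK hS' hP _ _ e lab, ?_⟩
  intro ι _ _ cell hcell hsep
  have hcol : ∀ z x, S.colOf (S.ruleOf P (2 ^ a') N (R := max (2 * P.p.natDegree * N) P.p.natDegree) e) cell z x =
      S.base.fin P (2 ^ a') N (fun u => e (z (cell u))) x :=
    fun z x => S.colOf_ruleOf hK hS' hP _ _ (le_max_left _ _) e cell z x
  let E : (ι → Fin ((a' + a) * N + a) → Bool) ≃ (ι → MgLab (2 ^ a') r N × Fin r) := Equiv.piCongrRight fun _ => e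
  have hE : ∀ z i, E z i = e (z i) := fun z i => rfl
  have hcardE : Fintype.card (ι → Fin ((a' + a) * N + a) → Bool) = Fintype.card (ι → MgLab (2 ^ a') r N × Fin r) :=
    Fintype.card_congr E
  constructor
  · intro x i
    rw [hcardE, ← MgBase.fin_marginal (cell := cell) hB hP (2 ^ a') N x i]
    congr 1
    refine Finset.card_equiv E fun z => ?_
    simp only [Finset.mem_filter, Finset.mem_univ, true_and, hcol, hE]
  · have hsep' : MgSeparates S.base.σ cell P.p.natDegree :=
      ((S.separates_iff cell _).1 hsep).mono (le_max_right _ _)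
    have H' := H ι cell hcell hsep'
    rw [hcardE]
    refine le_trans ?_ H'
    rw [← Equiv.sum_comp E]
    refine Finset.sum_le_sum fun z _ => ?_
    have := S.prob
    refine ENNReal.toReal_mono (measure_ne_top _ _) (measure_mono fun x hx => ?_)
    have := S.badAt_of_not_ballOK hS' _ m (160 * t + α) hx
    simp only [hcol] at this
    exact this

end

end Claimed.Agent.R302
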