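/-
R302 / MG / BadMeas   (helper76)   LEAF "MG-Bad-meas": measurability of the set of centres of fully assigned balls and of the set of
centres of bad balls (plan: header of MG/Bad.lean).  `BadAt ⟺ ∃ η : words → ℂ, 0 < Φ η x`, `Φ η` measurable, `η ↦ Φ η x` continuous,
the space of the `η` is separable.
-/
import Claimed.Agent.R302.MG.Meas

set_option autoImplicit false
set_option linter.unusedSectionVars false

namespace Claimed.Agent.R302

open MeasureTheory Finset Polynomial
open scoped BigOperators ComplexConjugate ENNReal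

noncomputable section

/-- a supremum over a separable parameter space -/
theorem mgb_measurableSet_exists_pos {X E : Type*} [MeasurableSpace X] [TopologicalSpace E]
    [TopologicalSpace.SeparableSpace E] [Nonempty E] (Φ : E → X → ℝ) (hm : ∀ η, Measurable (Φ η))
    (hc : ∀ x, Continuous fun η => Φ η x) : MeasurableSet {x | ∃ η, 0 < Φ η x} := by
  have : {x | ∃ η, 0 < Φ η x} = ⋃ n : ℕ, {x | 0 < Φ (TopologicalSpace.denseSeq E n) x} := by
    ext x
    simp only [Set.mem_ofPred_eq, Set.mem_iUnion]
    constructor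
    · rintro ⟨η, hη⟩
      have ho : IsOpen {η | 0 < Φ η x} := isOpen_lt continuous_const (hc x)
      obtain ⟨n, hn⟩ := (TopologicalSpace.denseRange_denseSeq E).exists_mem_open ho ⟨η, hη⟩
      exact ⟨n, hn⟩
    · rintro ⟨n, hn⟩
      exact ⟨_, hn⟩
  rw [this]
  exact MeasurableSet.iUnion fun n => measurableSet_lt measurable_const (hm _)

section

variable {X : Type*} [MeasurableSpace X] [DecidableEq X] {D r : ℕ}

theorem mgb_measurableSet_col_eq {σ : Fin D → X → X} (hσ : MgInv σ) {c : X → Option (Fin r)}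
    (hc : MgMeasC c) (w w' : List (Fin D)) :
    MeasurableSet {x | c (mgAct σ w x) = c (mgAct σ w' x)} := by
  have : {x | c (mgAct σ w x) = c (mgAct σ w' x)}
      = ⋃ o : Option (Fin r), (mgAct σ w ⁻¹' (c ⁻¹' {o})) ∩ (mgAct σ w' ⁻¹' (c ⁻¹' {o})) := by
    ext x
    simp only [Set.mem_ofPred_eq, Set.mem_iUnion, Set.mem_inter_iff, Set.mem_preimage,
      Set.mem_singleton_iff]
    constructor
    · intro h; exact ⟨_, h, rfl⟩
    · rintro ⟨o, h1, h2⟩; rw [h1, h2]
  rw [this]
  exact MeasurableSet.iUnion fun o =>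
    (measurable_mgAct hσ.meas w (hc o)).inter (measurable_mgAct hσ.meas w' (hc o))

theorem mgb_measurableSet_assigned {σ : Fin D → X → X} (hσ : MgInv σ) {c : X → Option (Fin r)}
    (hc : MgMeasC c) (m : ℕ) : MeasurableSet {x | ∀ u ∈ mgBall σ m x, c u ≠ none} := by
  have : {x | ∀ u ∈ mgBall σ m x, c u ≠ none}
      = ⋂ w ∈ mgWords D m, (mgAct σ w ⁻¹' (c ⁻¹' {none}))ᶜ := by
    ext x
    simp only [Set.mem_ofPred_eq, Set.mem_iInter, Set.mem_compl_iff, Set.mem_preimage,
      Set.mem_singleton_iff]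
    constructor
    · intro h w hw
      exact h _ (mem_mgBall.2 ⟨w, mem_mgWords.1 hw, rfl⟩)
    · intro h u hu
      obtain ⟨w, hw, rfl⟩ := mem_mgBall.1 hu
      exact h w (mem_mgWords.2 hw)
  rw [this]
  exact Finset.measurableSet_biInter _ fun w _ => (measurable_mgAct hσ.meas w (hc none)).compl

open Classical in
/-- the word form of the defect of the quadratic form -/
def mgbPhi (σ : Fin D → X → X) (c : X → Option (Fin r)) (τ : List (Fin D) → List (Fin D) → X → ℂ)
    (m : ℕ) (b : ℝ) (η : List (Fin D) → ℂ) (x : X) : ℝ :=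
  ‖∑ w ∈ mgWords D m, if mgIsRep σ m x w then
      (∑ w' ∈ mgWords D m, if mgIsRep σ m x w' then
        (if c (mgAct σ w x) = c (mgAct σ w' x) then conj (η w) * τ w w' x * η w' else 0) else 0)
      else 0‖
    - b * ∑ w ∈ mgWords D m, if mgIsRep σ m x w then ‖η w‖ ^ 2 else 0

theorem mgbPhi_measurable {σ : Fin D → X → X} (hσ : MgInv σ) {c : X → Option (Fin r)}
    (hc : MgMeasC c) {τ : List (Fin D) → List (Fin D) → X → ℂ} (hτ : ∀ w w', Measurable (τ w w'))
    (m : ℕ) (b : ℝ) (η : List (Fin D) → ℂ) : Measurable (mgbPhi σ c τ m b η) := by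
  unfold mgbPhi
  refine Measurable.sub (Measurable.norm ?_) (Measurable.const_mul ?_ _)
  · refine Finset.measurable_fun_sum _ fun w _ => ?_
    refine Measurable.ite (mg_measurableSet_isRep hσ m w) ?_ measurable_const
    refine Finset.measurable_fun_sum _ fun w' _ => ?_
    refine Measurable.ite (mg_measurableSet_isRep hσ m w') ?_ measurable_const
    refine Measurable.ite (mgb_measurableSet_col_eq hσ hc w w') ?_ measurable_const
    exact ((hτ w w').const_mul _).mul_const _
  · refine Finset.measurable_fun_sum _ fun w _ => ?_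
    exact Measurable.ite (mg_measurableSet_isRep hσ m w) measurable_const measurable_const

theorem mgbPhi_continuous (σ : Fin D → X → X) (c : X → Option (Fin r))
    (τ : List (Fin D) → List (Fin D) → X → ℂ) (m : ℕ) (b : ℝ) (x : X) :
    Continuous fun η => mgbPhi σ c τ m b η x := by
  classical
  unfold mgbPhi
  refine Continuous.sub (Continuous.norm ?_) (Continuous.mul continuous_const ?_)
  · refine continuous_finsetSum _ fun w _ => ?_
    refine continuous_if_const _ (fun _ => ?_) (fun _ => continuous_const)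
    refine continuous_finsetSum _ fun w' _ => ?_
    refine continuous_if_const _ (fun _ => ?_) (fun _ => continuous_const)
    refine continuous_if_const _ (fun _ => ?_) (fun _ => continuous_const)
    exact ((Complex.continuous_conj.comp (continuous_apply w)).mul continuous_const).mul
      (continuous_apply w')
  · refine continuous_finsetSum _ fun w _ => ?_
    refine continuous_if_const _ (fun _ => ?_) (fun _ => continuous_const)
    exact (continuous_norm.comp (continuous_apply w)).pow 2

/-- `Φ` only depends on the values at the representative words -/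
theorem mgbPhi_congr (σ : Fin D → X → X) (c : X → Option (Fin r))
    (τ : List (Fin D) → List (Fin D) → X → ℂ) (m : ℕ) (b : ℝ) (x : X) {η η' : List (Fin D) → ℂ}
    (h : ∀ w, mgIsRep σ m x w → η w = η' w) : mgbPhi σ c τ m b η x = mgbPhi σ c τ m b η' x := by
  classical
  unfold mgbPhi
  have e1 : ∀ w ∈ mgWords D m, (if mgIsRep σ m x w then
      (∑ w' ∈ mgWords D m, if mgIsRep σ m x w' then
        (if c (mgAct σ w x) = c (mgAct σ w' x) then conj (η w) * τ w w' x * η w' else 0) else 0)
      else 0) = (if mgIsRep σ m x w then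
      (∑ w' ∈ mgWords D m, if mgIsRep σ m x w' then
        (if c (mgAct σ w x) = c (mgAct σ w' x) then conj (η' w) * τ w w' x * η' w' else 0) else 0)
      else 0) := by
    intro w _
    by_cases hw : mgIsRep σ m x w
    · simp only [hw, if_true]
      refine Finset.sum_congr rfl fun w' _ => ?_
      by_cases hw' : mgIsRep σ m x w'
      · simp only [hw', if_true, h w hw, h w' hw']
      · simp only [hw', if_false]
    · simp only [hw, if_false]
  have e2 : ∀ w ∈ mgWords D m, (if mgIsRep σ m x w then ‖η w‖ ^ 2 else 0)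
      = (if mgIsRep σ m x w then ‖η' w‖ ^ 2 else 0) := by
    intro w _
    by_cases hw : mgIsRep σ m x w
    · simp only [hw, if_true, h w hw]
    · simp only [hw, if_false]
  rw [Finset.sum_congr rfl e1, Finset.sum_congr rfl e2]

/-- the word form at `η w = θ w x * ξ (w x)` is the defect of the quadratic form at `ξ` -/
theorem mgbPhi_of_xi (σ : Fin D → X → X) (T : X → X → ℂ) (c : X → Option (Fin r))
    (τ : List (Fin D) → List (Fin D) → X → ℂ) (θ : List (Fin D) → X → ℂ)
    (hθ : ∀ w y, ‖θ w y‖ = 1)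
    (hτ : ∀ w w' y, τ w w' y = θ w y * T (mgAct σ w y) (mgAct σ w' y) * conj (θ w' y))
    (m : ℕ) (b : ℝ) (x : X) (ξ : X → ℂ) :
    mgbPhi σ c τ m b (fun w => θ w x * ξ (mgAct σ w x)) x
      = ‖∑ u ∈ mgBall σ m x, ∑ v ∈ mgBall σ m x,
          (if c u = c v then conj (ξ u) * T u v * ξ v else 0)‖
        - b * ∑ u ∈ mgBall σ m x, ‖ξ u‖ ^ 2 := by
  classical
  unfold mgbPhi
  have hθ' : ∀ w, conj (θ w x) * θ w x = 1 := by
    intro w
    rw [Complex.conj_mul', hθ]
    simp
  rw [mg_sum_ball σ m x (fun u => ‖ξ u‖ ^ 2),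
    mg_sum_ball σ m x (fun u => ∑ v ∈ mgBall σ m x,
      (if c u = c v then conj (ξ u) * T u v * ξ v else 0))]
  have e1 : ∀ w ∈ mgWords D m, (if mgIsRep σ m x w then
      (∑ w' ∈ mgWords D m, if mgIsRep σ m x w' then
        (if c (mgAct σ w x) = c (mgAct σ w' x) then
          conj (θ w x * ξ (mgAct σ w x)) * τ w w' x * (θ w' x * ξ (mgAct σ w' x)) else 0) else 0)
      else 0) = (if mgIsRep σ m x w then ∑ v ∈ mgBall σ m x,
      (if c (mgAct σ w x) = c v then conj (ξ (mgAct σ w x)) * T (mgAct σ w x) v * ξ v else 0)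
      else 0) := by
    intro w _
    by_cases hw : mgIsRep σ m x w
    · simp only [hw, if_true]
      rw [mg_sum_ball σ m x (fun v =>
        (if c (mgAct σ w x) = c v then conj (ξ (mgAct σ w x)) * T (mgAct σ w x) v * ξ v else 0))]
      refine Finset.sum_congr rfl fun w' _ => ?_
      by_cases hw' : mgIsRep σ m x w'
      · simp only [hw', if_true]
        by_cases hcc : c (mgAct σ w x) = c (mgAct σ w' x)
        · simp only [hcc, if_true]
          rw [hτ, map_mul]
          calc conj (θ w x) * conj (ξ (mgAct σ w x))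
                * (θ w x * T (mgAct σ w x) (mgAct σ w' x) * conj (θ w' x))
                * (θ w' x * ξ (mgAct σ w' x))
              = (conj (θ w x) * θ w x) * (conj (θ w' x) * θ w' x)
                * (conj (ξ (mgAct σ w x)) * T (mgAct σ w x) (mgAct σ w' x) * ξ (mgAct σ w' x)) := by
                ring
            _ = _ := by rw [hθ', hθ', one_mul, one_mul]
        · simp only [hcc, if_false]
      · simp only [hw', if_false]
    · simp only [hw, if_false]
  have e2 : ∀ w ∈ mgWords D m, (if mgIsRep σ m x w then ‖θ w x * ξ (mgAct σ w x)‖ ^ 2 else 0)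
      = (if mgIsRep σ m x w then ‖ξ (mgAct σ w x)‖ ^ 2 else 0) := by
    intro w _
    by_cases hw : mgIsRep σ m x w
    · simp only [hw, if_true, norm_mul, hθ, one_mul]
    · simp only [hw, if_false]
  rw [Finset.sum_congr rfl e1, Finset.sum_congr rfl e2]

open Classical in
/-- every `η` comes from a `ξ` on the representative words -/
theorem mgb_exists_xi (σ : Fin D → X → X) (θ : List (Fin D) → X → ℂ) (hθ : ∀ w y, ‖θ w y‖ = 1)
    (m : ℕ) (x : X) (η : List (Fin D) → ℂ) :
    ∃ ξ : X → ℂ, ∀ w, mgIsRep σ m x w → θ w x * ξ (mgAct σ w x) = η w := by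
  refine ⟨fun u => ∑ w ∈ mgWords D m,
    if mgIsRep σ m x w ∧ mgAct σ w x = u then conj (θ w x) * η w else 0, ?_⟩
  intro w₀ hw₀
  have hu : mgAct σ w₀ x ∈ mgBall σ m x := mem_mgBall.2 ⟨w₀, mem_mgWords.1 hw₀.1, rfl⟩
  have huniq := mg_existsUnique_isRep σ m x hu
  have h1 : ∑ w ∈ mgWords D m,
      (if mgIsRep σ m x w ∧ mgAct σ w x = mgAct σ w₀ x then conj (θ w x) * η w else 0)
      = conj (θ w₀ x) * η w₀ := by
    rw [Finset.sum_eq_single_of_mem w₀ hw₀.1]
    · simp only [hw₀, true_and, if_true]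
    · intro w _ hne
      rw [if_neg]
      intro hcon
      exact hne (huniq.unique hcon ⟨hw₀, rfl⟩)
  show θ w₀ x * ∑ w ∈ mgWords D m,
      (if mgIsRep σ m x w ∧ mgAct σ w x = mgAct σ w₀ x then conj (θ w x) * η w else 0) = η w₀
  rw [h1, ← mul_assoc, Complex.mul_conj', hθ]
  simp

theorem mgb_measurableSet_badAt {B : MgBase X D} (hinv : MgInv B.σ) (hker : MgKer B.σ B.T)
    {c : X → Option (Fin r)} (hc : MgMeasC c) (m : ℕ) (b : ℝ) :
    MeasurableSet {x | B.BadAt c m b x} := by
  obtain ⟨τ, θ, hτm, hθ, hτ⟩ := hker.gauge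
  have : {x | B.BadAt c m b x} = {x | ∃ η, 0 < mgbPhi B.σ c τ m b η x} := by
    ext x
    simp only [Set.mem_ofPred_eq, MgBase.BadAt]
    constructor
    · rintro ⟨ξ, hξ⟩
      refine ⟨fun w => θ w x * ξ (mgAct B.σ w x), ?_⟩
      rw [mgbPhi_of_xi B.σ B.T c τ θ hθ hτ m b x ξ]
      linarith
    · rintro ⟨η, hη⟩
      obtain ⟨ξ, hξ⟩ := mgb_exists_xi B.σ θ hθ m x η
      refine ⟨ξ, ?_⟩
      rw [← mgbPhi_congr B.σ c τ m b x hξ, mgbPhi_of_xi B.σ B.T c τ θ hθ hτ m b x ξ] at hη
      linarith
  rw [this]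
  exact mgb_measurableSet_exists_pos _ (mgbPhi_measurable hinv hc hτm m b)
    (mgbPhi_continuous B.σ c τ m b)

end

end

end Claimed.Agent.R302
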